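import Vale.Agent.P231.Co.Sph

/-!
# P231, stage 2 tools (5): Gysin 2 for a trivialised sphere bundle

A closed form `σ` on `D × S(F)` with vanishing sphere integral is `pS a + κ.d`.
-/

set_option linter.unusedSectionVars false
set_option linter.unusedVariables false

open MeasureTheory Set Module Filter Topology
open scoped ContDiff

namespace Vale.Agent.P231.Co

open Vale.Agent.P231.Fm Vale.Agent.P231.W Vale.Agent.P231.H584
open Vale.Agent.P231.Fm (Sm Dif Form Lam)

variable {X Y G : Type*} {D : Dif X} {D' : Dif Y} {DG : Dif G}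

/-! ### the iterated grade involution -/

theorem sgi_d (m : ℕ) (a : Form D) : Form.sg^[m] a.d = (-1 : ℝ) ^ m • (Form.sg^[m] a).d := by
  induction m generalizing a with
  | zero => simp
  | succ m ih =>
    have h1 : a.d.sg = -a.sg.d := by rw [Form.d_sg, neg_neg]
    have h2 : ∀ b : Form D, Form.sg^[m] (-b) = -Form.sg^[m] b := by
      intro b
      clear ih h1
      induction m generalizing b with
      | zero => rfl
      | succ m ih => rw [Function.iterate_succ_apply, Form.sg_neg, ih, Function.iterate_succ_apply]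
    rw [Function.iterate_succ_apply, h1, h2, ih, Function.iterate_succ_apply, pow_succ,
      mul_neg_one, neg_smul]

theorem sgi_neg (m : ℕ) (a : Form D) : Form.sg^[m] (-a) = -Form.sg^[m] a := by
  induction m generalizing a with
  | zero => rfl
  | succ m ih => rw [Function.iterate_succ_apply, Form.sg_neg, ih, Function.iterate_succ_apply]

theorem sgi_smul (m : ℕ) (c : ℝ) (a : Form D) : Form.sg^[m] (c • a) = c • Form.sg^[m] a := by
  induction m generalizing a with
  | zero => rfl
  | succ m ih => rw [Function.iterate_succ_apply, Form.sg_smul, ih, Function.iterate_succ_apply]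

theorem sgi_sgi (m : ℕ) (a : Form D) : Form.sg^[m] (Form.sg^[m] a) = a := by
  rw [← Function.iterate_add_apply]
  exact Form.sg_iter_even a ⟨m, rfl⟩

theorem sgi_pull {f : X → Y} (hf : D.Map D' f) (m : ℕ) (a : Form D') :
    Form.pull f hf (Form.sg^[m] a) = Form.sg^[m] (Form.pull f hf a) := by
  induction m generalizing a with
  | zero => rfl
  | succ m ih => rw [Function.iterate_succ_apply, ih, Form.pull_sg, Function.iterate_succ_apply]

theorem isDeg_sgi {k m : ℕ} {a : Form D} (h : Form.IsDeg k a) : Form.IsDeg k (Form.sg^[m] a) := by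
  induction m with
  | zero => exact h
  | succ m ih =>
    rw [Function.iterate_succ_apply', ih.sg]
    exact ih.smul _

theorem van_sgi {A : Set X} {m : ℕ} {a : Form D} (h : Van A a) : Van A (Form.sg^[m] a) := by
  induction m with
  | zero => exact h
  | succ m ih =>
    rw [Function.iterate_succ_apply']
    exact ih.sg

theorem isDeg_KT {w : Form (D.prod (Dif.lin ℝ))} {k : ℕ} (c : ℝ) (hw : Form.IsDeg (k + 1) w) :
    Form.IsDeg k (KT c w) := (hw.pull _ (map_scale c)).K

theorem degc {k l : ℕ} {w : Form D} (h : Form.IsDeg k w) (e : k = l) : Form.IsDeg l w := e ▸ h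

section Gysin

variable {F : Type} [NormedAddCommGroup F] [InnerProductSpace ℝ F] [FiniteDimensional ℝ F]
  [MeasurableSpace F] [BorelSpace F] {m : ℕ} (o : OrthonormalBasis (Fin m) ℝ F)

/-- a Thom form -/
structure Th (τ : Form (D1 D F)) : Prop where
  d : τ.d = 0
  vc : Vc 1 τ
  one : Form.fi o τ = 1
  deg : Form.IsDeg m τ

/-- the compactly supported primitive of `dχ ∧ n^*σ` -/
noncomputable def Lm (σ : Form (SB D F)) (τ : Form (D1 D F)) : Form (D1 D F) :=
  -(Form.sg^[m] (Form.fi o (RW (dx σ) τ)))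

/-- the closed extension of `σ` -/
noncomputable def Gx (σ : Form (SB D F)) (τ : Form (D1 D F)) : Form (D1 D F) :=
  ext σ - Lm o σ τ

variable {σ : Form (SB D F)} {τ : Form (D1 D F)}

theorem vc_Lm (hτ : Th o τ) : Vc 2 (Lm o σ τ) := by
  have h := vc_fi_RW o zero_le_one (vc_dx σ) hτ.vc
  rw [mul_one] at h
  exact (van_sgi h).neg

theorem Lm_d (hσ : σ.d = 0) (h0 : si o σ = 0) (hτ : Th o τ) : (Lm o σ τ).d = dx σ := by
  have h1 : (dx σ).d = 0 := by rw [dx_d, hσ, dx_zero, neg_zero]
  have h2 := rotation o zero_le_one (vc_dx σ) hτ.vc h1 hτ.d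
  have h3 : Form.fi o (dx σ) = 0 := h0
  rw [h3, hτ.one, pull_zero, pull_one, zero_mul, mul_one, zero_sub] at h2
  have h4 := congrArg (Form.sg^[m]) h2
  rw [sgi_neg, sgi_sgi, sgi_smul, sgi_d, smul_smul, ← pow_add, ← two_mul, pow_mul] at h4
  norm_num at h4
  rw [Lm, Form.d_neg, ← h4, neg_neg]

theorem Gx_d (hσ : σ.d = 0) (h0 : si o σ = 0) (hτ : Th o τ) : (Gx o σ τ).d = 0 := by
  rw [Gx, Form.d_sub, Lm_d o hσ h0 hτ, ext_d, hσ]
  have : ext (0 : Form (SB D F)) = 0 := by rw [ext, pull_zero, Form.mx_zero]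
  rw [this, add_zero, sub_self]

/-- the scaling homotopy -/
def scl (p : (X × F) × ℝ) : X × F := (p.1.1, (3 * p.2) • p.1.2)

theorem map_scl : ((SB D F).prod (Dif.lin ℝ)).Map (D1 D F) scl := fun {E} _ _ _ {u x} h =>
  ⟨h.1.1.1, sm_smul (Sm.comp (f := fun t : ℝ => 3 * t)
    (Sm.of_contDiff (contDiff_const.mul contDiff_id) _) h.2) h.1.1.2⟩

/-- the zero section -/
theorem map_zs : D.Map (D1 D F) (fun x => (x, (0 : F))) := fun h =>
  ⟨h, Sm.of_contDiff contDiff_const _⟩

/-- the base part -/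
noncomputable def ba (σ : Form (SB D F)) (τ : Form (D1 D F)) : Form D :=
  Form.pull (fun x => (x, (0 : F))) map_zs (Gx o σ τ)

/-- the primitive part -/
noncomputable def ka (σ : Form (SB D F)) (τ : Form (D1 D F)) : Form (SB D F) :=
  Form.K (Form.pull scl map_scl (Gx o σ τ))

theorem pull_rad_van {w : Form (D1 D F)} {c R : ℝ} (hR : R < c) (hR0 : 0 ≤ R) (hw : Vc R w) :
    Form.pull (fun p : X × F => (p.1, c • p.2)) (map_rad c) w = (0 : Form (SB D F)) :=
  Form.ext_val fun E _ _ _ u x h => by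
    rw [Form.pull_val _ _ h, Form.zero_val]
    refine hw.out (map_rad c h) ?_
    have h1 : ‖(u x).2‖ = 1 := h.2.self_of_nhds
    change R < ‖c • (u x).2‖
    rw [norm_smul, h1, mul_one, Real.norm_of_nonneg (by linarith)]
    exact hR

/-- **Gysin 2** -/
theorem gysin2 (hσ : σ.d = 0) (h0 : si o σ = 0) (hτ : Th o τ) :
    σ = pS (ba o σ τ) + (ka o σ τ).d := by
  have h := homotopy' (Form.pull scl map_scl (Gx o σ τ) : Form ((SB D F).prod (Dif.lin ℝ)))
  rw [← Form.pull_d, Gx_d o hσ h0 hτ, pull_zero, K_zero, zero_add] at h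
  have h1 : at_ 1 (Form.pull scl map_scl (Gx o σ τ) : Form ((SB D F).prod (Dif.lin ℝ))) = σ := by
    rw [at_, pull_pull (k := fun p : X × F => (p.1, (3 : ℝ) • p.2)) (Form.map_slice 1) map_scl
      (map_rad 3) (fun p => by simp [scl]) (Gx o σ τ), Gx, pull_sub,
      pull_rad_ext σ (by norm_num), pull_rad_van (by norm_num) (by norm_num) (vc_Lm o hτ),
      sub_zero]
  have h2 : at_ 0 (Form.pull scl map_scl (Gx o σ τ) : Form ((SB D F).prod (Dif.lin ℝ))) =
      pS (ba o σ τ) := by
    have hk : (SB D F).Map (D1 D F) (fun p => (p.1, (0 : F))) := fun h => map_zs h.1.1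
    rw [at_, pull_pull (k := fun p : X × F => (p.1, (0 : F))) (Form.map_slice 0) map_scl hk
      (fun p => by simp [scl]) (Gx o σ τ)]
    exact (pull_pull map_sbfst map_zs hk (fun p => rfl) (Gx o σ τ)).symm
  rw [h1, h2] at h
  rw [ka, ← h]
  abel

theorem ba_d (hσ : σ.d = 0) (h0 : si o σ = 0) (hτ : Th o τ) : (ba o σ τ).d = 0 := by
  rw [ba, ← Form.pull_d, Gx_d o hσ h0 hτ, pull_zero]

theorem isDeg_Gx {j : ℕ} (hj : Form.IsDeg j σ) (hτ : Th o τ) : Form.IsDeg j (Gx o σ τ) := by
  have h1 : Form.IsDeg (j + 1 + m) (WW (dx σ) τ) :=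
    ((isDeg_pull_nrm hj).pull Prod.fst (Dif.map_fst (D' := Dif.lin F))).mul
      (hτ.deg.pull (fun p : (X × F) × F => (p.1.1, p.2)) map_p2)
  have h2 : Form.IsDeg (j + m) (RW (dx σ) τ) :=
    isDeg_KT _ (degc (h1.pull rt map_rt) (by ring))
  have hv := vc_RW zero_le_one (vc_dx σ) hτ.vc
  have h3 : Form.IsDeg j (Form.fi o (RW (dx σ) τ)) := Form.isDeg_fi (vc_of_van hv) h2
  exact (isDeg_ext hj).sub (isDeg_sgi h3).neg

theorem isDeg_ba {j : ℕ} (hj : Form.IsDeg j σ) (hτ : Th o τ) : Form.IsDeg j (ba o σ τ) :=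
  (isDeg_Gx o hj hτ).pull (fun x : X => (x, (0 : F))) map_zs

theorem isDeg_ka {j : ℕ} (hj : Form.IsDeg (j + 1) σ) (hτ : Th o τ) :
    Form.IsDeg j (ka o σ τ) := ((isDeg_Gx o hj hτ).pull scl map_scl).K

theorem ka_zero (hj : Form.IsDeg 0 σ) (hτ : Th o τ) : ka o σ τ = 0 :=
  ((isDeg_Gx o hj hτ).pull scl map_scl).K_zero

/-! ### the trivial Thom form -/

theorem pull_zero_clm {E E' : Type*} [NormedAddCommGroup E] [NormedSpace ℝ E]
    [FiniteDimensional ℝ E] [NormedAddCommGroup E'] [NormedSpace ℝ E'] [FiniteDimensional ℝ E']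
    (w : Lam E') : Fm.pull (0 : E →L[ℝ] E') w = algebraMap ℝ (Lam E) (aug w) := by
  have h : Fm.pull (0 : E →L[ℝ] E') = (Algebra.ofId ℝ (Lam E)).comp (aug : Lam E' →ₐ[ℝ] ℝ) :=
    Lam.algHom_ext fun a => by
      rw [pull_dxl, ContinuousLinearMap.comp_zero, map_zero, AlgHom.comp_apply]
      have : aug (dxl a : Lam E') = 0 := aug_dx a
      rw [this, map_zero]
  rw [h]
  rfl

/-- a compactly supported volume form with integral one -/
theorem exists_vol : ∃ (w : F → Lam F), ContDiff ℝ ∞ w ∧ (∀ y, 1 < ‖y‖ → w y = 0) ∧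
    (∀ y, WA.prt m (w y) = w y) ∧ (∀ y, extd w y = 0) ∧
    ∃ f : F → ℝ, (∀ y, aug (cont o (w y)) = f y) ∧ Integrable f ∧ ∫ y, f y = 1 := by
  obtain ⟨T₀, hT₀, -⟩ := exists_top o.toBasis
  set T : Lam F := WA.prt m T₀ with hT
  have hT1 : aug (cont o T) = 1 := by
    have h1 := WA.evalForm_prt T₀ (o : Fin m → F)
    rw [evalForm_apply] at h1
    have h2 : evalForm T₀ (o : Fin m → F) = 1 := by
      rw [← hT₀, OrthonormalBasis.coe_toBasis]
    rw [hT, h1, h2]
  have hT2 : WA.prt m T = T := WA.prt_prt_self m T₀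
  let b : ContDiffBump (0 : F) := ⟨1 / 4, 1 / 2, by norm_num, by norm_num⟩
  have hb : ContDiff ℝ ∞ (b.normed volume) := b.contDiff_normed
  have hfin : finrank ℝ F = m := by
    rw [finrank_eq_card_basis o.toBasis, Fintype.card_fin]
  refine ⟨fun y => b.normed volume y • T, hb.smul contDiff_const, ?_, ?_, ?_,
    b.normed volume, ?_, b.integrable_normed, b.integral_normed⟩
  · intro y hy
    have h1 : y ∉ Function.support (b.normed volume) := by
      rw [b.support_normed_eq, Metric.mem_ball, dist_zero_right, not_lt]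
      change (1 / 2 : ℝ) ≤ ‖y‖
      linarith
    change b.normed volume y • T = 0
    rw [Function.notMem_support.1 h1, zero_smul]
  · intro y
    rw [map_smul, hT2]
  · intro y
    have h1 : DifferentiableAt ℝ (b.normed volume) y := hb.differentiable (by simp) y
    rw [extd_smul h1 (differentiableAt_const T), extd_const, smul_zero, add_zero]
    have h2 := WA.prt_succ_dx_mul m (fderiv ℝ (b.normed volume) y) T
    rw [hT2] at h2
    rw [← h2]
    exact WA.prt_eq_zero (by rw [hfin]; exact Nat.lt_succ_self m) _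
  · intro y
    rw [map_smul, map_smul, hT1, smul_eq_mul, mul_one]

/-- the trivial bundle has a Thom form -/
theorem exists_th (D : Dif X) : ∃ τ : Form (D1 D F), Th o τ := by
  obtain ⟨w, hw, hR, hdeg, hd, f, hf, hfi, hf1⟩ := exists_vol o
  have hv : ∀ {E : Type} [NormedAddCommGroup E] [NormedSpace ℝ E] [FiniteDimensional ℝ E]
      {u : E → X × F} {x : E}, (D1 D F).At u x →
      (Form.pull (Prod.snd : X × F → F) (Dif.map_snd (D := D)) (Form.ofLin w hw)).val u x =
        pb (fun y => (u y).2) w x := fun {E} _ _ _ {u x} h => by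
    rw [Form.pull_val _ _ h, Form.ofLin_val w hw (Dif.map_snd (D := D) h)]
    rfl
  refine ⟨Form.pull (Prod.snd : X × F → F) (Dif.map_snd (D := D)) (Form.ofLin w hw), ?_, ?_, ?_,
    ?_⟩
  · rw [← Form.pull_d, Form.d_ofLin]
    refine Form.ext_val fun E _ _ _ u x h => ?_
    rw [Form.pull_val _ _ h, Form.ofLin_val _ _ (Dif.map_snd (D := D) h), pb, hd, map_zero,
      Form.zero_val]
  · refine ⟨fun {E} _ _ _ {u x} h hx => ?_⟩
    have hx' : 1 < ‖(u x).2‖ := hx
    rw [hv h, pb, hR _ hx', map_zero]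
  · refine Form.ext_val fun E _ _ _ u x h => ?_
    have hvc : (Form.pull (Prod.snd : X × F → F) (Dif.map_snd (D := D))
        (Form.ofLin w hw)).VC 1 := by
      intro E _ _ _ u x h hx
      rw [hv h, pb, hR _ hx, map_zero]
    rw [Form.fi_val hvc h, Form.one_val h, fib]
    have h1 : ∀ ξ : F, slice (E := E) o ((Form.pull (Prod.snd : X × F → F)
        (Dif.map_snd (D := D)) (Form.ofLin w hw)).val (cylF u) (x, ξ)) =
        f ξ • (1 : Lam E) := fun ξ => by
      rw [hv (cylF_at h ξ), pb]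
      have h2 : fderiv ℝ (fun y : E × F => (cylF u y).2) (x, ξ) =
          ContinuousLinearMap.snd ℝ E F := fderiv_snd
      rw [h2, slice_apply, pull_cont, ← pull_comp_apply]
      have h3 : (ContinuousLinearMap.snd ℝ E F).comp (ContinuousLinearMap.inl ℝ E F) = 0 := by
        ext
        simp
      have h4 : (fun i => (ContinuousLinearMap.snd ℝ E F) (vert (E := E) o i)) = o := by
        funext i
        rfl
      rw [h3, h4, pull_zero_clm, Algebra.algebraMap_eq_smul_one]
      exact congrArg (· • (1 : Lam E)) (hf ξ)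
    simp only [h1]
    rw [integral_smul_const, hf1, one_smul]
  · refine Form.ext_val fun E _ _ _ u x h => ?_
    rw [Form.part_val, hv h, pb, WA.prt_pull, hdeg]

/-- **(M0)** the cohomology of `D × S(F)` below the dimension of the sphere -/
theorem sph_low (o : OrthonormalBasis (Fin m) ℝ F) {j : ℕ} (hj : Form.IsDeg j σ) (hjm : j + 1 < m) (hσ : σ.d = 0) :
    ∃ (a : Form D) (κ : Form (SB D F)), a.d = 0 ∧ Form.IsDeg j a ∧ σ = pS a + κ.d ∧
      (∀ i, j = i + 1 → Form.IsDeg i κ) ∧ (j = 0 → κ = 0) := by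
  obtain ⟨τ, hτ⟩ := exists_th (F := F) o D
  have h0 : si o σ = 0 := si_eq_zero o hj hjm
  refine ⟨ba o σ τ, ka o σ τ, ba_d o hσ h0 hτ, isDeg_ba o hj hτ, gysin2 o hσ h0 hτ, ?_, ?_⟩
  · rintro i rfl
    exact isDeg_ka o hj hτ
  · rintro rfl
    exact ka_zero o hj hτ

end Gysin

end Vale.Agent.P231.Co
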