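import Vale.Agent.P231.Co.RelC
import Vale.Agent.P231.Co.Gys

/-!
# P231, stage 2 tools: homotopies, contractible spaces, gluing of primitives, descent to a
quotient
-/

set_option linter.unusedSectionVars false
set_option linter.unusedVariables false

open Set Module Filter Topology
open scoped ContDiff

namespace Vale.Agent.P231.Fm

open Vale.Agent.P231.WA

variable {X Y Q : Type*} {D : Dif X} {D' : Dif Y}

/-- a homotopy which is only defined over a subset -/
theorem Dif.map_slice_on {O : Set X} (t : ℝ) :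
    (D.on O).Map ((D.on O).prod (Dif.lin ℝ)) (fun x => (x, t)) := fun h =>
  ⟨h, Sm.of_contDiff contDiff_const _⟩

namespace Form

theorem K_zero' : K (0 : Form (D.prod (Dif.lin ℝ))) = 0 := by
  have h := K_smul 0 (0 : Form (D.prod (Dif.lin ℝ)))
  rwa [zero_smul, zero_smul] at h

/-- homotopic maps have cohomologous pullbacks -/
theorem pull_homotopic {O : Set X} {H : X × ℝ → Y} (hH : ((D.on O).prod (Dif.lin ℝ)).Map D' H)
    {f g : X → Y} (hf : (D.on O).Map D' f) (hg : (D.on O).Map D' g) (h1 : ∀ x ∈ O, H (x, 1) = f x)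
    (h0 : ∀ x ∈ O, H (x, 0) = g x) {w : Form D'} (hw : w.d = 0) :
    pull f hf w - pull g hg w = (K (pull H hH w)).d := by
  have h := homotopy (pull H hH w)
  rw [← pull_d, hw, pull_zero', K_zero', zero_add] at h
  rw [← h]
  refine ext_val fun E _ _ _ u x hu => ?_
  rw [sub_val, sub_val, pull_val _ _ hu, pull_val _ _ hu, pull_val _ _ hu, pull_val _ _ hu,
    pull_val _ _ (Dif.map_slice_on 1 hu), pull_val _ _ (Dif.map_slice_on 0 hu)]
  have e1 : w.val (f ∘ u) x = w.val (H ∘ ((fun x => (x, (1 : ℝ))) ∘ u)) x := by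
    refine w.congr (hf hu) ?_
    filter_upwards [hu.2] with y hy
    exact (h1 (u y) hy).symm
  have e0 : w.val (g ∘ u) x = w.val (H ∘ ((fun x => (x, (0 : ℝ))) ∘ u)) x := by
    refine w.congr (hg hu) ?_
    filter_upwards [hu.2] with y hy
    exact (h0 (u y) hy).symm
  rw [e1, e0]

/-- pullback by a constant map -/
theorem pull_const {y₀ : Y} (hc : D.Map D' (fun _ => y₀)) (w : Form D') :
    pull (fun _ => y₀) hc w = aug (w.val (fun _ : ℝ => y₀) 0) • (1 : Form D) :=
  ext_val fun E _ _ _ u x hu => by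
    have h1 : D'.At (fun _ : E => y₀) x := hc hu
    have h2 : D'.At (fun _ : ℝ => y₀) ((fun _ : E => (0 : ℝ)) x) := Dif.At_const h1 0
    have h3 : (fun _ : E => y₀) = (fun _ : ℝ => y₀) ∘ (fun _ : E => (0 : ℝ)) := rfl
    have h4 : ((fun _ : X => y₀) ∘ u) = fun _ : E => y₀ := rfl
    have h6 : fderiv ℝ (fun _ : E => (0 : ℝ)) x = 0 := by simp
    have h7 := w.nat (u := fun _ : ℝ => y₀) (g := fun _ : E => (0 : ℝ)) (x := x) h2
      (Sm.of_contDiff contDiff_const _)
    have h5 := Co.pull_zero_clm (E := E) (w.val (fun _ : ℝ => y₀) 0)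
    rw [Algebra.algebraMap_eq_smul_one] at h5
    rw [pull_val _ _ hu, smul_val, one_val hu, h4, h3, h7, h6]
    exact h5

theorem pull_const_eq_zero {y₀ : Y} (hc : D.Map D' (fun _ => y₀)) {w : Form D'} {k : ℕ}
    (hw : IsDeg (k + 1) w) : pull (fun _ => y₀) hc w = 0 := by
  have h1 : IsDeg (k + 1) (pull (fun _ => y₀) hc w) := hw.pull _ _
  rw [pull_const] at h1 ⊢
  refine ext_val fun E _ _ _ u x hu => ?_
  have h2 := congrArg (fun f : Form D => f.val u x) h1
  change (part (k + 1) _).val u x = (aug (w.val (fun _ : ℝ => y₀) 0) • (1 : Form D)).val u x at h2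
  rw [← h2, part_val, smul_val, one_val hu, map_smul, prt_one, if_neg (Nat.succ_ne_zero k),
    smul_zero, zero_val]

/-- a contraction of a subset -/
structure Contr (D : Dif X) (O : Set X) : Prop where
  out : ∃ (H : X × ℝ → X) (x₀ : X), ((D.on O).prod (Dif.lin ℝ)).Map (D.on O) H ∧ x₀ ∈ O ∧
    (D.on O).Map (D.on O) (fun _ => x₀) ∧ (∀ x ∈ O, H (x, 1) = x) ∧ ∀ x ∈ O, H (x, 0) = x₀

theorem Contr.eq {O : Set X} (h : Contr D O) {w : Form (D.on O)} (hw : w.d = 0) :
    ∃ (c : ℝ) (κ : Form (D.on O)), w = c • (1 : Form (D.on O)) + κ.d ∧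
      ∀ k, IsDeg (k + 1) w → c = 0 ∨ (1 : Form (D.on O)) = 0 := by
  obtain ⟨H, x₀, hH, hx, hc, h1, h0⟩ := h.out
  have e1 := pull_homotopic (D := D) (O := O) (D' := D.on O) hH (f := id) (g := fun _ => x₀)
    Dif.map_id hc h1 h0 hw
  rw [pull_id] at e1
  refine ⟨aug (w.val (fun _ : ℝ => x₀) 0), K (pull H hH w), ?_, fun k hk => ?_⟩
  · rw [← pull_const hc, ← e1]
    abel
  · have h2 := pull_const_eq_zero hc hk
    rw [pull_const] at h2
    exact smul_eq_zero.1 h2

theorem Contr.exact {O : Set X} (h : Contr D O) {w : Form (D.on O)} (hw : w.d = 0) {k : ℕ}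
    (hk : IsDeg (k + 1) w) : ∃ κ : Form (D.on O), w = κ.d := by
  obtain ⟨c, κ, h1, h2⟩ := h.eq hw
  refine ⟨κ, ?_⟩
  rcases h2 k hk with h3 | h3
  · rw [h1, h3, zero_smul, zero_add]
  · rw [h1, h3, smul_zero, zero_add]

theorem Contr.const {O : Set X} (h : Contr D O) {w : Form (D.on O)} (hw : w.d = 0)
    (hk : IsDeg 0 w) : ∃ c : ℝ, w = c • (1 : Form (D.on O)) := by
  obtain ⟨c, κ, h1, -⟩ := h.eq hw
  refine ⟨c, ?_⟩
  have h2 : part 0 w = w := hk
  rw [← h2]
  conv_lhs => rw [h1]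
  rw [part_add, part_zero_d, add_zero, part_smul, part_one]
  simp

/-! ### descent -/

/-- a form which only depends on the projection of the plots -/
structure IsBas (q : X → Q) (γ : Form D) : Prop where
  out : ∀ {E : Type} [NormedAddCommGroup E] [NormedSpace ℝ E] [FiniteDimensional ℝ E]
    {f g : E → X} {x : E}, D.At f x → D.At g x → q ∘ f =ᶠ[𝓝 x] q ∘ g → γ.val f x = γ.val g x

theorem isBas_pull {q : X → Q} (γ : Form (D.quot q)) :
    IsBas q (pull q Dif.map_quot γ : Form D) :=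
  ⟨fun {E} _ _ _ {f g x} hf hg h => by
    rw [pull_val _ _ hf, pull_val _ _ hg]
    exact γ.congr (Dif.map_quot hf) h⟩

open Classical in
/-- the value of the descended form -/
noncomputable def descVal (q : X → Q) (γ : Form D) {E : Type} [NormedAddCommGroup E]
    [NormedSpace ℝ E] [FiniteDimensional ℝ E] (u : E → Q) (x : E) : Lam E :=
  if h : ∃ v : E → X, q ∘ v =ᶠ[𝓝 x] u ∧ D.At v x then γ.val h.choose x else 0

theorem descVal_eq {q : X → Q} {γ : Form D} (hγ : IsBas q γ) {E : Type} [NormedAddCommGroup E]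
    [NormedSpace ℝ E] [FiniteDimensional ℝ E] {u : E → Q} {x : E} {v : E → X}
    (h1 : q ∘ v =ᶠ[𝓝 x] u) (h2 : D.At v x) : descVal q γ u x = γ.val v x := by
  have h : ∃ v : E → X, q ∘ v =ᶠ[𝓝 x] u ∧ D.At v x := ⟨v, h1, h2⟩
  rw [descVal, dif_pos h]
  exact hγ.out h.choose_spec.2 h2 (h.choose_spec.1.trans h1.symm)

/-- the descended form -/
noncomputable def desc (q : X → Q) (γ : Form D) (hγ : IsBas q γ) : Form (D.quot q) :=
  mk' (fun {E} _ _ _ u x => descVal q γ u x)
    (fun {E} _ _ _ {u x} h => by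
      obtain ⟨v, h1, h2⟩ := h
      refine (γ.smooth h2).congr_of_eventuallyEq ?_
      filter_upwards [h1.eventuallyEq_nhds, D.open' h2] with y h3 h4
      exact descVal_eq hγ h3 h4)
    (fun {E F} _ _ _ _ _ _ {u g x} h hg => by
      obtain ⟨v, h1, h2⟩ := h
      rw [descVal_eq hγ h1 h2, ← γ.nat h2 hg]
      exact descVal_eq hγ (v := v ∘ g) (hg.continuousAt.eventually h1) (D.comp h2 hg))
    (fun {E} _ _ _ {u v x} h huv => by
      obtain ⟨f, h1, h2⟩ := h
      rw [descVal_eq hγ h1 h2, descVal_eq hγ (h1.trans huv) h2])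

theorem desc_val {q : X → Q} {γ : Form D} (hγ : IsBas q γ) {E : Type} [NormedAddCommGroup E]
    [NormedSpace ℝ E] [FiniteDimensional ℝ E] {u : E → Q} {x : E} {v : E → X}
    (h1 : q ∘ v =ᶠ[𝓝 x] u) (h2 : D.At v x) : (desc q γ hγ).val u x = γ.val v x := by
  have h3 : (D.quot q).At u x := ⟨v, h1, h2⟩
  rw [desc, mk'_val h3]
  exact descVal_eq hγ h1 h2

theorem pull_desc {q : X → Q} {γ : Form D} (hγ : IsBas q γ) :
    pull q Dif.map_quot (desc q γ hγ) = γ := ext_val fun E _ _ _ u x hu => by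
  rw [pull_val _ _ hu]
  exact desc_val hγ EventuallyEq.rfl hu

/-- pullback to the total space is injective -/
theorem pull_quot_inj {q : X → Q} {a b : Form (D.quot q)}
    (h : (pull q Dif.map_quot a : Form D) = pull q Dif.map_quot b) : a = b := by
  refine ext_val fun E _ _ _ u x hu => ?_
  obtain ⟨v, h1, h2⟩ := hu
  have h3 := congrArg (fun f : Form D => f.val v x) h
  change (pull q Dif.map_quot a : Form D).val v x = (pull q Dif.map_quot b : Form D).val v x at h3
  rw [pull_val _ _ h2, pull_val _ _ h2, a.congr (Dif.map_quot h2) h1,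
    b.congr (Dif.map_quot h2) h1] at h3
  exact h3

end Form

end Vale.Agent.P231.Fm
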