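import Vale.Agent.P231.Co.Rel
import Mathlib.Analysis.SpecialFunctions.SmoothTransition

/-!
# P231, stage 2 tools: relative Mayer–Vietoris, induction over a finite cover
-/

set_option linter.unusedSectionVars false
set_option linter.unusedVariables false

open Set Module Filter Topology
open scoped ContDiff

namespace Vale.Agent.P231.Fm

open Vale.Agent.P231.WA

variable {B S : Type*} {DB : Dif B} {DS : Dif S} {π : S → B} {hπ : DS.Map DB π}

namespace Form

/-- the closed forms of `S` of degree `j` come from `B` -/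
def Sur (j : ℤ) (DB : Dif B) (DS : Dif S) (π : S → B) (hπ : DS.Map DB π) : Prop :=
  ∀ σ : Form DS, DegZ j σ → σ.d = 0 → ∃ (a : Form DB) (κ : Form DS), a.d = 0 ∧
    σ = pull π hπ a + κ.d

theorem sur_neg {j : ℤ} (hj : j < 0) : Sur j DB DS π hπ := fun σ hσ _ =>
  ⟨0, 0, d_zero, by rw [hσ.eq_zero hj, pull_zero', d_zero, add_zero]⟩

/-- with a section, surjectivity one degree below is enough -/
theorem RelAt.of_sec {j : ℤ} (h : Sur (j - 1) DB DS π hπ) {s : B → S} (hs : DB.Map DS s)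
    (h1 : ∀ a : Form DB, pull s hs (pull π hπ a) = a) : RelAt j DB DS π hπ := by
  refine relAt_of fun a κ ha hκ hd hp => ?_
  have hc : (pull s hs κ).d = a := by rw [← pull_d, ← hp, h1]
  obtain ⟨a', l, ha', hl⟩ := h (κ - pull π hπ (pull s hs κ))
    (hκ.sub ((hκ.pull _ _).pull _ _)) (by rw [d_sub, ← pull_d, hc, hp, sub_self])
  refine ⟨pull s hs κ + a', l, ?_, ?_⟩
  · rw [d_add, hc, ha', add_zero]
  · rw [pull_add', ← sub_sub, hl]
    abel

theorem relAt_empty {j : ℤ} :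
    RelAt j (DB.on ∅) (DS.on (π ⁻¹' ∅)) π (hπ.on_pre ∅) := by
  refine relAt_of fun a κ _ _ _ _ => ⟨0, 0, ?_, ?_⟩
  · exact ext_val fun E _ _ _ u x hu => (hu.2.self_of_nhds).elim
  · exact ext_val fun E _ _ _ u x hu => (hu.2.self_of_nhds).elim

theorem relAt_on_on {j : ℤ} {O W : Set B} (hOW : O ⊆ W)
    (h : RelAt j (DB.on O) (DS.on (π ⁻¹' O)) π (hπ.on_pre O)) :
    RelAt j ((DB.on W).on O) ((DS.on (π ⁻¹' W)).on (π ⁻¹' O)) π
      (Dif.Map.on_pre (Dif.Map.on_pre hπ W) O) :=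
  h.congr (fun h1 => ⟨h1.1.1, h1.2⟩)
    (fun h1 => ⟨⟨h1.1, h1.2.mono fun _ hy => hOW hy⟩, h1.2⟩)
    (fun h1 => ⟨h1.1.1, h1.2⟩)
    (fun h1 => ⟨⟨h1.1, h1.2.mono fun _ hy => hOW hy⟩, h1.2⟩)

theorem relAt_of_univ {j : ℤ} {O : Set B} (hO : ∀ x, x ∈ O)
    (h : RelAt j (DB.on O) (DS.on (π ⁻¹' O)) π (hπ.on_pre O)) : RelAt j DB DS π hπ :=
  h.congr (fun h1 => ⟨h1, Eventually.of_forall fun _ => hO _⟩) (fun h1 => h1.1)
    (fun h1 => ⟨h1, Eventually.of_forall fun _ => hO _⟩) (fun h1 => h1.1)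

/-! ### the partition function -/

/-- the profile -/
noncomputable def prf (t : ℝ) : ℝ := Real.smoothTransition (3 * t - 1)

theorem contDiff_prf : ContDiff ℝ ∞ prf :=
  Real.smoothTransition.contDiff.comp ((contDiff_const.mul contDiff_id).sub contDiff_const)

theorem prf_zero {t : ℝ} (ht : t ≤ 1 / 3) : prf t = 0 :=
  Real.smoothTransition.zero_of_nonpos (by linarith)

theorem prf_one {t : ℝ} (ht : 2 / 3 ≤ t) : prf t = 1 :=
  Real.smoothTransition.one_of_one_le (by linarith)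

/-- the quotient `f / (f + g)` -/
noncomputable def quo (f g : B → ℝ) (x : B) : ℝ := f x / (f x + g x)

theorem map_quo {f g : B → ℝ} (hf : DB.Map (Dif.lin ℝ) f) (hg : DB.Map (Dif.lin ℝ) g) :
    (DB.on {x | 0 < f x + g x}).Map (Dif.lin ℝ) (quo f g) := by
  intro E _ _ _ u x h
  have h1 : Sm (f ∘ u) x := hf h.1
  have h2 : Sm (g ∘ u) x := hg h.1
  have h4 : Sm (quo f g ∘ u) x := by
    filter_upwards [h1, h2, h.2] with y h5 h6 h7
    have h8 : f (u y) + g (u y) ≠ 0 := ne_of_gt h7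
    exact h5.div (h5.add h6) h8
  exact h4

theorem map_comp_quo {f g : B → ℝ} (hf : DB.Map (Dif.lin ℝ) f) (hg : DB.Map (Dif.lin ℝ) g)
    {k : ℝ → ℝ} (hk : ContDiff ℝ ∞ k) :
    (DB.on {x | 0 < f x + g x}).Map (Dif.lin ℝ) (fun x => k (quo f g x)) := by
  intro E _ _ _ u x h
  have h1 : Sm (quo f g ∘ u) x := map_quo hf hg h
  have h4 : Sm (fun y => k ((quo f g ∘ u) y)) x := by
    filter_upwards [h1] with y h5
    exact hk.contDiffAt.comp y h5
  exact h4

/-- **the Mayer–Vietoris step** for the positivity sets of two functions -/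
theorem RelAt.union {j : ℤ} {f g : B → ℝ} (hf : DB.Map (Dif.lin ℝ) f)
    (hg : DB.Map (Dif.lin ℝ) g) (f0 : ∀ x, 0 ≤ f x) (g0 : ∀ x, 0 ≤ g x)
    (r1 : RelAt j (DB.on {x | 0 < f x}) (DS.on (π ⁻¹' {x | 0 < f x})) π (hπ.on_pre _))
    (r2 : RelAt j (DB.on {x | 0 < g x}) (DS.on (π ⁻¹' {x | 0 < g x})) π (hπ.on_pre _))
    (r3 : RelAt (j - 1) (DB.on ({x | 0 < f x} ∩ {x | 0 < g x}))
      (DS.on (π ⁻¹' ({x | 0 < f x} ∩ {x | 0 < g x}))) π (hπ.on_pre _)) :
    RelAt j (DB.on {x | 0 < f x + g x}) (DS.on (π ⁻¹' {x | 0 < f x + g x})) π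
      (hπ.on_pre _) := by
  have i1 : {x | 0 < f x} ⊆ {x | 0 < f x + g x} := fun x hx => by
    have h1 : 0 < f x := hx
    have h2 := g0 x
    show 0 < f x + g x
    linarith
  have i2 : {x | 0 < g x} ⊆ {x | 0 < f x + g x} := fun x hx => by
    have h1 : 0 < g x := hx
    have h2 := f0 x
    show 0 < f x + g x
    linarith
  have hq1 : (DB.on {x | 0 < f x + g x}).Map (Dif.lin ℝ) (quo f g) := map_quo hf hg
  have hq : (DB.on {x | 0 < f x + g x}).Map (Dif.lin ℝ) (fun x => prf (quo f g x)) :=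
    map_comp_quo hf hg contDiff_prf
  set p : Form (DB.on {x | 0 < f x + g x}) := fn (fun x => prf (quo f g x)) hq with hp
  have hV : IsOpen (Ioi (1 / 4 : ℝ)) := isOpen_Ioi
  have hs1 : p.Supp {x | 0 < f x} := by
    refine (supp_fn_comp hq1 hq hV fun t ht => ?_).mono fun x hx => ?_
    · have h1 : t ≤ 1 / 4 := not_lt.1 ht
      filter_upwards [Iio_mem_nhds (show t < 1 / 3 by linarith)] with s hs
      exact prf_zero (le_of_lt hs)
    · by_contra h2
      have h3 : f x = 0 := le_antisymm (not_lt.1 h2) (f0 x)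
      have h4 : (1 / 4 : ℝ) < quo f g x := hx
      rw [quo, h3, zero_div] at h4
      linarith
  have hk : ContDiff ℝ ∞ (fun t : ℝ => 1 - prf (1 - t)) :=
    contDiff_const.sub (contDiff_prf.comp (contDiff_const.sub contDiff_id))
  have hset : {x | 0 < g x + f x} = {x | 0 < f x + g x} := by
    ext x
    simp only [mem_setOf_eq, add_comm]
  have hq2 : (DB.on {x | 0 < f x + g x}).Map (Dif.lin ℝ) (quo g f) := by
    have h1 : (DB.on {x | 0 < g x + f x}).Map (Dif.lin ℝ) (quo g f) := map_quo hg hf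
    rwa [hset] at h1
  have hq3 : (DB.on {x | 0 < f x + g x}).Map (Dif.lin ℝ)
      (fun x => (fun t : ℝ => 1 - prf (1 - t)) (quo g f x)) := by
    have h1 : (DB.on {x | 0 < g x + f x}).Map (Dif.lin ℝ)
      (fun x => (fun t : ℝ => 1 - prf (1 - t)) (quo g f x)) := map_comp_quo hg hf hk
    rwa [hset] at h1
  have hs2 : (1 - p).Supp {x | 0 < g x} := by
    have he : 1 - p = fn (fun x => (fun t : ℝ => 1 - prf (1 - t)) (quo g f x)) hq3 :=
      ext_val fun E _ _ _ u x hu => by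
        rw [sub_val, one_val hu, hp, fn_val _ _ hu, fn_val _ _ hu]
        have h1 : 0 < f (u x) + g (u x) := hu.2.self_of_nhds
        have h2 : 1 - quo g f (u x) = quo f g (u x) := by
          rw [quo, quo, add_comm (g (u x)), eq_div_iff h1.ne', sub_mul, div_mul_cancel₀ _ h1.ne']
          ring
        simp only [h2, map_sub, map_one]
    rw [he]
    refine (supp_fn_comp (h := fun t : ℝ => 1 - prf (1 - t)) hq2 hq3 hV fun t ht => ?_).mono
      fun x hx => ?_
    · have h1 : t ≤ 1 / 4 := not_lt.1 ht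
      filter_upwards [Iio_mem_nhds (show t < 1 / 3 by linarith)] with s hs
      have h2 : s < 1 / 3 := hs
      simp only [prf_one (show 2 / 3 ≤ 1 - s by linarith), sub_self]
    · by_contra h2
      have h3 : g x = 0 := le_antisymm (not_lt.1 h2) (g0 x)
      have h4 : (1 / 4 : ℝ) < quo g f x := hx
      rw [quo, h3, zero_div] at h4
      linarith
  exact RelAt.mv (hπ := Dif.Map.on_pre hπ _) (sg_fn _ _) hs1 hs2 (relAt_on_on (hπ := hπ) i1 r1)
    (relAt_on_on (hπ := hπ) i2 r2) (relAt_on_on (hπ := hπ) (inter_subset_left.trans i1) r3)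

open Classical in
/-- **induction over a finite cover** -/
theorem relAt_sum {ι : Type*} {f : ι → B → ℝ} (hf : ∀ i, DB.Map (Dif.lin ℝ) (f i))
    (f0 : ∀ i x, 0 ≤ f i x) {m : ℤ}
    (h : ∀ i (O : Set B), O ⊆ {x | 0 < f i x} → ∀ j < m,
      RelAt j (DB.on O) (DS.on (π ⁻¹' O)) π (hπ.on_pre O)) (t : Finset ι) :
    ∀ j < m, RelAt j (DB.on {x | 0 < ∑ i ∈ t, f i x}) (DS.on (π ⁻¹' {x | 0 < ∑ i ∈ t, f i x})) π
      (hπ.on_pre _) := by
  induction t using Finset.induction_on with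
  | empty =>
    intro j _
    have h1 : {x : B | 0 < ∑ i ∈ (∅ : Finset ι), f i x} = ∅ := by
      ext x
      simp
    rw [h1]
    exact relAt_empty (hπ := hπ)
  | insert a t ha ih =>
    intro j hj
    have h1 : {x : B | 0 < ∑ i ∈ insert a t, f i x} = {x | 0 < f a x + ∑ i ∈ t, f i x} := by
      ext x
      simp only [Finset.sum_insert ha]
    rw [h1]
    refine RelAt.union (hπ := hπ) (g := fun x => ∑ i ∈ t, f i x) (hf a) ?_ (f0 a)
      (fun x => Finset.sum_nonneg fun i _ => f0 i x) (h a _ Subset.rfl j hj) (ih j hj)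
      (h a _ inter_subset_left (j - 1) (by omega))
    intro E _ _ _ u x hu
    have h4 : Sm (fun y => ∑ i ∈ t, f i (u y)) x := by
      have h5 : ∀ i ∈ t, ∀ᶠ y in 𝓝 x, ContDiffAt ℝ ∞ (fun y => f i (u y)) y := fun i _ =>
        hf i hu
      filter_upwards [(Filter.eventually_all_finset t).2 h5] with y hy
      exact ContDiffAt.sum hy
    exact h4

/-- **the local-to-global principle** -/
theorem relAt_cover {ι : Type*} {f : ι → B → ℝ} (hf : ∀ i, DB.Map (Dif.lin ℝ) (f i))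
    (f0 : ∀ i x, 0 ≤ f i x) {m : ℤ}
    (h : ∀ i (O : Set B), O ⊆ {x | 0 < f i x} → ∀ j < m,
      RelAt j (DB.on O) (DS.on (π ⁻¹' O)) π (hπ.on_pre O)) (t : Finset ι)
    (ht : ∀ x, ∃ i ∈ t, 0 < f i x) {j : ℤ} (hj : j < m) : RelAt j DB DS π hπ := by
  refine relAt_of_univ (O := {x | 0 < ∑ i ∈ t, f i x}) (fun x => ?_)
    (relAt_sum (hπ := hπ) hf f0 h t j hj)
  obtain ⟨i, hi, h1⟩ := ht x
  exact Finset.sum_pos' (fun i _ => f0 i x) ⟨i, hi, h1⟩

end Form

end Vale.Agent.P231.Fm
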