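import Vale.Agent.P231.Co.BunPb
import Vale.Agent.P231.WF.Conn
import Vale.Agent.P231.S2I.DegC
import Vale.Agent.P231.Co.RelC

/-!
# P231, stage 2 tools: fibre integrals of forms of the degree of the fibre only see the fibres
-/

set_option linter.unusedSectionVars false
set_option linter.unusedVariables false

open MeasureTheory Set Module Filter Topology
open scoped ContDiff

namespace Vale.Agent.P231.Co

open Vale.Agent.P231.Fm Vale.Agent.P231.W Vale.Agent.P231.H584
open Vale.Agent.P231.Fm (Sm Dif Form Lam)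

variable {B S Fr : Type*} {DB : Dif B} {DS : Dif S} {DF : Dif Fr}
variable {F : Type} [NormedAddCommGroup F] [InnerProductSpace ℝ F] [FiniteDimensional ℝ F]
  [MeasurableSpace F] [BorelSpace F] {m : ℕ} (o : OrthonormalBasis (Fin m) ℝ F)

/-- a form of the degree of the fibre which vanishes on every single fibre has fibre integral
zero -/
theorem Bun.SI_eq_zero_of_fib {π : S → B} {q : Fr → B} {ev : Fr × F → S}
    (h : Bun DB DS DF F π q ev) {w : Form DS} {j : ℕ} (hw : Form.IsDeg j w) (hj : j + 1 = m)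
    (hfib : ∀ {E : Type} [NormedAddCommGroup E] [NormedSpace ℝ E] [FiniteDimensional ℝ E]
      {u : E → S} {x : E}, DS.At u x → (∃ b, ∀ᶠ y in 𝓝 x, π (u y) = b) → w.val u x = 0) :
    h.SI o w = 0 := by
  refine pull_inj h.hq ?_
  rw [h.pull_SI o, pull_zero]
  have hd : Form.IsDeg 0 (si o (Form.pull ev h.hev w)) :=
    isDeg_si o (hw.pull ev h.hev) (by omega)
  refine Form.ext_val fun E _ _ _ u x hu => ?_
  rw [WF.val_of_isDeg_zero (DegC.toWF hd) hu, Form.zero_val]
  have hc : DF.At (fun _ : ℝ => u x) 0 := Dif.comp DF (u := u) (g := fun _ : ℝ => x) (x := 0) hu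
    (Sm.of_contDiff contDiff_const _)
  have h1 : (si o (Form.pull ev h.hev w)).val (fun _ : ℝ => u x) 0 = 0 := by
    rw [si, Form.fi_val (vc_of_van (vc_dx _)) hc]
    refine integral_eq_zero_of_ae (Eventually.of_forall fun ξ => ?_)
    change slice _ _ = 0
    have h2 : (dx (Form.pull ev h.hev w)).val (cylF fun _ : ℝ => u x) (0, ξ) = 0 := by
      rw [dx, Form.mx_val]
      rcases (supp_chf (D := DF) (F := F)).d.out (cylF_at hc ξ) with h3 | h3
      · have h4 : (PB DF F).At (cylF fun _ : ℝ => u x) ((0 : ℝ), ξ) := ⟨cylF_at hc ξ, h3⟩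
        rw [Form.pull_val _ _ h4, Form.pull_val _ _ (map_nrm h4)]
        rw [hfib (h.hev (map_nrm h4)) ⟨q (u x), h.comm' (map_nrm h4)⟩, mul_zero]
      · rw [h3.self_of_nhds, zero_mul]
    rw [h2, map_zero]
  have h5 : WF.ptv (si o (Form.pull ev h.hev w)) (u x) = 0 := by
    rw [WF.ptv, h1, map_zero]
  rw [h5, map_zero]

end Vale.Agent.P231.Co
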