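import Vale.Agent.P231.Co.SINeg

/-!
# P231, stage 2 tools (12): fibre integration and homogeneous parts
-/

set_option linter.unusedSectionVars false
set_option linter.unusedVariables false

open MeasureTheory Set Module Filter Topology
open scoped ContDiff

namespace Vale.Agent.P231.Co

open Vale.Agent.P231.Fm Vale.Agent.P231.W Vale.Agent.P231.H584
open Vale.Agent.P231.Fm (Sm Dif Form Lam)

variable {X : Type*} {D : Dif X}
variable {B S Fr : Type*} {DB : Dif B} {DS : Dif S} {DF : Dif Fr}
variable {F : Type} [NormedAddCommGroup F] [InnerProductSpace ℝ F] [FiniteDimensional ℝ F]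

theorem part_dx (k : ℕ) (σ : Form (SB D F)) :
    Form.part (k + 1) (dx σ) = dx (Form.part k σ) :=
  Form.ext_val fun E _ _ _ u x hu => by
    have h1 := (isDeg_chf (D := D) (F := F)).d
    rw [Form.part_val, dx, dx, Form.mx_val, Form.mx_val, ← Form.part_pull, Form.part_val,
      add_comm k 1]
    refine WA.prt_mul_of_left ?_ _
    rw [← Form.part_val, show (1 : ℕ) = 0 + 1 from rfl, h1.part_eq]

variable [MeasurableSpace F] [BorelSpace F] {m : ℕ} (o : OrthonormalBasis (Fin m) ℝ F)

theorem part_si {j k : ℕ} (hj : j + 1 = k + m) (σ : Form (SB D F)) :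
    Form.part k (si o σ) = si o (Form.part j σ) := by
  rw [si, Form.part_fi (vc_of_van (vc_dx σ)), ← hj, part_dx]
  rfl

/-- fibre integration and homogeneous parts -/
theorem Bun.part_SI {π : S → B} {q : Fr → B} {ev : Fr × F → S} (h : Bun DB DS DF F π q ev)
    {j k : ℕ} (hj : j + 1 = k + m) (w : Form DS) :
    Form.part k (h.SI o w) = h.SI o (Form.part j w) := by
  refine pull_inj h.hq ?_
  rw [← Form.part_pull, h.pull_SI o, h.pull_SI o, ← Form.part_pull, part_si o hj]

end Vale.Agent.P231.Co
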