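import Vale.Agent.P231.Fm.Dif2

/-!
# P231, stage 2 tools (1): restriction to a subset, extension by zero, Mayer–Vietoris

`D.on O` is the diffeology on the same type whose plots are the plots of `D` with values in `O`
(locally). `Form.mx θ σ` is the product of a form `θ` on `D` supported in `O` with a form `σ`
defined on `D.on O` only.
-/

set_option linter.unusedSectionVars false
set_option linter.unusedVariables false

open Set Module Filter Topology
open scoped ContDiff

namespace Vale.Agent.P231.Fm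

variable {X Y : Type*} {D : Dif X} {D' : Dif Y} {O O₁ O₂ : Set X}

/-- the restriction of a diffeology to a subset, on the same type -/
def Dif.on (D : Dif X) (O : Set X) : Dif X where
  At u x := D.At u x ∧ ∀ᶠ y in 𝓝 x, u y ∈ O
  open' h := (D.open' h.1).and (eventually_eventually_nhds.2 h.2)
  congr h hv := ⟨D.congr h.1 hv, by filter_upwards [h.2, hv] with y h1 h2 using h2 ▸ h1⟩
  comp h hg := ⟨D.comp h.1 hg, hg.continuousAt.eventually h.2⟩

theorem Dif.map_on : (D.on O).Map D id := fun h => h.1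

theorem Dif.map_on_mono (h : O₁ ⊆ O₂) : (D.on O₁).Map (D.on O₂) id := fun h1 =>
  ⟨h1.1, h1.2.mono fun _ hy => h hy⟩

theorem Dif.Map.on {f : X → Y} (hf : D.Map D' f) (O : Set X) : (D.on O).Map D' f := fun h => hf h.1

theorem Dif.Map.on_on {f : X → Y} (hf : D.Map D' f) {O' : Set Y} (h : ∀ x ∈ O, f x ∈ O') :
    (D.on O).Map (D'.on O') f := fun h1 => ⟨hf h1.1, h1.2.mono fun _ hy => h _ hy⟩

theorem Dif.Map.to_on {f : X → Y} (hf : D.Map D' f) {O' : Set Y} (h : ∀ x, f x ∈ O') :
    D.Map (D'.on O') f := fun h1 => ⟨hf h1, Eventually.of_forall fun y => h _⟩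

/-- smooth maps which are only defined on `O` -/
theorem Dif.Map.on_mono {f : X → Y} (hf : (D.on O₂).Map D' f) (h : O₁ ⊆ O₂) :
    (D.on O₁).Map D' f := fun h1 => hf ⟨h1.1, h1.2.mono fun _ hy => h hy⟩

namespace Form

section

variable {E : Type} [NormedAddCommGroup E] [NormedSpace ℝ E] [FiniteDimensional ℝ E]

/-- restriction of a form to `D.on O` -/
noncomputable def res (O : Set X) (a : Form D) : Form (D.on O) := pull id Dif.map_on a

theorem res_val (a : Form D) {u : E → X} {x : E} (h : (D.on O).At u x) :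
    (res O a).val u x = a.val u x := pull_val _ _ h

theorem res_d (a : Form D) : (res O a).d = res O a.d := (pull_d _ _ _).symm

theorem res_sg (a : Form D) : (res O a).sg = res O a.sg := (pull_sg _ _ _).symm

theorem res_add (a b : Form D) : res O (a + b) = res O a + res O b :=
  map_add (pullA id (Dif.map_on (O := O))) a b

theorem res_sub (a b : Form D) : res O (a - b) = res O a - res O b :=
  map_sub (pullA id (Dif.map_on (O := O))) a b

theorem res_neg (a : Form D) : res O (-a) = -res O a :=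
  map_neg (pullA id (Dif.map_on (O := O))) a

theorem res_mul (a b : Form D) : res O (a * b) = res O a * res O b :=
  map_mul (pullA id (Dif.map_on (O := O))) a b

theorem res_smul (c : ℝ) (a : Form D) : res O (c • a) = c • res O a :=
  map_smul (pullA id (Dif.map_on (O := O))) c a

@[simp] theorem res_zero : res O (0 : Form D) = 0 :=
  map_zero (pullA id (Dif.map_on (O := O)))

@[simp] theorem res_one : res O (1 : Form D) = 1 :=
  map_one (pullA id (Dif.map_on (O := O)))

/-- the support of `θ` is contained in `O` -/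
structure Supp (θ : Form D) (O : Set X) : Prop where
  out : ∀ {E : Type} [NormedAddCommGroup E] [NormedSpace ℝ E] [FiniteDimensional ℝ E]
    {u : E → X} {x : E}, D.At u x → (∀ᶠ y in 𝓝 x, u y ∈ O) ∨ ∀ᶠ y in 𝓝 x, θ.val u y = 0

theorem Supp.mono {θ : Form D} (h : θ.Supp O₁) (h12 : O₁ ⊆ O₂) : θ.Supp O₂ := ⟨fun hu =>
  (h.out hu).imp_left fun h1 => h1.mono fun _ hy => h12 hy⟩

theorem Supp.zero : (0 : Form D).Supp O :=
  ⟨fun hu => Or.inr (Eventually.of_forall fun _ => rfl)⟩

theorem Supp.univ (θ : Form D) : θ.Supp univ := ⟨fun hu =>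
  Or.inl (Eventually.of_forall fun _ => mem_univ _)⟩

theorem Supp.mul_left {θ : Form D} (h : θ.Supp O) (a : Form D) : (a * θ).Supp O := ⟨fun hu =>
  (h.out hu).imp_right fun h1 => h1.mono fun y hy => by rw [mul_val, hy, mul_zero]⟩

theorem Supp.mul_right {θ : Form D} (h : θ.Supp O) (a : Form D) : (θ * a).Supp O := ⟨fun hu =>
  (h.out hu).imp_right fun h1 => h1.mono fun y hy => by rw [mul_val, hy, zero_mul]⟩

theorem Supp.smul {θ : Form D} (h : θ.Supp O) (c : ℝ) : (c • θ).Supp O := ⟨fun hu =>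
  (h.out hu).imp_right fun h1 => h1.mono fun y hy => by rw [smul_val, hy, smul_zero]⟩

theorem Supp.neg {θ : Form D} (h : θ.Supp O) : (-θ).Supp O := ⟨fun hu =>
  (h.out hu).imp_right fun h1 => h1.mono fun y hy => by rw [neg_val, hy, neg_zero]⟩

theorem Supp.sg {θ : Form D} (h : θ.Supp O) : θ.sg.Supp O := ⟨fun hu =>
  (h.out hu).imp_right fun h1 => h1.mono fun y hy => by rw [sg_val, hy, map_zero]⟩

theorem Supp.d {θ : Form D} (h : θ.Supp O) : θ.d.Supp O := by
  refine ⟨fun {E} _ _ _ {u x} hu => ?_⟩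
  refine (h.out hu).imp_right fun h1 => ?_
  filter_upwards [eventually_eventually_nhds.2 h1, D.open' hu] with y hy hu'
  rw [d_val _ hu', extd_congr (v := fun _ => 0) hy, extd_const]

theorem Supp.add {θ η : Form D} (h : θ.Supp O) (h' : η.Supp O) : (θ + η).Supp O := by
  refine ⟨fun {E} _ _ _ {u x} hu => ?_⟩
  rcases h.out hu with h1 | h1
  · exact Or.inl h1
  rcases h'.out hu with h2 | h2
  · exact Or.inl h2
  refine Or.inr ?_
  filter_upwards [h1, h2] with y h3 h4
  rw [add_val, h3, h4, add_zero]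

theorem Supp.sub {θ η : Form D} (h : θ.Supp O) (h' : η.Supp O) : (θ - η).Supp O := by
  rw [sub_eq_add_neg]
  exact h.add h'.neg

/-- supports intersect in products -/
theorem Supp.mul {θ η : Form D} (h : θ.Supp O₁) (h' : η.Supp O₂) : (θ * η).Supp (O₁ ∩ O₂) := by
  refine ⟨fun {E} _ _ _ {u x} hu => ?_⟩
  rcases h.out hu with h1 | h1
  · rcases h'.out hu with h2 | h2
    · exact Or.inl (h1.and h2)
    · exact Or.inr (h2.mono fun y hy => by rw [mul_val, hy, mul_zero])
  · exact Or.inr (h1.mono fun y hy => by rw [mul_val, hy, zero_mul])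

theorem Supp.pull {f : Y → X} (hf : D'.Map D f) {θ : Form D} (h : θ.Supp O) :
    (pull f hf θ).Supp (f ⁻¹' O) := by
  refine ⟨fun {E} _ _ _ {u x} hu => ?_⟩
  refine (h.out (hf hu)).imp_right fun h1 => ?_
  filter_upwards [h1, D'.open' hu] with y hy hu'
  rw [pull_val hf _ hu', hy]

/-- functions of a smooth function -/
theorem supp_fn_comp {ρ : X → ℝ} (hρ : D.Map (Dif.lin ℝ) ρ) {h : ℝ → ℝ}
    (hh : D.Map (Dif.lin ℝ) (fun x => h (ρ x))) {V : Set ℝ} (hV : IsOpen V)
    (h0 : ∀ t ∉ V, h =ᶠ[𝓝 t] fun _ => 0) : (fn (fun x => h (ρ x)) hh).Supp (ρ ⁻¹' V) := by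
  refine ⟨fun {E} _ _ _ {u x} hu => ?_⟩
  have hc : ContinuousAt (ρ ∘ u) x := Sm.continuousAt (hρ hu)
  by_cases hx : ρ (u x) ∈ V
  · exact Or.inl (hc.eventually (hV.mem_nhds hx))
  · refine Or.inr ?_
    filter_upwards [hc.eventually (h0 _ hx), D.open' hu] with y hy hu'
    rw [fn_val _ hh hu']
    have : h (ρ (u y)) = 0 := hy
    rw [this, map_zero]

/-- `θ * σ`, extended by zero: `θ` is supported in `O`, `σ` is only defined on `O` -/
noncomputable def mx (θ : Form D) (hθ : θ.Supp O) (σ : Form (D.on O)) : Form D where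
  val u x := θ.val u x * σ.val u x
  smooth {E} _ _ _ {u x} h := by
    rcases hθ.out h with h1 | h1
    · exact (θ.smooth h).mul (σ.smooth ⟨h, h1⟩)
    · have : (fun y => θ.val u y * σ.val u y) =ᶠ[𝓝 x] fun _ => 0 := by
        filter_upwards [h1] with y hy
        rw [hy, zero_mul]
      exact contDiffAt_const.congr_of_eventuallyEq this
  nat {E F} _ _ _ _ _ _ {u g x} h hg := by
    rw [θ.nat h hg]
    rcases hθ.out h with h1 | h1
    · rw [σ.nat ⟨h, h1⟩ hg, map_mul]
    · rw [h1.self_of_nhds, map_zero, zero_mul, zero_mul, map_zero]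
  congr {E} _ _ _ {u v x} h huv := by
    rcases hθ.out h with h1 | h1
    · rw [θ.congr h huv, σ.congr ⟨h, h1⟩ huv]
    · have h2 := h1.self_of_nhds
      rw [h2, ← θ.congr h huv, h2, zero_mul, zero_mul]
  junk h := by rw [θ.junk h, zero_mul]

theorem mx_val (θ : Form D) (hθ : θ.Supp O) (σ : Form (D.on O)) (u : E → X) (x : E) :
    (mx θ hθ σ).val u x = θ.val u x * σ.val u x := rfl

theorem res_mx (θ : Form D) (hθ : θ.Supp O) (σ : Form (D.on O)) :
    res O (mx θ hθ σ) = res O θ * σ := ext_val fun E _ _ _ u x h => by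
  rw [res_val _ h, mx_val, mul_val, res_val _ h]

theorem mx_res (θ : Form D) (hθ : θ.Supp O) (a : Form D) : mx θ hθ (res O a) = θ * a :=
  ext_val fun E _ _ _ u x h => by
    rw [mx_val, mul_val]
    rcases hθ.out h with h1 | h1
    · rw [res_val _ ⟨h, h1⟩]
    · rw [h1.self_of_nhds, zero_mul, zero_mul]

theorem mx_supp (θ : Form D) (hθ : θ.Supp O) (σ : Form (D.on O)) (h : θ.Supp O₁) :
    (mx θ hθ σ).Supp O₁ := ⟨fun hu =>
  (h.out hu).imp_right fun h1 => h1.mono fun y hy => by rw [mx_val, hy, zero_mul]⟩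

theorem mx_congr {θ θ' : Form D} {hθ : θ.Supp O} {hθ' : θ'.Supp O} {σ σ' : Form (D.on O)}
    (h : θ = θ') (h' : σ = σ') : mx θ hθ σ = mx θ' hθ' σ' := by
  subst h
  subst h'
  rfl

theorem mx_add (θ : Form D) (hθ : θ.Supp O) (σ τ : Form (D.on O)) :
    mx θ hθ (σ + τ) = mx θ hθ σ + mx θ hθ τ := ext_val fun E _ _ _ u x h => by
  rw [mx_val, add_val, add_val, mx_val, mx_val, mul_add]

theorem mx_sub (θ : Form D) (hθ : θ.Supp O) (σ τ : Form (D.on O)) :
    mx θ hθ (σ - τ) = mx θ hθ σ - mx θ hθ τ := ext_val fun E _ _ _ u x h => by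
  rw [mx_val, sub_val, sub_val, mx_val, mx_val, mul_sub]

theorem mx_smul (θ : Form D) (hθ : θ.Supp O) (c : ℝ) (σ : Form (D.on O)) :
    mx θ hθ (c • σ) = c • mx θ hθ σ := ext_val fun E _ _ _ u x h => by
  rw [mx_val, smul_val, smul_val, mx_val, mul_smul_comm]

@[simp] theorem mx_zero (θ : Form D) (hθ : θ.Supp O) : mx θ hθ (0 : Form (D.on O)) = 0 :=
  ext_val fun E _ _ _ u x h => by
  rw [mx_val, zero_val, zero_val, mul_zero]

theorem mx_neg (θ : Form D) (hθ : θ.Supp O) (σ : Form (D.on O)) :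
    mx θ hθ (-σ) = -mx θ hθ σ := ext_val fun E _ _ _ u x h => by
  rw [mx_val, neg_val, neg_val, mx_val, mul_neg]

theorem add_mx (θ θ' : Form D) (hθ : θ.Supp O) (hθ' : θ'.Supp O) (σ : Form (D.on O)) :
    mx (θ + θ') (hθ.add hθ') σ = mx θ hθ σ + mx θ' hθ' σ := ext_val fun E _ _ _ u x h => by
  rw [mx_val, add_val, add_val, mx_val, mx_val, add_mul]

theorem neg_mx (θ : Form D) (hθ : θ.Supp O) (σ : Form (D.on O)) :
    mx (-θ) hθ.neg σ = -mx θ hθ σ := ext_val fun E _ _ _ u x h => by
  rw [mx_val, neg_val, neg_val, mx_val, neg_mul]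

theorem mul_mx (a θ : Form D) (hθ : θ.Supp O) (σ : Form (D.on O)) :
    a * mx θ hθ σ = mx (a * θ) (hθ.mul_left a) σ := ext_val fun E _ _ _ u x h => by
  rw [mx_val, mul_val, mul_val, mx_val, mul_assoc]

theorem mx_mul (a θ : Form D) (hθ : θ.Supp O) (σ : Form (D.on O)) :
    mx θ hθ σ * a = mx θ hθ (σ * res O a) := ext_val fun E _ _ _ u x h => by
  rw [mx_val, mul_val, mul_val, mx_val]
  rcases hθ.out h with h1 | h1
  · rw [res_val _ ⟨h, h1⟩, mul_assoc]
  · rw [h1.self_of_nhds, zero_mul, zero_mul, zero_mul]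

theorem mx_sg (θ : Form D) (hθ : θ.Supp O) (σ : Form (D.on O)) :
    (mx θ hθ σ).sg = mx θ.sg hθ.sg σ.sg := ext_val fun E _ _ _ u x h => by
  rw [sg_val, mx_val, mx_val, sg_val, sg_val, map_mul]

/-- the Leibniz rule -/
theorem mx_d (θ : Form D) (hθ : θ.Supp O) (σ : Form (D.on O)) :
    (mx θ hθ σ).d = mx θ.d hθ.d σ + mx θ.sg hθ.sg σ.d := ext_val fun E _ _ _ u x h => by
  rw [d_val _ h, add_val, mx_val, mx_val]
  rcases hθ.out h with h1 | h1
  · have h2 : (D.on O).At u x := ⟨h, h1⟩
    rw [d_val _ h, d_val _ h2, sg_val]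
    exact extd_mul (θ.differentiableAt h) (σ.differentiableAt h2)
  · have h3 : (mx θ hθ σ).val u =ᶠ[𝓝 x] fun _ => 0 := by
      filter_upwards [h1] with y hy
      rw [mx_val, hy, zero_mul]
    have h4 : θ.val u =ᶠ[𝓝 x] fun _ => 0 := h1
    rw [extd_congr h3, extd_const, d_val _ h, extd_congr h4, extd_const, sg_val,
      h1.self_of_nhds, map_zero, zero_mul, zero_mul, add_zero]

theorem mx_eq_zero {θ : Form D} {hθ : θ.Supp O} {σ : Form (D.on O)} (h : θ = 0) :
    mx θ hθ σ = 0 := by
  subst h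
  exact ext_val fun E _ _ _ u x h => by
    rw [mx_val, zero_val]
    exact zero_mul _

/-- pullback of an extension by zero -/
theorem pull_mx {f : Y → X} (hf : D'.Map D f) {O' : Set Y} (hO : ∀ y ∈ O', f y ∈ O)
    (hO' : ∀ y, f y ∈ O → y ∈ O') (θ : Form D) (hθ : θ.Supp O) (hθ' : (pull f hf θ).Supp O')
    (σ : Form (D.on O)) :
    pull f hf (mx θ hθ σ) = mx (pull f hf θ) hθ' (pull f (hf.on_on hO) σ) :=
  ext_val fun E _ _ _ u x h => by
    rw [pull_val hf _ h, mx_val, mx_val, pull_val hf _ h]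
    rcases hθ.out (hf h) with h1 | h1
    · rw [pull_val _ _ (D := D'.on O') ⟨h, h1.mono fun y hy => hO' _ hy⟩]
    · rw [h1.self_of_nhds, zero_mul, zero_mul]

/-! ### gluing -/

theorem glue_key (a : Form (D.on O₁)) (b : Form (D.on O₂))
    (hab : pull id (Dif.map_on_mono inter_subset_left) a =
      (pull id (Dif.map_on_mono inter_subset_right) b : Form (D.on (O₁ ∩ O₂))))
    {u : E → X} {x : E} (h1 : (D.on O₁).At u x) (h2 : (D.on O₂).At u x) :
    a.val u x = b.val u x := by
  have h3 : (D.on (O₁ ∩ O₂)).At u x := ⟨h1.1, h1.2.and h2.2⟩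
  have h4 := congrArg (fun f : Form (D.on (O₁ ∩ O₂)) => f.val u x) hab
  change (pull id _ a).val u x = (pull id _ b).val u x at h4
  rw [pull_val _ _ h3, pull_val _ _ h3] at h4
  exact h4

open Classical in
/-- gluing two forms which agree on the intersection -/
noncomputable def glue (a : Form (D.on O₁)) (b : Form (D.on O₂))
    (hab : pull id (Dif.map_on_mono inter_subset_left) a =
      (pull id (Dif.map_on_mono inter_subset_right) b : Form (D.on (O₁ ∩ O₂))))
    (hc : ∀ {E : Type} [NormedAddCommGroup E] [NormedSpace ℝ E] [FiniteDimensional ℝ E]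
      {u : E → X} {x : E}, D.At u x → (D.on O₁).At u x ∨ (D.on O₂).At u x) : Form D :=
  mk' (fun u x => if (D.on O₁).At u x then a.val u x else b.val u x)
    (fun {E} _ _ _ {u x} h => by
      have key : ∀ y : E, (D.on O₁).At u y → (D.on O₂).At u y → a.val u y = b.val u y := by
        intro y h1 h2
        exact glue_key a b hab h1 h2
      rcases hc h with h1 | h1
      · refine (a.smooth h1).congr_of_eventuallyEq ?_
        filter_upwards [(D.on O₁).open' h1] with y hy
        rw [if_pos hy]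
      · refine (b.smooth h1).congr_of_eventuallyEq ?_
        filter_upwards [(D.on O₂).open' h1] with y hy
        by_cases h2 : (D.on O₁).At u y
        · rw [if_pos h2, key y h2 hy]
        · rw [if_neg h2])
    (fun {E F} _ _ _ _ _ _ {u g x} h hg => by
      have key : ∀ {E : Type} [NormedAddCommGroup E] [NormedSpace ℝ E] [FiniteDimensional ℝ E]
          {u : E → X} (y : E), (D.on O₁).At u y → (D.on O₂).At u y → a.val u y = b.val u y := by
        intro E _ _ _ u y h1 h2
        exact glue_key a b hab h1 h2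
      by_cases h1 : (D.on O₁).At u (g x)
      · rw [if_pos h1, if_pos ((D.on O₁).comp h1 hg), a.nat h1 hg]
      · have h2 : (D.on O₂).At u (g x) := (hc h).resolve_left h1
        rw [if_neg h1, ← b.nat h2 hg]
        by_cases h3 : (D.on O₁).At (u ∘ g) x
        · rw [if_pos h3, key _ h3 ((D.on O₂).comp h2 hg)]
        · rw [if_neg h3])
    (fun {E} _ _ _ {u v x} h huv => by
      by_cases h1 : (D.on O₁).At u x
      · rw [if_pos h1, if_pos ((D.on O₁).congr h1 huv), a.congr h1 huv]
      · have h3 : ¬ (D.on O₁).At v x := fun h2 => h1 ((D.on O₁).congr h2 huv.symm)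
        have h2 : (D.on O₂).At u x := (hc h).resolve_left h1
        rw [if_neg h1, if_neg h3, b.congr h2 huv])

theorem glue_val_left (a : Form (D.on O₁)) (b : Form (D.on O₂)) (hab)
    (hc : ∀ {E : Type} [NormedAddCommGroup E] [NormedSpace ℝ E] [FiniteDimensional ℝ E]
      {u : E → X} {x : E}, D.At u x → (D.on O₁).At u x ∨ (D.on O₂).At u x) {u : E → X} {x : E}
    (h : (D.on O₁).At u x) : (glue a b hab hc).val u x = a.val u x := by
  rw [glue, mk'_val h.1, if_pos h]

theorem glue_val_right (a : Form (D.on O₁)) (b : Form (D.on O₂)) (hab)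
    (hc : ∀ {E : Type} [NormedAddCommGroup E] [NormedSpace ℝ E] [FiniteDimensional ℝ E]
      {u : E → X} {x : E}, D.At u x → (D.on O₁).At u x ∨ (D.on O₂).At u x) {u : E → X} {x : E}
    (h : (D.on O₂).At u x) : (glue a b hab hc).val u x = b.val u x := by
  by_cases h1 : (D.on O₁).At u x
  · have h3 : (D.on (O₁ ∩ O₂)).At u x := ⟨h1.1, h1.2.and h.2⟩
    rw [glue_val_left a b hab hc h1]
    exact glue_key a b hab h1 h
  · rw [glue, mk'_val h.1, if_neg h1]

theorem res_glue_left (a : Form (D.on O₁)) (b : Form (D.on O₂)) (hab)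
    (hc : ∀ {E : Type} [NormedAddCommGroup E] [NormedSpace ℝ E] [FiniteDimensional ℝ E]
      {u : E → X} {x : E}, D.At u x → (D.on O₁).At u x ∨ (D.on O₂).At u x) :
    res O₁ (glue a b hab hc) = a := ext_val fun E _ _ _ u x h => by
  rw [res_val _ h, glue_val_left a b hab hc h]

theorem res_glue_right (a : Form (D.on O₁)) (b : Form (D.on O₂)) (hab)
    (hc : ∀ {E : Type} [NormedAddCommGroup E] [NormedSpace ℝ E] [FiniteDimensional ℝ E]
      {u : E → X} {x : E}, D.At u x → (D.on O₁).At u x ∨ (D.on O₂).At u x) :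
    res O₂ (glue a b hab hc) = b := ext_val fun E _ _ _ u x h => by
  rw [res_val _ h, glue_val_right a b hab hc h]

/-- a form is determined by its restrictions to an open cover -/
theorem ext_cover {a b : Form D}
    (hc : ∀ {E : Type} [NormedAddCommGroup E] [NormedSpace ℝ E] [FiniteDimensional ℝ E]
      {u : E → X} {x : E}, D.At u x → (D.on O₁).At u x ∨ (D.on O₂).At u x)
    (h1 : res O₁ a = res O₁ b) (h2 : res O₂ a = res O₂ b) : a = b :=
  ext_val fun E _ _ _ u x h => by
    rcases hc h with h3 | h3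
    · rw [← res_val a h3, h1, res_val b h3]
    · rw [← res_val a h3, h2, res_val b h3]

/-! ### Mayer–Vietoris -/

/-- the differential of a partition function is supported in the intersection -/
theorem supp_d_inter {p : Form D} (h1 : p.Supp O₁) (h2 : (1 - p).Supp O₂) :
    p.d.Supp (O₁ ∩ O₂) := by
  refine ⟨fun {E} _ _ _ {u x} hu => ?_⟩
  rcases h1.out hu with h4 | h4
  · rcases h2.out hu with h5 | h5
    · exact Or.inl (h4.and h5)
    · right
      filter_upwards [eventually_eventually_nhds.2 h5, D.open' hu] with y hy hu'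
      have h6 : (1 - p).d.val u y = 0 := by
        rw [d_val _ hu', extd_congr (v := fun _ => 0) hy, extd_const]
      rw [d_sub, d_one, zero_sub, neg_val, neg_eq_zero] at h6
      exact h6
  · right
    filter_upwards [eventually_eventually_nhds.2 h4, D.open' hu] with y hy hu'
    rw [d_val _ hu', extd_congr (v := fun _ => 0) hy, extd_const]

theorem sg_d_of_even {p : Form D} (hp : p.sg = p) : p.d.sg = -p.d := by
  have h := d_sg p
  rw [hp] at h
  exact (neg_eq_iff_eq_neg.2 h).symm

/-- the primitive of Mayer–Vietoris -/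
theorem d_mv {w : Form D} {p : Form D} (hp : p.sg = p) (h1 : p.Supp O₁) (h2 : (1 - p).Supp O₂)
    (α : Form (D.on O₁)) (β : Form (D.on O₂)) (γ : Form (D.on (O₁ ∩ O₂)))
    (hα : α.d = res O₁ w) (hβ : β.d = res O₂ w)
    (hγ : γ.d = pull id (Dif.map_on_mono inter_subset_left) α -
      pull id (Dif.map_on_mono inter_subset_right) β) :
    (mx _ h1 α + mx _ h2 β + mx _ (supp_d_inter h1 h2) γ).d = w := by
  refine ext_val fun E _ _ _ u x h => ?_
  have hds := sg_d_of_even hp
  have e1 : (mx _ h1 α).d.val u x = p.d.val u x * α.val u x + p.val u x * (res O₁ w).val u x := by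
    rw [mx_d, add_val, mx_val, mx_val, hα, hp]
  have e2 : (mx _ h2 β).d.val u x =
      -p.d.val u x * β.val u x + (1 - p).val u x * (res O₂ w).val u x := by
    rw [mx_d, add_val, mx_val, mx_val, hβ, sg_sub, sg_one, hp, d_sub, d_one, zero_sub, neg_val]
  have e3 : (mx _ (supp_d_inter h1 h2) γ).d.val u x = -p.d.val u x * γ.d.val u x := by
    rw [mx_d, add_val, mx_val, mx_val, d_d, zero_val, zero_mul, zero_add, hds, neg_val]
  rw [d_add, d_add, add_val, add_val, e1, e2, e3]
  rcases h1.out h with h4 | h4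
  · have a1 : (D.on O₁).At u x := ⟨h, h4⟩
    rcases h2.out h with h5 | h5
    · have a2 : (D.on O₂).At u x := ⟨h, h5⟩
      have a3 : (D.on (O₁ ∩ O₂)).At u x := ⟨h, h4.and h5⟩
      have e4 : γ.d.val u x = α.val u x - β.val u x := by
        rw [hγ, sub_val, pull_val _ _ a3, pull_val _ _ a3]
        rfl
      rw [e4, res_val _ a1, res_val _ a2, sub_val, one_val h]
      noncomm_ring
    · have h6 : (1 - p).d.val u x = 0 := by
        rw [d_val _ h, extd_congr (v := fun _ => 0) h5, extd_const]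
      rw [d_sub, d_one, zero_sub, neg_val, neg_eq_zero] at h6
      have h8 := h5.self_of_nhds
      have h9 := h8
      rw [sub_val, one_val h, sub_eq_zero] at h9
      rw [h6, h8, ← h9, res_val _ a1]
      simp
  · have h6 : p.d.val u x = 0 := by
      rw [d_val _ h, extd_congr (v := fun _ => 0) h4, extd_const]
    rw [h6, h4.self_of_nhds]
    rcases h2.out h with h5 | h5
    · have a2 : (D.on O₂).At u x := ⟨h, h5⟩
      rw [res_val _ a2, sub_val, one_val h, h4.self_of_nhds]
      simp
    · have h8 := h5.self_of_nhds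
      have h9 := h8
      rw [sub_val, h4.self_of_nhds, sub_zero, one_val h] at h9
      have h10 : w.val u x = 0 := by
        rw [← one_mul (w.val u x), h9, zero_mul]
      rw [h10, h8]
      simp

end

end Form

end Vale.Agent.P231.Fm
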