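import Vale.Agent.P231.Co.M5

/-!
# P231, stage 2 tools (M4), (M5): the cohomology of `M`, of the unit tangent bundle and of a sphere
bundle over it, below the dimension of `M` (main statements)
-/

set_option maxSynthPendingDepth 3
set_option linter.unusedSectionVars false
set_option linter.unusedVariables false

open Bundle Manifold Set Filter Module
open scoped ContDiff Manifold Topology

namespace Vale.Agent.P231.CoC

noncomputable section

open Vale.Agent.P234 Vale.Agent.P231 Vale.Agent.P231.Fm Vale.Agent.P231.W Vale.Agent.P231.H775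
open Vale.Agent.P231.WE

section Formal

variable {X S Fr : Type*} {DX : Dif X} {DS : Dif S} {DF : Dif Fr} {G : Form DX} {m n₀ : ℕ}

theorem pull_pow' {Y : Type*} {D' : Dif Y} {f : Y → X} (hf : D'.Map DX f) (a : Form DX) (n : ℕ) :
    Form.pull f hf (a ^ n) = Form.pull f hf a ^ n := map_pow (Form.pullA f hf) a n

/-- degree zero -/
theorem Gen.zero (h : Gen DX G m n₀) (hn : 0 < n₀) {w : Form DX} (hw : w.d = 0)
    (hj : Form.IsDeg 0 w) : ∃ c : ℝ, w = c • (1 : Form DX) := by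
  obtain ⟨c, Γ, h1, -⟩ := h 0 w hn hw hj
  refine ⟨c, ?_⟩
  rw [Nat.zero_div, pow_zero] at h1
  have h2 : Form.part 0 w = w := hj
  rw [← h2]
  conv_lhs => rw [h1]
  rw [Form.part_add, Form.part_zero_d, add_zero, Form.part_smul, Form.part_one]
  simp

/-- degrees which are not divisible by `m` -/
theorem Gen.exact (h : Gen DX G m n₀) {j : ℕ} (hj : j < n₀) (hmj : ¬ m ∣ j) {w : Form DX}
    (hw : w.d = 0) (hwj : Form.IsDeg j w) : ∃ Γ : Form DX, w = Γ.d := by
  obtain ⟨c, Γ, h1, h2⟩ := h j w hj hw hwj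
  exact ⟨Γ, by rw [h1, h2 hmj, zero_smul, zero_add]⟩

/-- degree `m` -/
theorem Gen.top (h : Gen DX G m n₀) (hm : 0 < m) (hj : m < n₀) {w : Form DX}
    (hw : w.d = 0) (hwj : Form.IsDeg m w) : ∃ (c : ℝ) (Γ : Form DX), w = c • G + Γ.d := by
  obtain ⟨c, Γ, h1, h2⟩ := h m w hj hw hwj
  rw [Nat.div_self hm, pow_one] at h1
  exact ⟨c, Γ, h1⟩

variable {F' : Type} [NormedAddCommGroup F'] [InnerProductSpace ℝ F'] [FiniteDimensional ℝ F']
  [MeasurableSpace F'] [BorelSpace F'] {r : ℕ}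
  {ϖ : S → X} {q : Fr → X} {ev : Fr × F' → S}

/-- **(M5)** the total space of a sphere bundle with closed angular form -/
theorem Gen.bundle (hG : Gen DX G m n₀) (h : Co.Bun DX DS DF F' ϖ q ev)
    (o : OrthonormalBasis (Fin r) ℝ F') (hr : 1 < r) {ψ : Form DS} (hψ : h.Ang o ψ 0)
    {j : ℕ} (hj : j < n₀) {w : Form DS} (hw : w.d = 0) (hwj : Form.IsDeg j w) :
    ∃ (c c' : ℝ) (Γ : Form DS), w = c • Form.pull ϖ h.hπ G ^ (j / m) +
      c' • (ψ * Form.pull ϖ h.hπ G ^ ((j - (r - 1)) / m)) + Γ.d ∧ (¬ m ∣ j → c = 0) ∧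
      (j < r - 1 → c' = 0) ∧ (¬ m ∣ j - (r - 1) → c' = 0) := by
  obtain ⟨a, κ, ha, haj, he, -, -⟩ := h.gysin2' o hψ (by omega) hw hwj
  have hψd : ψ.d = 0 := by rw [hψ.d, Co.pull_zero, neg_zero]
  obtain ⟨c, Γ₁, h1, h2⟩ := hG j a hj ha haj
  have hb := h.SI_closed o hw
  have key : ∃ (c' : ℝ) (Γ₂ : Form DS), ψ * Form.pull ϖ h.hπ (h.SI o w) =
      c' • (ψ * Form.pull ϖ h.hπ G ^ ((j - (r - 1)) / m)) + Γ₂.d ∧ (j < r - 1 → c' = 0) ∧
      (¬ m ∣ j - (r - 1) → c' = 0) := by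
    by_cases hlt : j + 1 < r
    · refine ⟨0, 0, ?_, fun _ => rfl, fun _ => rfl⟩
      rw [h.SI_eq_zero o hwj hlt, Co.pull_zero, mul_zero, zero_smul, Form.d_zero, add_zero]
    · have hk : j + 1 = (j - (r - 1)) + r := by omega
      obtain ⟨c', Γ, h3, h4⟩ := hG (j - (r - 1)) (h.SI o w) (by omega) hb (h.isDeg_SI o hwj hk)
      refine ⟨c', (-1 : ℝ) ^ (r - 1) • (ψ * Form.pull ϖ h.hπ Γ), ?_, fun h5 => by omega, h4⟩
      have h5 : (ψ * Form.pull ϖ h.hπ Γ).d = (-1 : ℝ) ^ (r - 1) • (ψ * Form.pull ϖ h.hπ Γ.d) := by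
        rw [Form.d_mul, hψd, zero_mul, zero_add, hψ.deg.sg, smul_mul_assoc, Form.pull_d]
      have h6 : ((-1 : ℝ) ^ (r - 1)) * (-1 : ℝ) ^ (r - 1) = 1 := by
        rw [← mul_pow]
        norm_num
      rw [Form.d_smul, h5, smul_smul, h6, one_smul]
      conv_lhs => rw [h3]
      rw [Form.pull_add', mul_add, Co.pull_smul, pull_pow', mul_smul_comm]
  obtain ⟨c', Γ₂, h3, h4, h5⟩ := key
  refine ⟨c, c', Γ₂ + Form.pull ϖ h.hπ Γ₁ + κ, ?_, h2, h4, h5⟩
  rw [he, h3]
  conv_lhs => rw [h1]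
  rw [Form.pull_add', Co.pull_smul, pull_pow', Form.d_add, Form.d_add, Form.pull_d]
  abel

end Formal

variable {E : Type*} [NormedAddCommGroup E] [NormedSpace ℝ E] [FiniteDimensional ℝ E]
  {M : Type*} [MetricSpace M] [ChartedSpace E M] [IsManifold 𝓘(ℝ, E) ∞ M]
  [RiemannianBundle (fun x : M => TangentSpace 𝓘(ℝ, E) x)]
  [IsContMDiffRiemannianBundle 𝓘(ℝ, E) ∞ E (fun x : M => TangentSpace 𝓘(ℝ, E) x)]
  {e : ∀ x : M, TangentSpace 𝓘(ℝ, E) x → M}
  [CompactSpace M] [ConnectedSpace M] [IsRiemannianManifold 𝓘(ℝ, E) M]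

/-- **(M4)** the cohomology of `M` below the dimension minus one: the closed forms of degree `j`
are multiples of `G ^ (j / m)`, where `G` restricts to a multiple of the Euler form of the sphere
bundle `U_pM → Cut p` -/
theorem gen_M (F : Facts e) {D : ℝ} (hD : 0 < D) (hB : InjGE e D)
    (hdiam : ∀ p q : M, dist p q ≤ D) {l : ℕ}
    (hl : ∀ x y : M, dist x y = D → finrank ℝ (Pl e D x y) = l + 1) (p : M)
    {Fr : Type*} {DF : Dif Fr} {F' : Type} [NormedAddCommGroup F'] [InnerProductSpace ℝ F']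
    [FiniteDimensional ℝ F'] [MeasurableSpace F'] [BorelSpace F'] {m : ℕ} {q : Fr → M}
    {ev : Fr × F' → UT E M}
    (h : Co.Bun (dC e D p) ((dUT E M).on (up p)) DF F' (bar e D) q ev)
    (o : OrthonormalBasis (Fin m) ℝ F') (hm : 1 < m) {ψ : Form ((dUT E M).on (up p))}
    {G : Form (dM E M)} (hG : G.d = 0) (hGm : Form.IsDeg m G) {c₀ : ℝ}
    (hψ : h.Ang o ψ (c₀ • Form.pull id (map_dC F D p) G)) :
    Gen (dM E M) G m (finrank ℝ E - 1) := by
  intro j w hj hw hwj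
  rcases Nat.eq_zero_or_pos j with h0 | h0
  · subst h0
    obtain ⟨c, hc⟩ := const_M F w hwj hw
    refine ⟨c, 0, ?_, fun hh => absurd (dvd_zero m) hh⟩
    rw [Nat.zero_div, pow_zero, Form.d_zero, add_zero]
    exact hc
  · obtain ⟨c, γ, h1, h2⟩ := h.base_cohom o hm hψ (n₀ := finrank ℝ E - 1)
      (const_up F hD hB p (by omega)) (exact_up F hD hB p) j
      (Form.pull id (map_dC F D p) w) hj (by rw [← Form.pull_d, hw, Form.pull_zero'])
      (hwj.pull _ _)
    have h3 : (c₀ • Form.pull id (map_dC F D p) G) ^ (j / m) =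
        c₀ ^ (j / m) • Form.pull id (map_dC F D p) (G ^ (j / m)) := by
      rw [smul_pow, pull_pow']
    set c₁ : ℝ := c * c₀ ^ (j / m) with hc₁
    have hGd : (G ^ (j / m)).d = 0 := by
      have : ∀ k : ℕ, (G ^ k).d = 0 := by
        intro k
        induction k with
        | zero => rw [pow_zero, Form.d_one]
        | succ k ih => rw [pow_succ, Form.d_mul, ih, hG, zero_mul, mul_zero, add_zero]
      exact this _
    have hdeg : Form.IsDeg j (w - c₁ • G ^ (j / m)) := by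
      by_cases hmj : m ∣ j
      · have h4 : Form.IsDeg (m * (j / m)) (G ^ (j / m)) := hGm.pow _
        rw [Nat.mul_div_cancel' hmj] at h4
        exact hwj.sub (h4.smul c₁)
      · rw [hc₁, h2 hmj, zero_mul, zero_smul, sub_zero]
        exact hwj
    obtain ⟨Γ, hΓ⟩ := exact_of_cut F hD hB hdiam hl p h0 (by omega)
      (w := w - c₁ • G ^ (j / m)) (by rw [Form.d_sub, hw, Form.d_smul, hGd, smul_zero, sub_zero])
      hdeg (γ := γ) (by
        rw [Form.pull_sub', Co.pull_smul, h1, h3, smul_smul, ← hc₁]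
        abel)
    refine ⟨c₁, Γ, ?_, fun hh => by rw [hc₁, h2 hh, zero_mul]⟩
    rw [← hΓ]
    abel

/-- the cohomology of the unit tangent bundle -/
theorem gen_UT {G : Form (dM E M)} {m : ℕ} (h : Gen (dM E M) G m (finrank ℝ E - 1)) :
    Gen (dUT E M) (Form.pull foot map_foot G) m (finrank ℝ E - 1) := by
  intro j w hj hw hwj
  obtain ⟨a, κ, ha, haj, he, -, -⟩ := CoU.surj (M := M) (j := j) (by omega) hw hwj
  obtain ⟨c, Γ, h1, h2⟩ := h j a hj ha haj
  refine ⟨c, Form.pull foot map_foot Γ + κ, ?_, h2⟩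
  rw [he]
  conv_lhs => rw [h1]
  rw [Form.pull_add', Co.pull_smul, pull_pow', Form.d_add, Form.pull_d, add_assoc]

end

end Vale.Agent.P231.CoC
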