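import Vale.Agent.P231.S2I.LH1
import Vale.Agent.P231.H304.CVa
import Vale.Agent.P231.FE.Defs

/-!
# P231, stage 2 tools (M6): the integral of the solid angle form over the unit sphere
-/

set_option linter.unusedSectionVars false
set_option linter.unusedVariables false

open MeasureTheory Set Module Filter Topology Metric
open scoped ContDiff

namespace Vale.Agent.P231.CoC

noncomputable section

open Vale.Agent.P231.Fm Vale.Agent.P231.FE
open Vale.Agent.P231.S2I (chF cut_chF contDiff_chF sint sint_eq map_rad' dPt Pt)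
open Vale.Agent.P231.Q (dR Cut)
open Vale.Agent.P231.S2I (dP)

/-- the radial profile of the cutoff -/
def gr (r : ℝ) : ℝ := Real.smoothTransition (2 * r ^ 2 - 1)

theorem contDiff_gr : ContDiff ℝ ∞ gr :=
  Real.smoothTransition.contDiff.comp ((contDiff_const.mul (contDiff_id.pow 2)).sub
    contDiff_const)

theorem gr_zero : gr 0 = 0 := Real.smoothTransition.zero_of_nonpos (by norm_num)

theorem gr_one {r : ℝ} (h : 1 ≤ |r|) : gr r = 1 :=
  Real.smoothTransition.one_of_one_le (by nlinarith [sq_abs r])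

theorem deriv_gr {r : ℝ} (h : 1 < |r|) : deriv gr r = 0 := by
  have h1 : gr =ᶠ[𝓝 r] fun _ => 1 := by
    filter_upwards [continuous_abs.continuousAt.eventually (lt_mem_nhds h)] with s hs
    exact gr_one hs.le
  rw [h1.deriv_eq]
  simp

theorem integral_gr : ∫ r in Ioi (0 : ℝ), deriv gr r = 1 := by
  have hc : Continuous (deriv gr) := contDiff_gr.continuous_deriv (by simp)
  have hcs : HasCompactSupport (deriv gr) := by
    refine HasCompactSupport.intro (isCompact_closedBall (0 : ℝ) 1) fun r hr => ?_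
    rw [mem_closedBall_zero_iff, not_le, Real.norm_eq_abs] at hr
    exact deriv_gr hr
  have h := integral_Ioi_of_hasDerivAt_of_tendsto' (a := (0 : ℝ)) (m := 1) (f := gr)
    (fun r _ => (contDiff_gr.differentiable (by simp) r).hasDerivAt)
    (hc.integrable_of_hasCompactSupport hcs).integrableOn (by
      refine tendsto_const_nhds.congr' ?_
      filter_upwards [eventually_ge_atTop 1] with r hr
      rw [gr_one (by rwa [abs_of_nonneg (by linarith)])])
  rw [h, gr_zero, sub_zero]

variable {F : Type} [NormedAddCommGroup F] [InnerProductSpace ℝ F] [FiniteDimensional ℝ F]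
  [MeasurableSpace F] [BorelSpace F]

theorem chF_eq (y : F) : chF y = gr ‖y‖ := rfl

theorem fderiv_chF (y : F) : fderiv ℝ (chF : F → ℝ) y y = ‖y‖ * deriv gr ‖y‖ := by
  have h1 : HasDerivAt (fun t : ℝ => t • y) ((1 : ℝ) • y) 1 := (hasDerivAt_id (1 : ℝ)).smul_const y
  have h2 : HasFDerivAt (chF : F → ℝ) (fderiv ℝ chF y) ((1 : ℝ) • y) := by
    rw [one_smul]
    exact (contDiff_chF.differentiable (by simp) y).hasFDerivAt
  have h3 := h2.comp_hasDerivAt (1 : ℝ) h1
  have h4 : HasDerivAt (fun t : ℝ => gr (t * ‖y‖)) (deriv gr ‖y‖ * (1 * ‖y‖)) 1 := by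
    have h5 : HasDerivAt (fun t : ℝ => t * ‖y‖) (1 * ‖y‖) 1 :=
      (hasDerivAt_id (1 : ℝ)).mul_const _
    have h6 : HasDerivAt gr (deriv gr ‖y‖) (1 * ‖y‖) := by
      rw [one_mul]
      exact (contDiff_gr.differentiable (by simp) _).hasDerivAt
    exact HasDerivAt.comp (h₂ := gr) (1 : ℝ) h6 h5
  have h7 : (chF ∘ fun t : ℝ => t • y) =ᶠ[𝓝 1] fun t : ℝ => gr (t * ‖y‖) := by
    filter_upwards [eventually_gt_nhds (zero_lt_one : (0 : ℝ) < 1)] with t ht
    change gr ‖t • y‖ = gr (t * ‖y‖)
    rw [norm_smul, Real.norm_of_nonneg ht.le]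
  have h8 := (h4.congr_of_eventuallyEq h7).unique h3
  rw [one_smul] at h8
  rw [← h8]
  ring

variable {m : ℕ} (o : OrthonormalBasis (Fin m) ℝ F)

theorem eval_wdg : evalForm (wdg (fun a => o a)) o = 1 := by
  have h := cont_ofFn (E := F) (fun a => innerSL ℝ (o a)) o (fun i j => by
    rw [innerSL_apply_apply]
    exact orthonormal_iff_ite.1 o.orthonormal i j)
  rw [evalForm_apply, wdg, h, map_one]

/-- the volume of the unit sphere -/
def sv (F : Type) [NormedAddCommGroup F] [InnerProductSpace ℝ F] [FiniteDimensional ℝ F]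
    [MeasurableSpace F] [BorelSpace F] : ℝ :=
  finrank ℝ F * (volume : Measure F).real (ball 0 1)

theorem sv_pos (h : 0 < finrank ℝ F) : 0 < sv F := by
  have h1 : 0 < (volume : Measure F).real (ball 0 1) := by
    rw [Measure.real, ENNReal.toReal_pos_iff]
    exact ⟨measure_ball_pos _ _ one_pos, measure_ball_lt_top⟩
  exact mul_pos (by exact_mod_cast h) h1

/-- **the integral of the solid angle form** -/
theorem sint_solid (hm : 0 < m) {C : ℝ} {w : Form (dP F)}
    (hw : ∀ y : F, y ≠ 0 → (Form.pull rad map_rad' w).val id y =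
      (C * (‖y‖ ^ m)⁻¹) • iprod y (wdg fun a => o a)) : sint o w = C * sv F := by
  have hfr : finrank ℝ F = m := by rw [finrank_eq_card_basis o.toBasis, Fintype.card_fin]
  have : Nontrivial F := nontrivial_of_finrank_pos (R := ℝ) (by omega)
  have h1 : ∀ y : F, evalForm (dR chF y * (Form.pull rad map_rad' w).val id y) o =
      (fun r : ℝ => C * (r ^ m)⁻¹ * (r * deriv gr r)) ‖y‖ := by
    intro y
    rcases eq_or_ne y 0 with rfl | hy
    · rw [cut_chF.dR_near.self_of_nhds, zero_mul, Q.evalForm_zero]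
      simp
    · rw [hw y hy, mul_smul_comm, Q.evalForm_smul, dR,
        CV.evalForm_dx_mul_iprod (by rw [hfr]) _ _ _ _, eval_wdg, mul_one, fderiv_chF]
  rw [sint_eq]
  simp only [h1]
  rw [integral_fun_norm_addHaar (volume : Measure F)
    (fun r => C * (r ^ m)⁻¹ * (r * deriv gr r)), hfr]
  have h3 : ∫ y in Ioi (0 : ℝ), y ^ (m - 1) • (C * (y ^ m)⁻¹ * (y * deriv gr y)) = C := by
    have h4 : ∀ y ∈ Ioi (0 : ℝ), y ^ (m - 1) • (C * (y ^ m)⁻¹ * (y * deriv gr y)) =
        C * deriv gr y := by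
      intro y hy
      have hy0 : (y : ℝ) ≠ 0 := (mem_Ioi.1 hy).ne'
      obtain ⟨k, rfl⟩ : ∃ k, m = k + 1 := ⟨m - 1, by omega⟩
      rw [Nat.add_sub_cancel, smul_eq_mul, pow_succ]
      field_simp
    rw [setIntegral_congr_fun measurableSet_Ioi h4, integral_const_mul, integral_gr, mul_one]
  rw [h3, sv, hfr, nsmul_eq_mul, smul_eq_mul]
  ring

end

end Vale.Agent.P231.CoC
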