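import Vale.Agent.P231.Co.BunC
import Vale.Agent.P231.Co.Solid
import Vale.Agent.P231.Co.Gen
import Vale.Agent.P231.FE.B0
import Vale.Agent.P231.WR.Th

/-!
# P231, stage 2 tools (M7): the angular form of the unit sphere at a point over the cut locus
-/

set_option maxSynthPendingDepth 3
set_option linter.unusedSectionVars false
set_option linter.unusedVariables false

open Bundle Manifold Set Filter Module
open scoped ContDiff Manifold Topology

namespace Vale.Agent.P231.CoC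

noncomputable section

open Vale.Agent.P234 Vale.Agent.P231 Vale.Agent.P231.Fm Vale.Agent.P231.W Vale.Agent.P231.H775
open Vale.Agent.P231.WE Vale.Agent.P231.FE
open Vale.Agent.P231.Co (SB)
open Vale.Agent.P231.S2I (sint map_rad' dPt Pt dP)

section Formal

variable {B S Fr : Type*} {DB : Dif B} {DS : Dif S} {DF : Dif Fr}
variable {F' : Type} [NormedAddCommGroup F'] [InnerProductSpace ℝ F'] [FiniteDimensional ℝ F']
  [MeasurableSpace F'] [BorelSpace F'] {m : ℕ} (o : OrthonormalBasis (Fin m) ℝ F')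
  {ϖ : S → B} {q : Fr → B} {ev : Fr × F' → S}

theorem rad_unit {y : F'} (h : ‖y‖ = 1) : (rad y : F') = y := by
  rw [rad, h, inv_one, one_smul]

theorem map_cst {L : Fr} (hL : dPt.Map DF (fun _ => L)) (h : Co.Bun DB DS DF F' ϖ q ev) :
    (dP F').Map DS (fun y => ev (L, rad y)) := by
  intro V _ _ _ u x hu
  exact h.hev (Co.map_SB hL (S2I.map_r hu))

/-- a constant fibre integral is the integral over any sphere -/
theorem const_eq_sint (h : Co.Bun DB DS DF F' ϖ q ev) {σ : Form DS} {c : ℝ}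
    (hc : h.SI o σ = c • (1 : Form DB)) {L : Fr} (hL : dPt.Map DF (fun _ => L)) :
    c = sint o (Form.pull (fun y => ev (L, rad y)) (map_cst hL h) σ) := by
  have h1 := h.pull_SI o σ
  rw [hc, Co.Bun.smul_one_pull] at h1
  have h2 := Co.si_nat o hL (Form.pull ev h.hev σ)
  rw [← h1, Co.Bun.smul_one_pull] at h2
  have h3 : (Form.pull Prod.snd S2I.map_i (Form.pull (fun y => ev (L, rad y)) (map_cst hL h) σ) :
      Form (SB dPt F')) = Form.pull (fun p : Pt × F' => (L, p.2)) (Co.map_SB hL)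
        (Form.pull ev h.hev σ) := by
    refine Form.ext_val fun V _ _ _ u x hu => ?_
    rw [Form.pull_val _ _ hu, Form.pull_val _ _ (S2I.map_i hu), Form.pull_val _ _ hu,
      Form.pull_val _ _ (Co.map_SB hL hu)]
    refine σ.congr (map_cst hL h (S2I.map_i hu)) ?_
    filter_upwards [hu.2] with y hy
    have hy' : ‖(u y).2‖ = 1 := hy
    show ev (L, rad (u y).2) = ev (L, (u y).2)
    rw [rad_unit hy']
  rw [sint, h3]
  have h4 : Co.si o (Form.pull (fun p : Pt × F' => (L, p.2)) (Co.map_SB hL)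
      (Form.pull ev h.hev σ)) = c • (1 : Form dPt) := h2
  rw [h4, WF.ptv, Form.smul_val, Form.one_val (S2I.pt_at _ _), map_smul, map_one, smul_eq_mul,
    mul_one]

end Formal

variable {E : Type*} [NormedAddCommGroup E] [NormedSpace ℝ E] [FiniteDimensional ℝ E]
  {M : Type*} [MetricSpace M] [ChartedSpace E M] [IsManifold 𝓘(ℝ, E) ∞ M]
  [RiemannianBundle (fun x : M => TangentSpace 𝓘(ℝ, E) x)]
  [IsContMDiffRiemannianBundle 𝓘(ℝ, E) ∞ E (fun x : M => TangentSpace 𝓘(ℝ, E) x)]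
  {e : ∀ x : M, TangentSpace 𝓘(ℝ, E) x → M}
  [CompactSpace M] [ConnectedSpace M] [IsRiemannianManifold 𝓘(ℝ, E) M]

theorem map_cp (p : M) : ((dUT E M).on (up p)).Map (dM E M) (fun _ => p) := by
  intro V _ _ _ u x hu
  have h1 : ∀ᶠ y in 𝓝 x, ContMDiffAt 𝓘(ℝ, V) 𝓘(ℝ, E) ∞ (fun _ : V => p) y :=
    Eventually.of_forall fun y => contMDiffAt_const
  exact h1

/-- the differential of the primitive at `p` -/
theorem res_B0_d (F : Facts e) (D : ℝ) (p : M) {G : Form (dM E M)} (hG : G.d = 0) {k : ℕ}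
    (hk : Form.IsDeg (k + 1) G) :
    (Form.res (up p) (WR.B0 F D G)).d =
      Form.pull (bar e D) (Dif.map_quot : ((dUT E M).on (up p)).Map (dC e D p) (bar e D))
        (Form.pull id (map_dC F D p) G) := by
  have h0 : (WR.B0 F D G).d =
      Form.pull (bar e D) (CoC.map_bar F D) G - Form.pull foot map_foot G := by
    have h := WA.KT_homotopy D (Form.pull (gm e) (map_gm F) G)
    rw [WA.at_pull (map_gm F) D (CoC.map_bar F D) (fun _ => rfl),
      WA.at_pull (map_gm F) 0 map_foot (fun v => gm_zero F v), ← Form.pull_d, hG] at h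
    have h3 : Form.pull (gm e) (map_gm F) (0 : Form (dM E M)) = 0 :=
      map_zero (Form.pullA (gm e) (map_gm F))
    rw [h3, WA.KT_zero', zero_add] at h
    exact h.symm
  refine Form.ext_val fun V _ _ _ u x hu => ?_
  have h1 : ((dUT E M).on (up p)).At u x := hu
  have h2 : (dC e D p).At (bar e D ∘ u) x :=
    (Dif.map_quot : ((dUT E M).on (up p)).Map (dC e D p) (bar e D)) hu
  have h3 : (dM E M).At (foot ∘ u) x := map_foot hu.1
  have h4 : (foot ∘ u) =ᶠ[𝓝 x] fun _ => p := hu.2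
  have h5 : G.val (foot ∘ u) x = 0 := by
    rw [G.congr h3 h4]
    have h6 := Form.pull_const_eq_zero (map_cp (E := E) p) hk
    have h7 := congrArg (fun f : Form ((dUT E M).on (up p)) => f.val u x) h6
    change (Form.pull (fun _ => p) (map_cp (E := E) p) G).val u x =
      (0 : Form ((dUT E M).on (up p))).val u x at h7
    rw [Form.pull_val _ _ hu, Form.zero_val] at h7
    exact h7
  rw [Form.res, ← Form.pull_d, h0, Form.pull_val _ _ hu, Form.sub_val]
  change (Form.pull (bar e D) (CoC.map_bar F D) G).val u x - (Form.pull foot map_foot G).val u x = _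
  rw [Form.pull_val _ _ hu.1, Form.pull_val _ _ hu.1, h5, sub_zero, Form.pull_val _ _ hu]
  exact (Form.pull_val (map_dC F D p) G h2).symm

section Main

variable (F : Facts e) {D : ℝ} (hD : 0 < D) (hB : InjGE e D)
    (hdiam : ∀ p q : M, dist p q ≤ D) {p : M} {n : ℕ}
    (hl : ∀ x y : M, dist x y = D → finrank ℝ (Pl e D x y) = 2 * n + 2)
  {Pi : TangentSpace 𝓘(ℝ, E) p → TangentSpace 𝓘(ℝ, E) p →L[ℝ] TangentSpace 𝓘(ℝ, E) p}
  {o : TangentSpace 𝓘(ℝ, E) p → Fm.Lam (TangentSpace 𝓘(ℝ, E) p)}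
  {ρ : TangentSpace 𝓘(ℝ, E) p → ℝ} {r₀ : ℝ}
    (hJ : LineP e D p n Pi o) (hρ : Rho e D p ρ r₀) (a : ℝ)

/-- pulling back the volume covector by an isometry -/
theorem pull_wdg {T : Type*} [NormedAddCommGroup T] [InnerProductSpace ℝ T]
    [FiniteDimensional ℝ T] {L : Em n →L[ℝ] T} (hL : ∀ ξ, ‖L ξ‖ = ‖ξ‖) :
    Fm.pull L (wdg fun a => L (bE n a)) = wdg fun a => bE n a := by
  rw [wdg, wdg, map_list_prod, List.map_ofFn]
  congr 2
  funext a
  show Fm.pull L (Fm.dx (innerSL ℝ (L (bE n a)))) = Fm.dx (innerSL ℝ (bE n a))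
  rw [pull_dx]
  congr 1
  refine ContinuousLinearMap.ext fun z => ?_
  show (inner ℝ (L (bE n a)) (L z) : ℝ) = inner ℝ (bE n a) z
  exact iso_inner hL _ _

include hD hB hdiam hl in
/-- the primitive on the sphere of a frame -/
theorem B0_frame (v₀ : UT E M) {L : Em n →L[ℝ] TangentSpace 𝓘(ℝ, E) p} (hL : L ∈ FrS n Pi o)
    {U : Em n → UT E M} {y : Em n} (hy : y ≠ 0)
    (hU : ∀ᶠ z in 𝓝 y, U z = mkp p v₀ (L (rad z))) :
    (WR.B0 F D (FF F hD hB hdiam hl hJ hρ a)).val U y =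
      ((a * ((2 * n + 1).factorial : ℝ)) * (‖y‖ ^ (2 * n + 2))⁻¹) •
        Fm.iprod y (wdg fun a => bE n a) := by
  have hne : ∀ᶠ z in 𝓝 y, z ≠ 0 := isOpen_ne.mem_nhds hy
  have h1 : Sm (fun z : Em n => L (rad z)) y := by
    filter_upwards [hne] with z hz
    exact L.contDiff.contDiffAt.comp z (cd_rad hz)
  have h2 : ∀ᶠ z in 𝓝 y, foot (U z) = p ∧ (vec' (U z) : E) = L (rad z) := by
    filter_upwards [hU, hne] with z hz hz0
    have h3 : ‖L (rad z)‖ = 1 := by rw [hL.1, nm_rad hz0]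
    rw [hz]
    exact ⟨foot_mkp h3, vec'_mkp h3⟩
  have hLy : L y ≠ 0 := by rwa [← norm_ne_zero_iff, hL.1, norm_ne_zero_iff]
  have h4 := B0_sphere F hD hB hdiam hl hJ hρ a h1 h2
  have h5 : (fun z : Em n => L (rad z)) = fun z => ‖z‖⁻¹ • L z := by
    funext z
    rw [rad, map_smul]
  have h6 := hJ.os.pb_smul a (f := fun z => L z) (r := fun z : Em n => ‖z‖⁻¹) (x := y)
    L.differentiableAt
    (((contDiffAt_norm ℝ hy).inv (norm_ne_zero_iff.2 hy)).differentiableAt (n := ∞) (by simp))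
    hLy (inv_pos.2 (norm_pos_iff.2 hy))
  have h7 := hJ.os.psi_fibre a (f := fun z => L z) (x := y) L.differentiableAt hLy
    (Eventually.of_forall fun z => by
      rw [FrS.Pi_eq hJ.os hL hy]
      exact FrS.fix hJ.os hL z)
  have h8 : fderiv ℝ (fun z => L z) y = L := L.fderiv
  refine Eq.trans h4 ?_
  rw [h5, h6, h7, h8, hL.1, FrS.o_eq hJ.os hL hy, ← pull_iprod, pull_wdg hL.1]

theorem FF_isDeg : Form.IsDeg (2 * n + 2) (FF F hD hB hdiam hl hJ hρ a) :=
  DegC.ofWF (FF_deg F hD hB hdiam hl hJ hρ a)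

/-- oriented frames exist -/
theorem exists_FrS {T : Type*} [NormedAddCommGroup T] [InnerProductSpace ℝ T]
    [FiniteDimensional ℝ T] {Pi : T → T →L[ℝ] T} {o : T → Fm.Lam T} (h : OS n Pi o)
    {u : T} (hu : ‖u‖ = 1) : ∃ L : Em n →L[ℝ] T, L ∈ FrS n Pi o := by
  obtain ⟨L, -, h2⟩ := exists_frS (V := ℝ) (x := 0) h (v := fun _ => u)
    (Sm.of_contDiff contDiff_const _) (Eventually.of_forall fun y => hu)
  exact ⟨L 0, h2.self_of_nhds.1⟩

include F hD hB hdiam hl hJ hρ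

/-- **the fibre integral of the primitive** -/
theorem SI_B0 (v₀ : UT E M) (hN : 1 < finrank ℝ E) :
    (bun_Cut hJ v₀).SI (bE n) (Form.res (up p) (WR.B0 F D (FF F hD hB hdiam hl hJ hρ a))) =
      (a * ((2 * n + 1).factorial : ℝ) * sv (Em n)) • (1 : Form (dC e D p)) := by
  set G := FF F hD hB hdiam hl hJ hρ a with hG
  set σ : Form ((dUT E M).on (up p)) := Form.res (up p) (WR.B0 F D G) with hσ
  have hGd : G.d = 0 := FF_d F hD hB hdiam hl hJ hρ a
  have hGk : Form.IsDeg (2 * n + 2) G := FF_isDeg F hD hB hdiam hl hJ hρ a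
  set h := bun_Cut (e := e) (D := D) hJ v₀ with hh
  have hσk : Form.IsDeg (2 * n + 1) σ := (Co.isDeg_KT D (hGk.pull _ _)).pull _ _
  have hσd : σ.d = Form.pull (bar e D) h.hπ (Form.pull id (map_dC F D p) G) :=
    res_B0_d F D p hGd hGk
  have h1 : Form.IsDeg 0 (h.SI (bE n) σ) := h.isDeg_SI (bE n) hσk (by omega)
  have h2 : (h.SI (bE n) σ).d = 0 := by
    have h3 := h.SI_d (bE n) σ
    rw [hσd, Co.Bun.SI_pull h (bE n) (by omega)] at h3
    exact (smul_eq_zero.1 h3.symm).resolve_left (pow_ne_zero _ (by norm_num))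
  obtain ⟨c, hc⟩ := Co.Bun.h0_base h (bE n) (by omega) (const_up F hD hB p hN) h2 h1
  -- the value of the constant
  have : Nontrivial E := nontrivial_of_finrank_pos (R := ℝ) (by omega)
  have hu : ∃ u : TangentSpace 𝓘(ℝ, E) p, ‖u‖ = 1 := by
    have : Nontrivial (TangentSpace 𝓘(ℝ, E) p) := ‹Nontrivial E›
    exact exists_norm_eq (TangentSpace 𝓘(ℝ, E) p) (zero_le_one (α := ℝ))
  obtain ⟨u, hu⟩ := hu
  obtain ⟨L, hL⟩ := exists_FrS hJ.os hu
  have hLc : dPt.Map (dFrS n Pi o) (fun _ => L) := fun {V} _ _ _ {u x} _ =>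
    ⟨Sm.of_contDiff contDiff_const _, Eventually.of_forall fun y => hL⟩
  have h4 := const_eq_sint (bE n) h hc hLc
  have h5 := sint_solid (bE n) (by omega) (C := a * ((2 * n + 1).factorial : ℝ))
    (w := Form.pull (fun y => evC p v₀ n (L, rad y)) (map_cst hLc h) σ) (fun y hy => by
      have k1 : (dP (Em n)).At (id : Em n → Em n) y := S2I.at_id hy
      have k2 : (dP (Em n)).At (rad ∘ (id : Em n → Em n)) y := map_rad' k1
      have k3 : ((dUT E M).on (up p)).At ((fun y => evC p v₀ n (L, rad y)) ∘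
          (rad ∘ (id : Em n → Em n))) y := map_cst hLc h k2
      rw [Form.pull_val _ _ k1, Form.pull_val _ _ k2, hσ, Form.res_val _ k3]
      refine B0_frame F hD hB hdiam hl hJ hρ a v₀ hL hy ?_
      filter_upwards [isOpen_ne.mem_nhds hy] with z hz
      show mkp p v₀ (L (rad (rad z))) = mkp p v₀ (L (rad z))
      rw [rad_unit (nm_rad hz)])
  rw [hc, h4, h5]

/-- **the angular form of the unit sphere at `p`** -/
theorem ang_Cut (v₀ : UT E M) (hN : 1 < finrank ℝ E) (ha : a ≠ 0) :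
    ∃ (ψ : Form ((dUT E M).on (up p))) (c : ℝ), (bun_Cut hJ v₀).Ang (bE n) ψ
      (c • Form.pull id (map_dC F D p) (FF F hD hB hdiam hl hJ hρ a)) := by
  set k : ℝ := a * ((2 * n + 1).factorial : ℝ) * sv (Em n) with hk
  have hk0 : k ≠ 0 := mul_ne_zero (mul_ne_zero ha (by positivity))
    (sv_pos (by rw [finrank_euclideanSpace, Fintype.card_fin]; omega)).ne'
  set G := FF F hD hB hdiam hl hJ hρ a with hG
  have hGd : G.d = 0 := FF_d F hD hB hdiam hl hJ hρ a
  have hGk : Form.IsDeg (2 * n + 2) G := FF_isDeg F hD hB hdiam hl hJ hρ a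
  refine ⟨k⁻¹ • Form.res (up p) (WR.B0 F D G), -k⁻¹, ?_, ?_, ?_, ?_⟩
  · rw [Form.d_smul, res_B0_d F D p hGd hGk, Co.pull_smul, neg_smul, neg_neg]
    rfl
  · rw [(bun_Cut hJ v₀).SI_smul (bE n), SI_B0 F hD hB hdiam hl hJ hρ a v₀ hN, smul_smul,
      inv_mul_cancel₀ hk0, one_smul]
  · exact ((Co.isDeg_KT D (hGk.pull _ _)).pull _ _ : Form.IsDeg (2 * n + 1)
      (Form.res (up p) (WR.B0 F D G))).smul _
  · exact (hGk.pull _ _).smul _

/-- **the cohomology of `M` below the dimension minus one** -/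
theorem gen_FF (hN : 1 < finrank ℝ E) (ha : a ≠ 0) :
    Gen (dM E M) (FF F hD hB hdiam hl hJ hρ a) (2 * n + 2) (finrank ℝ E - 1) := by
  have : Nontrivial E := nontrivial_of_finrank_pos (R := ℝ) (by omega)
  have hu : ∃ u : TangentSpace 𝓘(ℝ, E) p, ‖u‖ = 1 := by
    have : Nontrivial (TangentSpace 𝓘(ℝ, E) p) := ‹Nontrivial E›
    exact exists_norm_eq (TangentSpace 𝓘(ℝ, E) p) (zero_le_one (α := ℝ))
  obtain ⟨u, hu⟩ := hu
  obtain ⟨ψ, c, hψ⟩ := ang_Cut F hD hB hdiam hl hJ hρ a (W.mk (E := E) p u hu) hN ha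
  exact gen_M F hD hB hdiam (l := 2 * n + 1) hl p (bun_Cut hJ _) (bE n) (by omega)
    (FF_d F hD hB hdiam hl hJ hρ a) (FF_isDeg F hD hB hdiam hl hJ hρ a) hψ

end Main

end

end Vale.Agent.P231.CoC
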