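import Vale.Agent.P231.Co.On

/-!
# P231, stage 2 tools (7): descent of forms along quotient maps
-/

set_option linter.unusedSectionVars false
set_option linter.unusedVariables false

open Set Module Filter Topology
open scoped ContDiff

namespace Vale.Agent.P231.Co

open Vale.Agent.P231.Fm
open Vale.Agent.P231.Fm (Sm Dif Form Lam)

variable {X Y : Type*} {D : Dif X} {D' : Dif Y} {q : X → Y}

/-- plots of `D'` lift locally along `q` -/
structure IsQuo (D : Dif X) (D' : Dif Y) (q : X → Y) : Prop where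
  map : D.Map D' q
  lift : ∀ {E : Type} [NormedAddCommGroup E] [NormedSpace ℝ E] [FiniteDimensional ℝ E]
    {u : E → Y} {x : E}, D'.At u x → ∃ v : E → X, D.At v x ∧ q ∘ v =ᶠ[𝓝 x] u

/-- `w` has the same value on plots with the same image under `q` -/
structure Bsc (D : Dif X) (q : X → Y) (w : Form D) : Prop where
  out : ∀ {E : Type} [NormedAddCommGroup E] [NormedSpace ℝ E] [FiniteDimensional ℝ E]
    {u v : E → X} {x : E}, D.At u x → D.At v x → q ∘ u =ᶠ[𝓝 x] q ∘ v → w.val u x = w.val v x

theorem bsc_pull (hq : D.Map D' q) (a : Form D') : Bsc D q (Form.pull q hq a) :=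
  ⟨fun {E} _ _ _ {u v x} hu hv h => by
    rw [Form.pull_val hq _ hu, Form.pull_val hq _ hv, a.congr (hq hu) h]⟩

/-- forms on the quotient are determined by their pullbacks -/
theorem pull_inj (hq : IsQuo D D' q) {a b : Form D'}
    (h : Form.pull q hq.map a = Form.pull q hq.map b) : a = b :=
  Form.ext_val fun E _ _ _ u x hu => by
    obtain ⟨v, hv, hqv⟩ := hq.lift hu
    have h1 := congrArg (fun f : Form D => f.val v x) h
    change (Form.pull q hq.map a).val v x = (Form.pull q hq.map b).val v x at h1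
    rw [Form.pull_val _ _ hv, Form.pull_val _ _ hv, a.congr (hq.map hv) hqv,
      b.congr (hq.map hv) hqv] at h1
    exact h1

open Classical in
/-- the chosen lift -/
noncomputable def lft (hq : IsQuo D D' q) {E : Type} [NormedAddCommGroup E] [NormedSpace ℝ E]
    [FiniteDimensional ℝ E] (u : E → Y) (x : E) (d : Form D) : Lam E :=
  if h : D'.At u x then d.val (Classical.choose (hq.lift h)) x else 0

theorem lft_eq (hq : IsQuo D D' q) {w : Form D} (hw : Bsc D q w) {E : Type}
    [NormedAddCommGroup E] [NormedSpace ℝ E] [FiniteDimensional ℝ E] {u : E → Y} {v : E → X}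
    {x : E} (hv : D.At v x) (h : q ∘ v =ᶠ[𝓝 x] u) : lft hq u x w = w.val v x := by
  have hu : D'.At u x := D'.congr (hq.map hv) h
  rw [lft, dif_pos hu]
  have h1 := Classical.choose_spec (hq.lift hu)
  exact hw.out h1.1 hv (h1.2.trans h.symm)

/-- descent of a basic form -/
noncomputable def desc (hq : IsQuo D D' q) (w : Form D) (hw : Bsc D q w) : Form D' :=
  Form.mk' (fun u x => lft hq u x w)
    (fun {E} _ _ _ {u x} h => by
      obtain ⟨v, hv, hqv⟩ := hq.lift h
      refine (w.smooth hv).congr_of_eventuallyEq ?_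
      filter_upwards [D.open' hv, hqv.eventuallyEq_nhds] with y h1 h2
      exact lft_eq hq hw h1 h2)
    (fun {E F} _ _ _ _ _ _ {u g x} h hg => by
      obtain ⟨v, hv, hqv⟩ := hq.lift h
      have h1 : q ∘ (v ∘ g) =ᶠ[𝓝 x] u ∘ g := hg.continuousAt.eventually hqv
      rw [lft_eq hq hw hv hqv, lft_eq hq hw (D.comp hv hg) h1, w.nat hv hg])
    (fun {E} _ _ _ {u v x} h huv => by
      obtain ⟨z, hz, hqz⟩ := hq.lift h
      rw [lft_eq hq hw hz hqz, lft_eq hq hw hz (hqz.trans huv)])

theorem desc_val (hq : IsQuo D D' q) {w : Form D} (hw : Bsc D q w) {E : Type}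
    [NormedAddCommGroup E] [NormedSpace ℝ E] [FiniteDimensional ℝ E] {u : E → Y} {v : E → X}
    {x : E} (hv : D.At v x) (h : q ∘ v =ᶠ[𝓝 x] u) : (desc hq w hw).val u x = w.val v x := by
  rw [desc, Form.mk'_val (D'.congr (hq.map hv) h), lft_eq hq hw hv h]

theorem pull_desc (hq : IsQuo D D' q) {w : Form D} (hw : Bsc D q w) :
    Form.pull q hq.map (desc hq w hw) = w := Form.ext_val fun E _ _ _ u x hu => by
  rw [Form.pull_val _ _ hu, desc_val hq hw hu EventuallyEq.rfl]

end Vale.Agent.P231.Co
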