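import Vale.Agent.P231.Co.Nat
import Vale.Agent.P231.Co.Quo

/-!
# P231, stage 2 tools (8): sphere bundles with local frames

`S → B` is a sphere bundle, `Fr → B` its space of frames, `ev : Fr × S(F) → S`.
`SI : Form DS → Form DB` is the integration along the fibre.
-/

set_option linter.unusedSectionVars false
set_option linter.unusedVariables false

open MeasureTheory Set Module Filter Topology
open scoped ContDiff

namespace Vale.Agent.P231.Co

open Vale.Agent.P231.Fm Vale.Agent.P231.W Vale.Agent.P231.H584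
open Vale.Agent.P231.Fm (Sm Dif Form Lam)

variable {B S Fr : Type*} {DB : Dif B} {DS : Dif S} {DF : Dif Fr}
variable {F : Type} [NormedAddCommGroup F] [InnerProductSpace ℝ F] [FiniteDimensional ℝ F]

/-- a sphere bundle `π : S → B` with frames `q : Fr → B` and evaluation `ev : Fr × S(F) → S` -/
structure Bun (DB : Dif B) (DS : Dif S) (DF : Dif Fr) (F : Type) [NormedAddCommGroup F]
    [InnerProductSpace ℝ F] [FiniteDimensional ℝ F] (π : S → B) (q : Fr → B)
    (ev : Fr × F → S) : Prop where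
  hπ : DS.Map DB π
  hq : IsQuo DF DB q
  hev : (SB DF F).Map DS ev
  comm : ∀ {E : Type} [NormedAddCommGroup E] [NormedSpace ℝ E] [FiniteDimensional ℝ E]
    {u : E → Fr × F} {x : E}, (SB DF F).At u x → π (ev (u x)) = q (u x).1
  trans : ∀ {E : Type} [NormedAddCommGroup E] [NormedSpace ℝ E] [FiniteDimensional ℝ E]
    {f f' : E → Fr} {x : E}, DF.At f x → DF.At f' x → q ∘ f =ᶠ[𝓝 x] q ∘ f' →
    ∃ g : E → F →L[ℝ] F, Sm g x ∧ ∀ᶠ y in 𝓝 x, (∀ ξ, ‖g y ξ‖ = ‖ξ‖) ∧
      LinearMap.det ((g y : F →L[ℝ] F) : F →ₗ[ℝ] F) = 1 ∧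
      ∀ ξ, ‖ξ‖ = 1 → ev (f' y, ξ) = ev (f y, g y ξ)
  lift : ∀ {E : Type} [NormedAddCommGroup E] [NormedSpace ℝ E] [FiniteDimensional ℝ E]
    {s : E → S} {f : E → Fr} {x : E}, DS.At s x → DF.At f x → q ∘ f =ᶠ[𝓝 x] π ∘ s →
    ∃ ξ : E → F, Sm ξ x ∧ ∀ᶠ y in 𝓝 x, ‖ξ y‖ = 1 ∧ ev (f y, ξ y) = s y
  inj : ∀ {E : Type} [NormedAddCommGroup E] [NormedSpace ℝ E] [FiniteDimensional ℝ E]
    {f : E → Fr} {x : E}, DF.At f x → ∀ ξ ξ' : F, ‖ξ‖ = 1 → ‖ξ'‖ = 1 →
    ev (f x, ξ) = ev (f x, ξ') → ξ = ξ'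

/-- the gauge groupoid: two frames and the rotation relating them -/
def GG (q : Fr → B) (ev : Fr × F → S) : Set ((Fr × Fr) × (F →L[ℝ] F)) :=
  {p | (∀ ξ, ‖p.2 ξ‖ = ‖ξ‖) ∧ LinearMap.det ((p.2 : F →L[ℝ] F) : F →ₗ[ℝ] F) = 1 ∧
    (∀ ξ, ‖ξ‖ = 1 → ev (p.1.2, ξ) = ev (p.1.1, p.2 ξ)) ∧ q p.1.1 = q p.1.2}

/-- the diffeology of the gauge groupoid -/
noncomputable abbrev dGG (DF : Dif Fr) (q : Fr → B) (ev : Fr × F → S) :
    Dif ((Fr × Fr) × (F →L[ℝ] F)) :=
  ((DF.prod DF).prod (Dif.lin (F →L[ℝ] F))).on (GG q ev)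

section Gauge

variable {π : S → B} {q : Fr → B} {ev : Fr × F → S}

theorem map_gs : (dGG DF q ev).Map DF (fun p => p.1.1) := fun h => h.1.1.1

theorem map_gt : (dGG DF q ev).Map DF (fun p => p.1.2) := fun h => h.1.1.2

theorem rt_gg : Rt (dGG DF q ev) (fun p => p.2) where
  map := fun h => h.1.2
  iso := fun h => h.2.self_of_nhds.1
  det := fun h => h.2.self_of_nhds.2.1

theorem rt_id {G : Type*} {DG : Dif G} : Rt DG (fun _ : G => ContinuousLinearMap.id ℝ F) where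
  map := fun h => Sm.of_contDiff contDiff_const _
  iso := fun h ξ => rfl
  det := fun h => LinearMap.det_id

/-- first action map `(γ, ξ) ↦ (s γ, g γ ξ)` -/
def ma : ((Fr × Fr) × (F →L[ℝ] F)) × F → Fr × F := am (fun p => p.1.1) (fun p => p.2)

/-- second action map `(γ, ξ) ↦ (t γ, ξ)` -/
def mb : ((Fr × Fr) × (F →L[ℝ] F)) × F → Fr × F :=
  am (fun p => p.1.2) (fun _ => ContinuousLinearMap.id ℝ F)

theorem map_maS : (SB (dGG DF q ev) F).Map (SB DF F) ma := map_amS map_gs rt_gg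

theorem map_mbS : (SB (dGG DF q ev) F).Map (SB DF F) mb := map_amS map_gt rt_id

theorem map_ma : (D1 (dGG DF q ev) F).Map (D1 DF F) ma := map_am map_gs rt_gg

theorem map_mb : (D1 (dGG DF q ev) F).Map (D1 DF F) mb := map_am map_gt rt_id

/-- gauge invariant forms on the frame space -/
structure BasF (q : Fr → B) (ev : Fr × F → S) (w : Form DF) : Prop where
  eq : Form.pull (fun p : (Fr × Fr) × (F →L[ℝ] F) => p.1.1) (map_gs (q := q) (ev := ev)) w =
    Form.pull (fun p : (Fr × Fr) × (F →L[ℝ] F) => p.1.2) (map_gt (q := q) (ev := ev)) w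

/-- gauge invariant forms on `Fr × S(F)` -/
structure InvS (q : Fr → B) (ev : Fr × F → S) (w : Form (SB DF F)) : Prop where
  eq : Form.pull ma (map_maS (q := q) (ev := ev)) w = Form.pull mb map_mbS w

/-- gauge invariant forms on `Fr × F` -/
structure InvF (q : Fr → B) (ev : Fr × F → S) (w : Form (D1 DF F)) : Prop where
  eq : Form.pull ma (map_ma (q := q) (ev := ev)) w = Form.pull mb map_mb w

theorem BasF.out {w : Form DF} (h : BasF q ev w) {E : Type} [NormedAddCommGroup E]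
    [NormedSpace ℝ E] [FiniteDimensional ℝ E] {u : E → (Fr × Fr) × (F →L[ℝ] F)} {x : E}
    (hu : (dGG DF q ev).At u x) :
    w.val (fun y => (u y).1.1) x = w.val (fun y => (u y).1.2) x := by
  have h1 := congrArg (fun f : Form (dGG DF q ev) => f.val u x) h.eq
  change (Form.pull (fun p : (Fr × Fr) × (F →L[ℝ] F) => p.1.1) (map_gs (q := q) (ev := ev))
    w).val u x = (Form.pull (fun p : (Fr × Fr) × (F →L[ℝ] F) => p.1.2)
    (map_gt (q := q) (ev := ev)) w).val u x at h1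
  rw [Form.pull_val _ _ hu, Form.pull_val _ _ hu] at h1
  exact h1

theorem InvS.out {w : Form (SB DF F)} (h : InvS q ev w) {E : Type} [NormedAddCommGroup E]
    [NormedSpace ℝ E] [FiniteDimensional ℝ E] {u : E → ((Fr × Fr) × (F →L[ℝ] F)) × F} {x : E}
    (hu : (SB (dGG DF q ev) F).At u x) : w.val (ma ∘ u) x = w.val (mb ∘ u) x := by
  have h1 := congrArg (fun f : Form (SB (dGG DF q ev) F) => f.val u x) h.eq
  change (Form.pull ma (map_maS (q := q) (ev := ev)) w).val u x =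
    (Form.pull mb (map_mbS (q := q) (ev := ev)) w).val u x at h1
  rw [Form.pull_val _ _ hu, Form.pull_val _ _ hu] at h1
  exact h1

end Gauge

namespace Bun

variable {π : S → B} {q : Fr → B} {ev : Fr × F → S} (h : Bun DB DS DF F π q ev)

include h

/-- `ev` is a quotient map -/
theorem quo_ev : IsQuo (SB DF F) DS ev where
  map := h.hev
  lift := fun {E} _ _ _ {u x} hu => by
    obtain ⟨f, hf, hqf⟩ := h.hq.lift (h.hπ hu)
    obtain ⟨ξ, hξ, h1⟩ := h.lift hu hf hqf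
    exact ⟨fun y => (f y, ξ y), ⟨⟨hf, hξ⟩, h1.mono fun y hy => hy.1⟩, h1.mono fun y hy => hy.2⟩

theorem comm' {E : Type} [NormedAddCommGroup E] [NormedSpace ℝ E] [FiniteDimensional ℝ E]
    {u : E → Fr × F} {x : E} (hu : (SB DF F).At u x) :
    ∀ᶠ y in 𝓝 x, π (ev (u y)) = q (u y).1 := by
  filter_upwards [(SB DF F).open' hu] with y hy using h.comm hy

theorem invS_pull (σ : Form DS) : InvS q ev (Form.pull ev h.hev σ) := by
  refine ⟨Form.ext_val fun E _ _ _ u x hu => ?_⟩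
  have h1 : (SB DF F).At (ma ∘ u) x := map_maS hu
  have h2 : (SB DF F).At (mb ∘ u) x := map_mbS hu
  rw [Form.pull_val _ _ hu, Form.pull_val _ _ hu, Form.pull_val _ _ h1, Form.pull_val _ _ h2]
  refine (σ.congr (h.hev h2) ?_).symm
  filter_upwards [hu.1.1.2, hu.2] with y h3 h4
  exact h3.2.2.1 _ h4

theorem basF_pull (a : Form DB) : BasF q ev (Form.pull q h.hq.map a) := by
  refine ⟨Form.ext_val fun E _ _ _ u x hu => ?_⟩
  have h1 : DF.At (fun y => (u y).1.1) x := hu.1.1.1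
  have h2 : DF.At (fun y => (u y).1.2) x := hu.1.1.2
  rw [Form.pull_val _ _ hu, Form.pull_val _ _ hu]
  change (Form.pull q h.hq.map a).val (fun y => (u y).1.1) x =
    (Form.pull q h.hq.map a).val (fun y => (u y).1.2) x
  rw [Form.pull_val _ _ h1, Form.pull_val _ _ h2]
  refine a.congr (h.hq.map h1) ?_
  filter_upwards [hu.2] with y hy
  exact hy.2.2.2

/-- a pair of frames over the same base points gives a plot of the groupoid -/
theorem exists_gg {E : Type} [NormedAddCommGroup E] [NormedSpace ℝ E] [FiniteDimensional ℝ E]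
    {f f' : E → Fr} {x : E} (hf : DF.At f x) (hf' : DF.At f' x)
    (hq : q ∘ f =ᶠ[𝓝 x] q ∘ f') :
    ∃ g : E → F →L[ℝ] F, (dGG DF q ev).At (fun y => ((f y, f' y), g y)) x := by
  obtain ⟨g, hg, h1⟩ := h.trans hf hf' hq
  refine ⟨g, ⟨⟨hf, hf'⟩, hg⟩, ?_⟩
  filter_upwards [h1, hq] with y h2 h3
  exact ⟨h2.1, h2.2.1, h2.2.2, h3⟩

theorem bsc_of_basF {w : Form DF} (hw : BasF q ev w) : Bsc DF q w :=
  ⟨fun {E} _ _ _ {u v x} hu hv e => by
    obtain ⟨g, hg⟩ := h.exists_gg hu hv e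
    exact hw.out hg⟩

theorem bsc_of_invS {w : Form (SB DF F)} (hw : InvS q ev w) : Bsc (SB DF F) ev w :=
  ⟨fun {E} _ _ _ {u v x} hu hv e => by
    have e1 : q ∘ (fun y => (u y).1) =ᶠ[𝓝 x] q ∘ fun y => (v y).1 := by
      filter_upwards [h.comm' hu, h.comm' hv, e] with y h1 h2 h3
      change q (u y).1 = q (v y).1
      rw [← h1, ← h2]
      exact congrArg π h3
    obtain ⟨g, hg⟩ := h.exists_gg hu.1.1 hv.1.1 e1
    have hp : (SB (dGG DF q ev) F).At (fun y => ((((u y).1, (v y).1), g y), (v y).2)) x :=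
      ⟨⟨hg, hv.1.2⟩, hv.2⟩
    have h1 := hw.out hp
    have h2 : u =ᶠ[𝓝 x] ma ∘ fun y => ((((u y).1, (v y).1), g y), (v y).2) := by
      filter_upwards [hg.2, e, hv.2, hu.2, DF.open' hu.1.1] with y h3 h4 h5 h6 h7
      have h8 : ev ((u y).1, (u y).2) = ev ((u y).1, g y (v y).2) := by
        have := h3.2.2.1 (v y).2 h5
        exact Eq.trans h4 this
      have h9 : ‖g y (v y).2‖ = 1 := (h3.1 _).trans h5
      have h10 := h.inj h7 _ _ h6 h9 h8
      exact Prod.ext rfl h10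
    rw [w.congr hu h2, h1]
    rfl⟩

end Bun

end Vale.Agent.P231.Co
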