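import Vale.Agent.P231.Co.M3g

/-!
# P231, stage 2 tools (M3): a closed form on `M` which is exact on the cut locus of a point is
exact
-/

set_option maxSynthPendingDepth 3
set_option linter.unusedSectionVars false
set_option linter.unusedVariables false

open Bundle Manifold Set Filter Module
open scoped ContDiff Manifold Topology

namespace Vale.Agent.P231.CoC

noncomputable section

open Vale.Agent.P234 Vale.Agent.P231 Vale.Agent.P231.Fm Vale.Agent.P231.W Vale.Agent.P231.H775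
open Vale.Agent.P231.WE

variable {E : Type*} [NormedAddCommGroup E] [NormedSpace ℝ E] [FiniteDimensional ℝ E]
  {M : Type*} [MetricSpace M] [ChartedSpace E M] [IsManifold 𝓘(ℝ, E) ∞ M]
  [RiemannianBundle (fun x : M => TangentSpace 𝓘(ℝ, E) x)]
  [IsContMDiffRiemannianBundle 𝓘(ℝ, E) ∞ E (fun x : M => TangentSpace 𝓘(ℝ, E) x)]
  {e : ∀ x : M, TangentSpace 𝓘(ℝ, E) x → M}

open Classical in
/-- the deformation of `M ∖ {p}` to the cut locus of `p` -/
def Rt (e : ∀ x : M, TangentSpace 𝓘(ℝ, E) x → M) (D : ℝ) (p : M) (q : M × ℝ) : M :=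
  if dist p q.1 < D then e p ((D - tau q.2 * (D - dist p q.1)) • dirAt e p q.1) else q.1

theorem Rt_one (F : Facts e) {D : ℝ} (hB : InjGE e D) {p x : M} (hx : x ∈ pc p) :
    Rt e D p (x, 1) = x := by
  rw [Rt]
  split_ifs with h
  · have h1 : D - tau (x, (1 : ℝ)).2 * (D - dist p (x, (1 : ℝ)).1) = dist p x := by
      show D - tau 1 * (D - dist p x) = dist p x
      rw [tau_one]
      ring
    rw [h1]
    exact exp_smul_dirAt F hB h hx
  · rfl

theorem Rt_zero (F : Facts e) {D : ℝ} {p x : M} : Rt e D p (x, 0) = cutPt e D p x := by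
  rw [Rt, cutPt]
  have h1 : D - tau (x, (0 : ℝ)).2 * (D - dist p (x, (0 : ℝ)).1) = D := by
    show D - tau 0 * (D - dist p x) = D
    rw [tau_zero]
    ring
  rw [h1]

variable [CompactSpace M] [ConnectedSpace M] [IsRiemannianManifold 𝓘(ℝ, E) M]

/-- the deformation in polar coordinates at the cut point -/
theorem Rt_polar (F : Facts e) {D : ℝ} (hD : 0 < D) (hB : InjGE e D)
    (hdiam : ∀ p q : M, dist p q ≤ D) {p g z : M} (hg : dist p g = D)
    {a : TangentSpace 𝓘(ℝ, E) g} (ha : a ∈ Pl e D p g) (haD : ‖a‖ < D) (hz : e g a = z)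
    (hpz : dist p z = D - ‖a‖) (t : ℝ) : Rt e D p (z, t) = e g (tau t • a) := by
  by_cases h : dist p z < D
  · have hapos : 0 < ‖a‖ := by linarith
    obtain ⟨b, hb, hab⟩ := exists_Lk_of_Pl F hD hB hdiam hg ha
    obtain ⟨v, hv, hvb⟩ := link_reverse F hb
    have h1 : e p ((D - ‖a‖) • v) = z := by
      rw [hvb, sub_sub_cancel, ← hab, hz]
    have h3 : dirAt e p z = v := by
      rw [← h1]
      exact dirAt_exp F hB hv (by linarith only [haD]) (by linarith only [hapos])
    have h4 : D - tau (z, t).2 * (D - dist p (z, t).1) = D - tau t * ‖a‖ := by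
      show D - tau t * (D - dist p z) = D - tau t * ‖a‖
      rw [hpz]
      ring
    rw [Rt, if_pos h, h4, h3, hvb, sub_sub_cancel]
    conv_rhs => rw [hab]
    rw [smul_smul]
  · have h0 : a = 0 := by
      have h1 : D ≤ dist p z := not_lt.1 h
      rw [hpz] at h1
      exact norm_eq_zero.1 (le_antisymm (by linarith) (norm_nonneg a))
    rw [Rt, if_neg h, h0, smul_zero, exp_zero_eq F.isExp g]
    rw [h0, exp_zero_eq F.isExp g] at hz
    exact hz.symm

/-- the deformation is smooth -/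
theorem map_Rt (F : Facts e) {D : ℝ} (hD : 0 < D) (hB : InjGE e D)
    (hdiam : ∀ p q : M, dist p q ≤ D) {l : ℕ}
    (hl : ∀ x y : M, dist x y = D → finrank ℝ (Pl e D x y) = l + 1) (p : M) :
    (((dM E M).on (pc p)).prod (Dif.lin ℝ)).Map (dM E M) (Rt e D p) := by
  intro V _ _ _ u x h
  have h1 : ∀ᶠ y in 𝓝 x, ContMDiffAt 𝓘(ℝ, V) 𝓘(ℝ, E) ∞ (fun s => (u s).1) y := h.1.1
  have h2 : ∀ᶠ y in 𝓝 x, (u y).1 ≠ p := h.1.2
  have h3 : Sm (fun y => (u y).2) x := h.2
  have hc : ContinuousAt (fun s => (u s).1) x := h1.self_of_nhds.continuousAt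
  suffices hh : ∀ᶠ y in 𝓝 x, ContMDiffAt 𝓘(ℝ, V) 𝓘(ℝ, E) ∞ (fun s => Rt e D p (u s)) y from hh
  rcases lt_or_eq_of_le (hdiam p (u x).1) with hlt | heq
  · have h4 : ∀ᶠ y in 𝓝 x, dist p (u y).1 < D :=
      (continuousAt_const.dist hc).eventually (gt_mem_nhds hlt)
    filter_upwards [h1, h2, sm_tau h3, h4, eventually_eventually_nhds.2 h4]
      with y k1 k2 k3 k4 k5
    have m1 : ContDiffAt ℝ ∞ (fun s => dist p (u s).1) y :=
      (ContMDiffAt.comp (f := fun s => (u s).1) y (contMDiffAt_dist F hB k4 k2) k1).contDiffAt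
    have m2 : ContDiffAt ℝ ∞ (fun s => dirAt e p (u s).1) y :=
      (ContMDiffAt.comp (f := fun s => (u s).1) y (contMDiffAt_dirAt F hB k4 k2) k1).contDiffAt
    have m3 : ContDiffAt ℝ ∞
        (fun s => (D - tau (u s).2 * (D - dist p (u s).1)) • dirAt e p (u s).1) y :=
      (contDiffAt_const.sub (k3.mul (contDiffAt_const.sub m1))).smul m2
    have m4 : ContMDiffAt 𝓘(ℝ, V) 𝓘(ℝ, E) ∞
        (fun s => e p ((D - tau (u s).2 * (D - dist p (u s).1)) • dirAt e p (u s).1)) y :=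
      (contMDiff_exp_fiber F.isExp p).contMDiffAt.comp y m3.contMDiffAt
    refine m4.congr_of_eventuallyEq ?_
    filter_upwards [k5] with s hs
    rw [Rt, if_pos hs]
  · obtain ⟨u₀, hu₀⟩ := exists_Lk F hD (x := p) (y := (u x).1) heq
    obtain ⟨U, a, -, -, h5⟩ := exists_polar_plot (f := fun s => (u s).1) F hD hB hdiam hl h1 hu₀
    filter_upwards [h5, eventually_eventually_nhds.2 h5, sm_tau h3] with y k1 k2 k3
    obtain ⟨-, j2, -⟩ := k1
    have m1 : SmV (fun s => e p (D • U s)) (fun s => tau (u s).2 • a s) y := j2.smul k3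
    have m2 : ContMDiffAt 𝓘(ℝ, V) 𝓘(ℝ, E) ∞
        (fun s => e (e p (D • U s)) (tau (u s).2 • a s)) y := m1.exp F.isExp
    refine m2.congr_of_eventuallyEq ?_
    filter_upwards [k2] with s hs
    obtain ⟨i1, i2, i3, i4, i5, i6, i7, i8, i9⟩ := hs
    have hd : dist p (e p (D • U s)) = D := by
      rw [dist_comm]
      exact dist_of_Lk hD hB (⟨i3, rfl⟩ : U s ∈ Lk e D (e p (D • U s)) p)
    exact Rt_polar F hD hB hdiam hd i4 i8 i5 i6 (u s).2

/-! ### the diffeology of the cut locus -/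

/-- the unit vectors at `p` -/
def up (p : M) : Set (UT E M) := {v | foot v = p}

/-- the diffeology of the cut locus: plots which lift locally to unit vectors at `p` -/
def dC (e : ∀ x : M, TangentSpace 𝓘(ℝ, E) x → M) (D : ℝ) (p : M) : Dif M :=
  ((dUT E M).on (up p)).quot (bar e D)

theorem map_bar (F : Facts e) (D : ℝ) : (dUT E M).Map (dM E M) (bar e D) := by
  intro V _ _ _ u x h
  have h1 : ((dUT E M).prod (Dif.lin ℝ)).At (fun y => (u y, D)) x :=
    ⟨h, Sm.of_contDiff contDiff_const _⟩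
  exact map_gm F h1

theorem map_dC (F : Facts e) (D : ℝ) (p : M) : (dC e D p).Map (dM E M) id :=
  Dif.map_from_quot (f := id) (Dif.Map.on (map_bar F D) (up p))

theorem bar_mk (D : ℝ) (p : M) (a : TangentSpace 𝓘(ℝ, E) p) (h : nm (E := E) p a = 1) :
    bar e D (W.mk (E := E) p a h) = e p (D • a) := rfl

open Classical in
/-- a unit vector -/
def mkp (p : M) (v₀ : UT E M) (a : TangentSpace 𝓘(ℝ, E) p) : UT E M :=
  if h : nm (E := E) p a = 1 then W.mk (E := E) p a h else v₀

theorem mkp_eq {p : M} {v₀ : UT E M} {a : TangentSpace 𝓘(ℝ, E) p} (h : nm (E := E) p a = 1) :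
    mkp p v₀ a = W.mk (E := E) p a h := dif_pos h

theorem at_mkp {p : M} {v₀ : UT E M} {V : Type} [NormedAddCommGroup V] [NormedSpace ℝ V]
    [FiniteDimensional ℝ V] {f : V → TangentSpace 𝓘(ℝ, E) p} {x : V}
    (h1 : ∀ᶠ y in 𝓝 x, ContDiffAt ℝ ∞ f y) (h2 : ∀ᶠ y in 𝓝 x, ‖f y‖ = 1) :
    ((dUT E M).on (up p)).At (fun y => mkp p v₀ (f y)) x := by
  refine ⟨?_, ?_⟩
  · have h3 : ∀ᶠ y in 𝓝 x, ContMDiffAt 𝓘(ℝ, V) 𝓘(ℝ, E).tangent ∞
        (fun s => (mkp p v₀ (f s)).1) y := by
      filter_upwards [h1, eventually_eventually_nhds.2 h2] with y k1 k2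
      have m1 : SmV (fun _ : V => p) (fun s => f s) y := by
        refine (smV_iff (f := fun _ : V => p) (u := fun s => f s) p
          (mem_extChartAt_source p)).2 ⟨contMDiffAt_const, ?_⟩
        exact (crd (E := E) p p).contDiff.contDiffAt.comp y k1
      refine ContMDiffAt.congr_of_eventuallyEq m1 ?_
      filter_upwards [k2] with s hs
      rw [mkp_eq hs]
      rfl
    exact h3
  · filter_upwards [h2] with y hy
    show foot (mkp p v₀ (f y)) = p
    rw [mkp_eq hy]
    rfl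

/-- the retraction onto the cut locus is smooth -/
theorem map_cut (F : Facts e) {D : ℝ} (hD : 0 < D) (hB : InjGE e D)
    (hdiam : ∀ p q : M, dist p q ≤ D) {l : ℕ}
    (hl : ∀ x y : M, dist x y = D → finrank ℝ (Pl e D x y) = l + 1) (p : M) :
    ((dM E M).on (pc p)).Map (dC e D p) (cutPt e D p) := by
  intro V _ _ _ u x h
  obtain ⟨f, hf⟩ := exists_good F hD hB hdiam hl (u := u) h.1 h.2.self_of_nhds
  have h1 : nm (E := E) p (f x) = 1 := hf.self_of_nhds.2.1
  refine ⟨fun y => mkp p (W.mk (E := E) p (f x) h1) (f y), ?_, ?_⟩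
  · filter_upwards [hf] with y hy
    show bar e D (mkp p (W.mk (E := E) p (f x) h1) (f y)) = cutPt e D p (u y)
    rw [mkp_eq hy.2.1]
    exact (bar_mk D p (f y) hy.2.1).trans hy.2.2
  · exact at_mkp (hf.mono fun y hy => hy.1) (hf.mono fun y hy => hy.2.1)

end

end Vale.Agent.P231.CoC
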