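import Vale.Agent.P231.Co.FrS
import Vale.Agent.P231.Co.M3h
import Vale.Agent.P231.FE.F
import Vale.Agent.P231.WE2.JJ
import Vale.Agent.P231.WR.Sec

/-!
# P231, stage 2 tools (M6): the unit sphere at a point as a sphere bundle over the cut locus
-/

set_option maxSynthPendingDepth 3
set_option linter.unusedSectionVars false
set_option linter.unusedVariables false

open Bundle Manifold Set Filter Module
open scoped ContDiff Manifold Topology

namespace Vale.Agent.P231.CoC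

noncomputable section

open Vale.Agent.P234 Vale.Agent.P231 Vale.Agent.P231.Fm Vale.Agent.P231.W Vale.Agent.P231.H775
open Vale.Agent.P231.WE Vale.Agent.P231.FE
open Vale.Agent.P231.Co (SB)

variable {E : Type*} [NormedAddCommGroup E] [NormedSpace ℝ E] [FiniteDimensional ℝ E]
  {M : Type*} [MetricSpace M] [ChartedSpace E M] [IsManifold 𝓘(ℝ, E) ∞ M]
  [RiemannianBundle (fun x : M => TangentSpace 𝓘(ℝ, E) x)]
  [IsContMDiffRiemannianBundle 𝓘(ℝ, E) ∞ E (fun x : M => TangentSpace 𝓘(ℝ, E) x)]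
  {e : ∀ x : M, TangentSpace 𝓘(ℝ, E) x → M}
  [CompactSpace M] [ConnectedSpace M] [IsRiemannianManifold 𝓘(ℝ, E) M]

section Pt

variable {D : ℝ} {p : M} {v₀ : UT E M}

theorem foot_mkp {a : TangentSpace 𝓘(ℝ, E) p} (h : ‖a‖ = 1) : foot (mkp p v₀ a) = p := by
  rw [mkp_eq (v₀ := v₀) (p := p) (a := a) h]
  rfl

theorem vec'_mkp {a : TangentSpace 𝓘(ℝ, E) p} (h : ‖a‖ = 1) :
    (vec' (mkp p v₀ a) : E) = a := by
  rw [mkp_eq (v₀ := v₀) (p := p) (a := a) h]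
  rfl

theorem bar_mkp {a : TangentSpace 𝓘(ℝ, E) p} (h : ‖a‖ = 1) :
    bar e D (mkp p v₀ a) = e p (D • a) := by
  rw [mkp_eq (v₀ := v₀) (p := p) (a := a) h]
  exact bar_mk D p a h

theorem mkp_inj {a b : TangentSpace 𝓘(ℝ, E) p} (ha : ‖a‖ = 1) (hb : ‖b‖ = 1)
    (h : mkp p v₀ a = mkp p v₀ b) : a = b := by
  have h1 : (vec' (mkp p v₀ a) : E) = vec' (mkp p v₀ b) := congrArg vec' h
  rw [vec'_mkp ha, vec'_mkp hb] at h1
  exact h1

/-- the vector of a unit vector at `p` -/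
def vp (p : M) (w : UT E M) : TangentSpace 𝓘(ℝ, E) p := vec' (E := E) w

theorem norm_vp {w : UT E M} (h : foot w = p) : ‖vp p w‖ = 1 := by
  subst h
  exact nm_vec' w

theorem mkp_vp {w : UT E M} (h : foot w = p) : mkp p v₀ (vp p w) = w := by
  have h1 : nm (E := E) p (vec' (E := E) w) = 1 := norm_vp h
  rw [mkp_eq (v₀ := v₀) (p := p) (a := vp p w) h1]
  exact (W.mk_congr (hw := w.2) h.symm rfl).trans (mk_eta w)

theorem bar_vp {w : UT E M} (h : foot w = p) : bar e D w = e p (D • vp p w) := by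
  subst h
  rfl

end Pt

/-- the vectors of a plot of unit vectors at `p` -/
theorem sm_vecp {p : M} {V : Type} [NormedAddCommGroup V] [NormedSpace ℝ V]
    [FiniteDimensional ℝ V] {w : V → UT E M} {x : V} (hw : ((dUT E M).on (up p)).At w x) :
    Sm (fun y => vp p (w y)) x := by
  have h1 := WR.at_iff.1 hw.1
  have h2 : ∀ᶠ y in 𝓝 x, foot (w y) = p := hw.2
  filter_upwards [h1, eventually_eventually_nhds.2 h2] with s hs1 hs2
  refine WE2.contDiffAt_of_smV (E := E) (M := M) (p := p) ?_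
  refine ContMDiffAt.congr_of_eventuallyEq hs1 ?_
  filter_upwards [hs2] with y hy
  exact tb_congr hy.symm rfl

section Bun

variable {D : ℝ} {p : M} {n : ℕ}
  {Pi : TangentSpace 𝓘(ℝ, E) p → TangentSpace 𝓘(ℝ, E) p →L[ℝ] TangentSpace 𝓘(ℝ, E) p}
  {o : TangentSpace 𝓘(ℝ, E) p → Fm.Lam (TangentSpace 𝓘(ℝ, E) p)} {v₀ : UT E M}

/-- the diffeology of the oriented frames -/
abbrev dFrS (n : ℕ)
    (Pi : TangentSpace 𝓘(ℝ, E) p → TangentSpace 𝓘(ℝ, E) p →L[ℝ] TangentSpace 𝓘(ℝ, E) p)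
    (o : TangentSpace 𝓘(ℝ, E) p → Fm.Lam (TangentSpace 𝓘(ℝ, E) p)) :
    Dif (Em n →L[ℝ] TangentSpace 𝓘(ℝ, E) p) :=
  (Dif.lin (Em n →L[ℝ] TangentSpace 𝓘(ℝ, E) p)).on (FrS n Pi o)

/-- the base point of a frame -/
def qC (e : ∀ x : M, TangentSpace 𝓘(ℝ, E) x → M) (D : ℝ) (p : M) (n : ℕ)
    (L : Em n →L[ℝ] TangentSpace 𝓘(ℝ, E) p) : M := e p (D • L (bE n 0))

/-- the evaluation of a frame -/
def evC (p : M) (v₀ : UT E M) (n : ℕ)
    (z : (Em n →L[ℝ] TangentSpace 𝓘(ℝ, E) p) × Em n) : UT E M := mkp p v₀ (z.1 z.2)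

theorem map_evC : (SB (dFrS n Pi o) (Em n)).Map ((dUT E M).on (up p)) (evC p v₀ n) := by
  intro V _ _ _ u x h
  have h1 : Sm (fun y => (u y).1) x := h.1.1.1
  have h2 : ∀ᶠ y in 𝓝 x, (u y).1 ∈ FrS n Pi o := h.1.1.2
  have h3 : Sm (fun y => (u y).2) x := h.1.2
  have h4 : ∀ᶠ y in 𝓝 x, ‖(u y).2‖ = 1 := h.2
  refine at_mkp (f := fun y => (u y).1 (u y).2) ?_ ?_
  · filter_upwards [h1, h3] with y k1 k3 using k1.clm_apply k3
  · filter_upwards [h2, h4] with y k2 k4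
    rw [k2.1, k4]

theorem map_b0 : (dFrS n Pi o).Map ((dUT E M).on (up p))
    (fun L => mkp p v₀ (L (bE n 0))) := by
  intro V _ _ _ u x h
  have h1 : Sm u x := h.1
  have h2 : ∀ᶠ y in 𝓝 x, u y ∈ FrS n Pi o := h.2
  refine at_mkp (f := fun y => (u y) (bE n 0)) ?_ ?_
  · filter_upwards [h1] with y k1 using k1.clm_apply contDiffAt_const
  · filter_upwards [h2] with y k2
    rw [k2.1, norm_bE]

theorem map_qC (v₀ : UT E M) : (dFrS n Pi o).Map (dC e D p) (qC e D p n) := by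
  intro V _ _ _ u x h
  refine ⟨fun y => mkp p v₀ (u y (bE n 0)), ?_, map_b0 h⟩
  have h2 : ∀ᶠ y in 𝓝 x, u y ∈ FrS n Pi o := h.2
  filter_upwards [h2] with y k2
  exact bar_mkp (by rw [k2.1, norm_bE])

theorem ne_zero_of_nm {T : Type*} [NormedAddCommGroup T] {v : T} (h : ‖v‖ = 1) : v ≠ 0 := by
  rintro rfl
  rw [norm_zero] at h
  exact zero_ne_one h

theorem isQuo_qC (hJ : LineP e D p n Pi o) (v₀ : UT E M) :
    Co.IsQuo (dFrS n Pi o) (dC e D p) (qC e D p n) where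
  map := map_qC v₀
  lift {V} _ _ _ {u x} hu := by
    obtain ⟨w, hw1, hw2⟩ := hu
    have h2 : ∀ᶠ y in 𝓝 x, foot (w y) = p := hw2.2
    obtain ⟨L, hL, h3⟩ := exists_frS hJ.os (sm_vecp hw2)
      (by filter_upwards [h2] with y hy using norm_vp hy)
    refine ⟨L, ⟨hL, h3.mono fun y hy => hy.1⟩, ?_⟩
    filter_upwards [h2, h3, hw1] with y k2 k3 k4
    show e p (D • L y (bE n 0)) = u y
    rw [k3.2]
    exact (bar_vp k2).symm.trans k4

/-- **the unit sphere at `p` is a sphere bundle over the cut locus of `p`** -/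
theorem bun_Cut (hJ : LineP e D p n Pi o) (v₀ : UT E M) :
    Co.Bun (dC e D p) ((dUT E M).on (up p)) (dFrS n Pi o) (Em n) (bar e D) (qC e D p n)
      (evC p v₀ n) where
  hπ := Dif.map_quot
  hq := isQuo_qC hJ v₀
  hev := map_evC
  comm {V} _ _ _ {u x} h := by
    have h2 : (u x).1 ∈ FrS n Pi o := h.1.1.2.self_of_nhds
    have h4 : ‖(u x).2‖ = 1 := h.2.self_of_nhds
    have h5 : ‖(u x).1 (u x).2‖ = 1 := by rw [h2.1, h4]
    have h6 : ‖(u x).1 (bE n 0)‖ = 1 := FrS.norm0 hJ.os h2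
    show bar e D (mkp p v₀ ((u x).1 (u x).2)) = e p (D • (u x).1 (bE n 0))
    rw [bar_mkp h5]
    exact ((hJ.cut _ _ h6 h5).2 (FrS.fix hJ.os h2 _)).symm
  trans {V} _ _ _ {f f' x} hf hf' hq := by
    have h1 : Sm f x := hf.1
    have h1' : Sm f' x := hf'.1
    have h2 : ∀ᶠ y in 𝓝 x, f y ∈ FrS n Pi o := hf.2
    have h2' : ∀ᶠ y in 𝓝 x, f' y ∈ FrS n Pi o := hf'.2
    refine ⟨fun y => (tr (f y)).comp (f' y), ?_, ?_⟩
    · filter_upwards [h1, h1'] with y k1 k2 using (sm_tr k1).clm_comp k2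
    · filter_upwards [h2, h2', hq] with y k2 k2' k3
      have h3 : Pi (f y (bE n 0)) (f' y (bE n 0)) = f' y (bE n 0) :=
        (hJ.cut _ _ (FrS.norm0 hJ.os k2) (FrS.norm0 hJ.os k2')).1 k3
      refine ⟨FrS.trans_norm hJ.os k2 k2' h3, FrS.trans_det hJ.os k2 k2' h3, fun ξ hξ => ?_⟩
      show mkp p v₀ (f' y ξ) = mkp p v₀ (f y (tr (f y) (f' y ξ)))
      rw [FrS.trans_apply hJ.os k2 k2' h3]
  lift {V} _ _ _ {s f x} hs hf hq := by
    have h1 : Sm f x := hf.1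
    have h2 : ∀ᶠ y in 𝓝 x, f y ∈ FrS n Pi o := hf.2
    have h4 : ∀ᶠ y in 𝓝 x, foot (s y) = p := hs.2
    have h5 := sm_vecp hs
    refine ⟨fun y => tr (f y) (vp p (s y)), ?_, ?_⟩
    · filter_upwards [h1, h5] with y k1 k2 using (sm_tr k1).clm_apply k2
    · filter_upwards [h2, h4, hq] with y k2 k4 k3
      have h6 : e p (D • f y (bE n 0)) = e p (D • vp p (s y)) := Eq.trans k3 (bar_vp k4)
      have h3 : Pi (f y (bE n 0)) (vp p (s y)) = vp p (s y) :=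
        (hJ.cut _ _ (FrS.norm0 hJ.os k2) (norm_vp k4)).1 h6
      refine ⟨?_, ?_⟩
      · rw [FrS.norm_tr hJ.os k2 h3, norm_vp k4]
      · show mkp p v₀ (f y (tr (f y) (vp p (s y)))) = s y
        rw [FrS.tr_fix hJ.os k2 h3, mkp_vp k4]
  inj {V} _ _ _ {f x} hf ξ ξ' hξ hξ' h := by
    have h2 : f x ∈ FrS n Pi o := hf.2.self_of_nhds
    refine iso_inj h2.1 (mkp_inj (by rw [h2.1, hξ]) (by rw [h2.1, hξ']) h)

end Bun

end

end Vale.Agent.P231.CoC
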