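import Vale.Agent.P231.Co.SI

/-!
# P231, stage 2 tools (10): pull-backs of sphere bundles and base change
-/

set_option linter.unusedSectionVars false
set_option linter.unusedVariables false

open MeasureTheory Set Module Filter Topology
open scoped ContDiff

namespace Vale.Agent.P231.Co

open Vale.Agent.P231.Fm Vale.Agent.P231.W Vale.Agent.P231.H584
open Vale.Agent.P231.Fm (Sm Dif Form Lam)

variable {B S Fr Y : Type*} {DB : Dif B} {DS : Dif S} {DF : Dif Fr} {DY : Dif Y}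
variable {F : Type} [NormedAddCommGroup F] [InnerProductSpace ℝ F] [FiniteDimensional ℝ F]

/-- the total space of the pull-back of `π : S → B` along `p : Y → B` -/
abbrev dPb (DY : Dif Y) (DS : Dif S) (π : S → B) (p : Y → B) : Dif (Y × S) :=
  (DY.prod DS).on {z | π z.2 = p z.1}

section Pb

variable {π : S → B} {q : Fr → B} {ev : Fr × F → S} {p : Y → B}

theorem map_pb_fst : (dPb DY DS π p).Map DY Prod.fst := fun h => h.1.1

theorem map_pb_snd : (dPb DY DS π p).Map DS Prod.snd := fun h => h.1.2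

/-- evaluation of the frames of the pull-back -/
def pev (ev : Fr × F → S) (w : (Y × Fr) × F) : Y × S := (w.1.1, ev (w.1.2, w.2))

/-- **pull-back of a sphere bundle** along `p : Y → B` -/
theorem Bun.pb (h : Bun DB DS DF F π q ev) (hp : DY.Map DB p) :
    Bun DY (dPb DY DS π p) (dPb DY DF q p) F (Prod.fst : Y × S → Y) (Prod.fst : Y × Fr → Y)
      (pev ev) where
  hπ := map_pb_fst
  hq := ⟨map_pb_fst, fun {E} _ _ _ {u x} hu => by
    obtain ⟨f, hf, hqf⟩ := h.hq.lift (hp hu)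
    exact ⟨fun y => (u y, f y), ⟨⟨hu, hf⟩, hqf.mono fun y hy => hy⟩, EventuallyEq.rfl⟩⟩
  hev := fun {E} _ _ _ {u x} hu => by
    have h1 : (SB DF F).At (fun y => ((u y).1.2, (u y).2)) x :=
      ⟨⟨hu.1.1.1.2, hu.1.2⟩, hu.2⟩
    refine ⟨⟨hu.1.1.1.1, h.hev h1⟩, ?_⟩
    filter_upwards [h.comm' h1, hu.1.1.2] with y h2 h3
    exact h2.trans h3
  comm := fun {E} _ _ _ {u x} hu => rfl
  trans := fun {E} _ _ _ {f f' x} hf hf' e => by
    have e1 : q ∘ (fun y => (f y).2) =ᶠ[𝓝 x] q ∘ fun y => (f' y).2 := by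
      filter_upwards [hf.2, hf'.2, e] with y h1 h2 h3
      have h4 : (f y).1 = (f' y).1 := h3
      have h5 : q (f y).2 = p (f y).1 := h1
      have h6 : q (f' y).2 = p (f' y).1 := h2
      change q (f y).2 = q (f' y).2
      rw [h5, h6, h4]
    obtain ⟨g, hg, hgg⟩ := h.trans hf.1.2 hf'.1.2 e1
    refine ⟨g, hg, ?_⟩
    filter_upwards [hgg, e] with y h1 h2
    refine ⟨h1.1, h1.2.1, fun ξ hξ => ?_⟩
    have h4 : (f y).1 = (f' y).1 := h2
    exact Prod.ext h4.symm (h1.2.2 ξ hξ)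
  lift := fun {E} _ _ _ {s f x} hs hf e => by
    have e1 : q ∘ (fun y => (f y).2) =ᶠ[𝓝 x] π ∘ fun y => (s y).2 := by
      filter_upwards [hf.2, hs.2, e] with y h1 h2 h3
      have h4 : (f y).1 = (s y).1 := h3
      have h5 : q (f y).2 = p (f y).1 := h1
      have h6 : π (s y).2 = p (s y).1 := h2
      change q (f y).2 = π (s y).2
      rw [h5, h6, h4]
    obtain ⟨ξ, hξ, h1⟩ := h.lift hs.1.2 hf.1.2 e1
    refine ⟨ξ, hξ, ?_⟩
    filter_upwards [h1, e] with y h2 h3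
    have h4 : (f y).1 = (s y).1 := h3
    exact ⟨h2.1, Prod.ext h4 h2.2⟩
  inj := fun {E} _ _ _ {f x} hf ξ ξ' hξ hξ' e => h.inj hf.1.2 ξ ξ' hξ hξ' (congrArg Prod.snd e)

variable [MeasurableSpace F] [BorelSpace F] {m : ℕ} (o : OrthonormalBasis (Fin m) ℝ F)

/-- **base change** for a map of sphere bundles -/
theorem Bun.SI_nat {B' S' Fr' : Type*} {DB' : Dif B'} {DS' : Dif S'} {DF' : Dif Fr'}
    {π' : S' → B'} {q' : Fr' → B'} {ev' : Fr' × F → S'} (h : Bun DB DS DF F π q ev)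
    (h' : Bun DB' DS' DF' F π' q' ev') {β : B' → B} {σ : S' → S} {φ : Fr' → Fr}
    (hβ : DB'.Map DB β) (hσ : DS'.Map DS σ) (hφ : DF'.Map DF φ)
    (h1 : ∀ {E : Type} [NormedAddCommGroup E] [NormedSpace ℝ E] [FiniteDimensional ℝ E]
      {u : E → Fr'} {x : E}, DF'.At u x → q ∘ φ ∘ u =ᶠ[𝓝 x] β ∘ q' ∘ u)
    (h2 : ∀ {E : Type} [NormedAddCommGroup E] [NormedSpace ℝ E] [FiniteDimensional ℝ E]
      {u : E → Fr' × F} {x : E}, (SB DF' F).At u x →
      (fun y => σ (ev' (u y))) =ᶠ[𝓝 x] fun y => ev (φ (u y).1, (u y).2)) (w : Form DS) :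
    h'.SI o (Form.pull σ hσ w) = Form.pull β hβ (h.SI o w) := by
  refine pull_inj h'.hq ?_
  rw [h'.pull_SI o]
  have e1 : Form.pull q' h'.hq.map (Form.pull β hβ (h.SI o w)) =
      Form.pull φ hφ (Form.pull q h.hq.map (h.SI o w)) := Form.ext_val fun E _ _ _ u x hu => by
    rw [Form.pull_val _ _ hu, Form.pull_val _ _ (h'.hq.map hu), Form.pull_val _ _ hu,
      Form.pull_val _ _ (hφ hu)]
    exact ((h.SI o w).congr (h.hq.map (hφ hu)) (h1 hu)).symm
  rw [e1, h.pull_SI o, ← si_nat o hφ]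
  congr 1
  refine Form.ext_val fun E _ _ _ u x hu => ?_
  rw [Form.pull_val _ _ hu, Form.pull_val _ _ (h'.hev hu), Form.pull_val _ _ hu,
    Form.pull_val _ _ (map_SB hφ hu)]
  exact (w.congr (h.hev (map_SB hφ hu)) (h2 hu).symm).symm

/-- base change along `p : Y → B` -/
theorem Bun.SI_pb (h : Bun DB DS DF F π q ev) (hp : DY.Map DB p) (w : Form DS) :
    (h.pb hp).SI o (Form.pull Prod.snd map_pb_snd w) = Form.pull p hp (h.SI o w) :=
  h.SI_nat o (h.pb hp) (σ := Prod.snd) (φ := Prod.snd) hp map_pb_snd map_pb_snd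
    (fun {E} _ _ _ {u x} hu => hu.2) (fun {E} _ _ _ {u x} hu => EventuallyEq.rfl) w

/-- the bundle map `(y, s) ↦ (r y, s)` -/
theorem map_pb_map {Y' : Type*} {DY' : Dif Y'} {p' : Y' → B} {r : Y' → Y} (hr : DY'.Map DY r)
    (hrp : ∀ y, p (r y) = p' y) :
    (dPb DY' DS π p').Map (dPb DY DS π p) (fun z => (r z.1, z.2)) := fun {E} _ _ _ {u x} hu =>
  ⟨⟨hr hu.1.1, hu.1.2⟩, hu.2.mono fun y hy => Eq.trans hy (hrp _).symm⟩

/-- base change along `r : Y' → Y` over `B` -/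
theorem Bun.SI_pb_nat (h : Bun DB DS DF F π q ev) (hp : DY.Map DB p) {Y' : Type*}
    {DY' : Dif Y'} {p' : Y' → B} (hp' : DY'.Map DB p') {r : Y' → Y} (hr : DY'.Map DY r)
    (hrp : ∀ y, p (r y) = p' y) (w : Form (dPb DY DS π p)) :
    (h.pb hp').SI o (Form.pull (fun z : Y' × S => (r z.1, z.2)) (map_pb_map hr hrp) w) =
      Form.pull r hr ((h.pb hp).SI o w) :=
  (h.pb hp).SI_nat o (h.pb hp') (φ := fun z : Y' × Fr => (r z.1, z.2)) hr (map_pb_map hr hrp)
    (map_pb_map hr hrp) (fun {E} _ _ _ {u x} hu => EventuallyEq.rfl)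
    (fun {E} _ _ _ {u x} hu => EventuallyEq.rfl) w

/-- fibre integral of a form with constant fibre integral, after base change -/
theorem Bun.SI_pb_const (h : Bun DB DS DF F π q ev) (hp : DY.Map DB p) {w : Form DS} {c : ℝ}
    (hc : h.SI o w = c • 1) :
    (h.pb hp).SI o (Form.pull Prod.snd map_pb_snd w) = c • 1 := by
  rw [h.SI_pb o hp, hc, pull_smul, pull_one]

end Pb

end Vale.Agent.P231.Co
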