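import Vale.Agent.P231.Co.Sep

/-!
# P231, stage 2: integration along the vector space `F` of forms on `X × F` with compact vertical
support
-/

set_option linter.unusedSectionVars false
set_option linter.unusedVariables false

open MeasureTheory Set Module Filter Topology
open scoped ContDiff

namespace Vale.Agent.P231.Fm

open Vale.Agent.P231.Q Vale.Agent.P231.WA Vale.Agent.P231.WG Vale.Agent.P231.Co

noncomputable section

variable {X Y : Type*} {D : Dif X} {D' : Dif Y}

/-- the plot `(x, t) ↦ (u x, t)` -/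
def cylF {E F : Type} (u : E → X) (p : E × F) : X × F := (u p.1, p.2)

section Cy

variable {F : Type} [NormedAddCommGroup F] [NormedSpace ℝ F] [FiniteDimensional ℝ F]
variable {E : Type} [NormedAddCommGroup E] [NormedSpace ℝ E] [FiniteDimensional ℝ E]
variable {G : Type} [NormedAddCommGroup G] [NormedSpace ℝ G] [FiniteDimensional ℝ G]

theorem cylF_at {u : E → X} {x : E} (h : D.At u x) (t : F) :
    (D.prod (Dif.lin F)).At (cylF u) (x, t) := by
  refine ⟨?_, Sm.of_contDiff contDiff_snd _⟩
  exact D.comp (u := u) (g := Prod.fst) (x := ((x, t) : E × F)) h (Sm.of_contDiff contDiff_fst _)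

theorem cylF_smooth (w : Form (D.prod (Dif.lin F))) {u : E → X} {x : E} (h : D.At u x) :
    ∃ U : Set E, IsOpen U ∧ x ∈ U ∧ (∀ y ∈ U, D.At u y) ∧
      ContDiffOn ℝ ∞ (w.val (cylF u)) (U ×ˢ univ) := by
  obtain ⟨U, hU1, hU2, hU3⟩ := eventually_nhds_iff.1 (D.open' h)
  exact ⟨U, hU2, hU3, hU1, fun p hp => (w.smooth (cylF_at (hU1 _ hp.1) p.2)).contDiffWithinAt⟩

theorem cylF_nat (w : Form (D.prod (Dif.lin F))) {u : G → X} {g : E → G} {x : E}
    (h : D.At u (g x)) (hg : Sm g x) (t : F) : w.val (cylF (u ∘ g)) (x, t) =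
      Fm.pull ((fderiv ℝ g x).prodMap (ContinuousLinearMap.id ℝ F))
        (w.val (cylF u) (g x, t)) := by
  have h1 : cylF (F := F) (u ∘ g) = cylF u ∘ fun p : E × F => (g p.1, p.2) := rfl
  have h2 : Sm (fun p : E × F => (g p.1, p.2)) (x, t) := by
    refine Sm.prodMk ?_ (Sm.of_contDiff contDiff_snd _)
    exact Sm.comp (f := g) (g := Prod.fst) (x := ((x, t) : E × F)) hg
      (Sm.of_contDiff contDiff_fst _)
  have h3 : fderiv ℝ (fun p : E × F => (g p.1, p.2)) (x, t) =
      (fderiv ℝ g x).prodMap (ContinuousLinearMap.id ℝ F) := by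
    have h4 : HasFDerivAt (fun p : E × F => (g p.1, p.2))
        ((fderiv ℝ g x).prodMap (ContinuousLinearMap.id ℝ F)) (x, t) := by
      have := hg.differentiableAt.hasFDerivAt.prodMap ((x, t) : E × F)
        (hasFDerivAt_id (𝕜 := ℝ) t)
      exact this
    exact h4.fderiv
  rw [h1, w.nat (u := cylF u) (g := fun p : E × F => (g p.1, p.2)) (x := (x, t))
    (cylF_at (x := g x) h t) h2, h3]

theorem cylF_congr (w : Form (D.prod (Dif.lin F))) {u v : E → X} {x : E} (h : D.At u x)
    (huv : u =ᶠ[𝓝 x] v) (t : F) : w.val (cylF u) (x, t) = w.val (cylF v) (x, t) := by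
  refine w.congr (cylF_at h t) ?_
  have h1 : Tendsto (Prod.fst : E × F → E) (𝓝 (x, t)) (𝓝 x) := continuous_fst.continuousAt
  filter_upwards [h1.eventually huv] with p hp
  simp only [cylF]
  rw [hp]

/-- pullback from the base, in a product plot -/
theorem fst_cylF (a : Form D) {u : E → X} {x : E} (h : D.At u x) (t : F) :
    (Form.pull (Prod.fst : X × F → X) (Dif.map_fst (D := D) (D' := Dif.lin F)) a).val (cylF u)
      (x, t) = pf (a.val u x) := by
  rw [Form.pull_val _ _ (cylF_at h t)]
  have h1 : (Prod.fst : X × F → X) ∘ cylF u = u ∘ (Prod.fst : E × F → E) := rfl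
  rw [h1, a.nat (u := u) (g := (Prod.fst : E × F → E)) (x := (x, t)) h
    (Sm.of_contDiff contDiff_fst _)]
  rw [fderiv_fst]
  rfl

theorem map_prodF {f : Y → X} (hf : D'.Map D f) :
    (D'.prod (Dif.lin F)).Map (D.prod (Dif.lin F)) (fun p => (f p.1, p.2)) := fun h =>
  ⟨hf h.1, h.2⟩

/-! ### vertical support -/

/-- vanishing for `R < ‖ξ‖` -/
def Form.VC (w : Form (D.prod (Dif.lin F))) (R : ℝ) : Prop :=
  ∀ {E : Type} [NormedAddCommGroup E] [NormedSpace ℝ E] [FiniteDimensional ℝ E]
    {u : E → X × F} {x : E}, (D.prod (Dif.lin F)).At u x → R < ‖(u x).2‖ → w.val u x = 0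

namespace Form

variable {w w' : Form (D.prod (Dif.lin F))} {R R' : ℝ}

theorem VC.mono (h : w.VC R) (hR : R ≤ R') : w.VC R' := fun hu hx => h hu (hR.trans_lt hx)

theorem VC.add (h : w.VC R) (h' : w'.VC R) : (w + w').VC R := fun hu hx => by
  rw [add_val, h hu hx, h' hu hx, add_zero]

theorem VC.sub (h : w.VC R) (h' : w'.VC R) : (w - w').VC R := fun hu hx => by
  rw [sub_val, h hu hx, h' hu hx, sub_zero]

theorem VC.neg (h : w.VC R) : (-w).VC R := fun hu hx => by
  rw [neg_val, h hu hx, neg_zero]

theorem VC.smul (h : w.VC R) (c : ℝ) : (c • w).VC R := fun hu hx => by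
  rw [smul_val, h hu hx, smul_zero]

theorem VC.mul_right (h : w.VC R) (w' : Form (D.prod (Dif.lin F))) : (w * w').VC R :=
  fun hu hx => by rw [mul_val, h hu hx, zero_mul]

theorem VC.mul_left (h : w.VC R) (w' : Form (D.prod (Dif.lin F))) : (w' * w).VC R :=
  fun hu hx => by rw [mul_val, h hu hx, mul_zero]

theorem VC.sg (h : w.VC R) : w.sg.VC R := fun hu hx => by
  rw [sg_val, h hu hx, map_zero]

theorem VC.part (h : w.VC R) (k : ℕ) : (Form.part k w).VC R := fun hu hx => by
  rw [part_val, h hu hx, map_zero]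

theorem vc_zero (R : ℝ) : (0 : Form (D.prod (Dif.lin F))).VC R := fun _ _ => rfl

theorem VC.near (h : w.VC R) {u : E → X × F} {x : E} (hu : (D.prod (Dif.lin F)).At u x)
    (hx : R < ‖(u x).2‖) : w.val u =ᶠ[𝓝 x] fun _ => 0 := by
  have h2 : ContinuousAt (fun y => (u y).2) x := Sm.continuousAt (g := fun y => (u y).2) hu.2
  have h1 : ∀ᶠ y in 𝓝 x, R < ‖(u y).2‖ := h2.norm.eventually (lt_mem_nhds hx)
  filter_upwards [(D.prod (Dif.lin F)).open' hu, h1] with y hy1 hy2
  exact h hy1 hy2

theorem VC.d (h : w.VC R) : w.d.VC R := fun hu hx => by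
  rw [d_val _ hu, extd_congr (h.near hu hx), extd_const]

theorem VC.pull {F' : Type} [NormedAddCommGroup F'] [NormedSpace ℝ F'] [FiniteDimensional ℝ F']
    (h : w.VC R) {f : Y × F' → X × F} (hf : (D'.prod (Dif.lin F')).Map (D.prod (Dif.lin F)) f)
    (hR : ∀ p, R' < ‖p.2‖ → R < ‖(f p).2‖) : (Form.pull f hf w).VC R' := fun hu hx => by
  rw [pull_val _ _ hu]
  exact h (hf hu) (hR _ hx)

theorem VC.out (h : w.VC R) {u : E → X} {x : E} (hu : D.At u x) {y : F}
    (hy : y ∉ Metric.closedBall (0 : F) R) : w.val (cylF u) (x, y) = 0 := by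
  refine h (cylF_at hu y) ?_
  rw [mem_closedBall_zero_iff, not_le] at hy
  exact hy

end Form

end Cy

/-! ### the fibre integral -/

section Fi

variable {F : Type} [NormedAddCommGroup F] [InnerProductSpace ℝ F] [FiniteDimensional ℝ F]
  [MeasurableSpace F] [BorelSpace F]
variable {m : ℕ} (o : OrthonormalBasis (Fin m) ℝ F)

namespace Form

variable {w w' : Form (D.prod (Dif.lin F))} {R R' : ℝ}

section

variable {E : Type} [NormedAddCommGroup E] [NormedSpace ℝ E] [FiniteDimensional ℝ E]

theorem VC.integrable (hw : w.VC R) {u : E → X} {x : E} (h : D.At u x) (v : Fin m → F) :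
    Integrable (fun y => slice (E := E) v (w.val (cylF u) (x, y))) volume := by
  obtain ⟨U, hU, hx, _, hs⟩ := cylF_smooth w h
  have hc : Continuous fun y : F => w.val (cylF u) (x, y) :=
    hs.continuousOn.comp_continuous (Continuous.prodMk_right _) fun t => ⟨hx, mem_univ _⟩
  refine ((slice (E := E) v).continuous.comp hc).integrable_of_hasCompactSupport
    (HasCompactSupport.intro (isCompact_closedBall (0 : F) R) fun y hy => ?_)
  change slice (E := E) v (w.val (cylF u) (x, y)) = 0
  rw [hw.out h hy, map_zero]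

end

open Classical in
/-- integration along `F` -/
def fi (w : Form (D.prod (Dif.lin F))) : Form D :=
  if hw : ∃ R, w.VC R then
    mk' (fun u x => fib volume o (w.val (cylF u)) x)
      (fun {E} _ _ _ {u x} h => by
        obtain ⟨R, hR⟩ := hw
        obtain ⟨U, hU, hx, hUa, hs⟩ := cylF_smooth w h
        exact (contDiffOn_fib volume hU (isCompact_closedBall (0 : F) R) o hs
          (fun x hx y hy => hR.out (hUa x hx) hy)).contDiffAt (hU.mem_nhds hx))
      (fun {E G} _ _ _ _ _ _ {u g x} h hg => by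
        obtain ⟨R, hR⟩ := hw
        have h1 := ContinuousLinearMap.integral_comp_comm (pullL (fderiv ℝ g x))
          (hR.integrable h o)
        refine Eq.trans ?_ h1
        refine integral_congr_ae (Eventually.of_forall fun y => ?_)
        change slice _ (w.val (cylF (u ∘ g)) (x, y)) = Fm.pull _ (slice _ _)
        rw [cylF_nat w h hg, slice_pull_prodMap])
      (fun {E} _ _ _ {u v x} h huv => by
        refine integral_congr_ae (Eventually.of_forall fun y => ?_)
        change slice _ _ = slice _ _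
        rw [cylF_congr w h huv])
  else 0

variable {o}

theorem fi_val {E : Type} [NormedAddCommGroup E] [NormedSpace ℝ E] [FiniteDimensional ℝ E]
    (hw : w.VC R) {u : E → X} {x : E} (h : D.At u x) :
    (fi o w).val u x = fib volume o (w.val (cylF u)) x := by
  rw [fi, dif_pos ⟨R, hw⟩]
  exact mk'_val (D := D) h

theorem fi_add (hw : w.VC R) (hw' : w'.VC R') : fi o (w + w') = fi o w + fi o w' :=
  ext_val fun E _ _ _ u x h => by
    have h0 : (w + w').VC (max R R') :=
      VC.add (VC.mono hw (le_max_left R R')) (VC.mono hw' (le_max_right R R'))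
    rw [add_val, fi_val h0 h, fi_val hw h, fi_val hw' h, fib, fib, fib,
      ← integral_add (hw.integrable h o) (hw'.integrable h o)]
    refine integral_congr_ae (Eventually.of_forall fun y => ?_)
    exact map_add (slice _) _ _

theorem fi_sub (hw : w.VC R) (hw' : w'.VC R') : fi o (w - w') = fi o w - fi o w' :=
  ext_val fun E _ _ _ u x h => by
    have h0 : (w - w').VC (max R R') :=
      VC.sub (VC.mono hw (le_max_left R R')) (VC.mono hw' (le_max_right R R'))
    rw [sub_val, fi_val h0 h, fi_val hw h, fi_val hw' h, fib, fib, fib,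
      ← integral_sub (hw.integrable h o) (hw'.integrable h o)]
    refine integral_congr_ae (Eventually.of_forall fun y => ?_)
    exact map_sub (slice _) _ _

theorem fi_zero : fi o (0 : Form (D.prod (Dif.lin F))) = 0 :=
  ext_val fun E _ _ _ u x h => by
    rw [fi_val (vc_zero 0) h, zero_val, fib]
    have h1 : ∀ y : F, slice (E := E) o ((0 : Form (D.prod (Dif.lin F))).val (cylF u) (x, y)) = 0 :=
      fun y => by rw [zero_val, map_zero]
    simp only [h1, integral_zero]

theorem fi_smul (c : ℝ) (hw : w.VC R) : fi o (c • w) = c • fi o w :=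
  ext_val fun E _ _ _ u x h => by
    rw [smul_val, fi_val (hw.smul c) h, fi_val hw h, fib, fib, ← integral_smul]
    refine integral_congr_ae (Eventually.of_forall fun y => ?_)
    exact map_smul (slice _) _ _

theorem fi_neg (hw : w.VC R) : fi o (-w) = -fi o w := by
  have h := fi_smul (o := o) (-1) hw
  rwa [neg_one_smul, neg_one_smul] at h

theorem fi_sum {ι : Type*} (s : Finset ι) {f : ι → Form (D.prod (Dif.lin F))}
    (hf : ∀ i ∈ s, (f i).VC R) : fi o (∑ i ∈ s, f i) = ∑ i ∈ s, fi o (f i) := by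
  classical
  induction s using Finset.induction_on with
  | empty => rw [Finset.sum_empty, Finset.sum_empty, fi_zero]
  | insert i s hi ih =>
    have h1 : ∀ j ∈ s, (f j).VC R := fun j hj => hf j (Finset.mem_insert_of_mem hj)
    have h2 : (∑ j ∈ s, f j).VC R := by
      clear ih hf
      induction s using Finset.induction_on with
      | empty =>
        rw [Finset.sum_empty]
        exact vc_zero R
      | insert k s hk ih =>
        rw [Finset.sum_insert hk]
        exact VC.add (h1 k (Finset.mem_insert_self _ _))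
          (ih (fun h => hi (Finset.mem_insert_of_mem h))
            fun j hj => h1 j (Finset.mem_insert_of_mem hj))
    rw [Finset.sum_insert hi, Finset.sum_insert hi, fi_add (hf i (Finset.mem_insert_self _ _)) h2,
      ih h1]

/-- integration along the fibre and the exterior derivative -/
theorem fi_d (hw : w.VC R) : fi o w.d = (-1 : ℝ) ^ m • (fi o w).d :=
  ext_val fun E _ _ _ u x h => by
    obtain ⟨U, hU, hx, hUa, hs⟩ := cylF_smooth w h
    have h1 : (1 : WithTop ℕ∞) ≤ ∞ := WithTop.coe_le_coe.2 le_top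
    have h2 := extd_fib volume hU (isCompact_closedBall (0 : F) R) o (hs.of_le h1)
      (fun x hx y hy => hw.out (hUa x hx) hy) hx
    rw [smul_val, fi_val hw.d h, d_val _ h]
    have h3 : (fi o w).val u =ᶠ[𝓝 x] fib volume o (w.val (cylF u)) := by
      filter_upwards [hU.mem_nhds hx] with y hy using fi_val hw (hUa y hy)
    rw [extd_congr h3, ← h2]
    refine integral_congr_ae (Eventually.of_forall fun y => ?_)
    change slice _ _ = slice _ _
    rw [d_val _ (cylF_at h y)]

theorem d_fi (hw : w.VC R) : (fi o w).d = (-1 : ℝ) ^ m • fi o w.d := by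
  rw [fi_d hw, smul_smul, ← pow_add, ← two_mul, pow_mul]
  norm_num

/-- projection formula -/
theorem fi_mul_fst (hw : w.VC R) (a : Form D) :
    fi o (w * Form.pull (Prod.fst : X × F → X) Dif.map_fst a) = fi o w * a :=
  ext_val fun E _ _ _ u x h => by
    rw [mul_val, fi_val (hw.mul_right _) h, fi_val hw h]
    have h1 := ContinuousLinearMap.integral_comp_comm
      ((ContinuousLinearMap.mul ℝ (Lam E)).flip (a.val u x)) (hw.integrable h o)
    refine Eq.trans ?_ h1
    refine integral_congr_ae (Eventually.of_forall fun y => ?_)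
    change slice _ (w.val _ _ * _) = slice _ _ * a.val u x
    rw [fst_cylF a h y, slice_mul_pf]

theorem sg_iter_val {E : Type} [NormedAddCommGroup E] [NormedSpace ℝ E] [FiniteDimensional ℝ E]
    (a : Form D) (n : ℕ) (u : E → X) (x : E) :
    (Form.sg^[n] a).val u x = inv^[n] (a.val u x) := by
  induction n generalizing a with
  | zero => rfl
  | succ n ih => rw [Function.iterate_succ_apply, ih, Function.iterate_succ_apply, sg_val]

theorem fi_fst_mul (hw : w.VC R) (a : Form D) :
    fi o (Form.pull (Prod.fst : X × F → X) Dif.map_fst a * w) = (Form.sg^[m] a) * fi o w :=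
  ext_val fun E _ _ _ u x h => by
    rw [mul_val, fi_val (hw.mul_left _) h, fi_val hw h, sg_iter_val]
    have h1 := ContinuousLinearMap.integral_comp_comm
      (ContinuousLinearMap.mul ℝ (Lam E) (inv^[m] (a.val u x))) (hw.integrable h o)
    refine Eq.trans ?_ h1
    refine integral_congr_ae (Eventually.of_forall fun y => ?_)
    change slice _ (_ * w.val _ _) = inv^[m] (a.val u x) * slice _ _
    rw [fst_cylF a h y, slice_pf_mul]

theorem sg_iter_of_even {a : Form D} (ha : a.sg = a) (n : ℕ) : Form.sg^[n] a = a := by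
  induction n with
  | zero => rfl
  | succ n ih => rw [Function.iterate_succ_apply, ha, ih]

theorem sg_iter_even (a : Form D) {n : ℕ} (hn : Even n) : Form.sg^[n] a = a := by
  obtain ⟨k, rfl⟩ := hn
  induction k with
  | zero => rfl
  | succ k ih =>
    have h : k + 1 + (k + 1) = (k + k) + 2 := by ring
    rw [h, Function.iterate_add_apply]
    change Form.sg^[k + k] (a.sg.sg) = a
    rw [sg_sg, ih]

theorem sg_iter_odd (a : Form D) {n : ℕ} (hn : Odd n) : Form.sg^[n] a = a.sg := by
  obtain ⟨k, rfl⟩ := hn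
  change Form.sg^[2 * k] a.sg = a.sg
  rw [sg_iter_even _ (even_two_mul k)]

/-- base change -/
theorem fi_nat {f : Y → X} (hf : D'.Map D f) (hw : w.VC R) :
    fi o (Form.pull (fun p : Y × F => (f p.1, p.2)) (map_prodF hf) w) = Form.pull f hf (fi o w) :=
  ext_val fun E _ _ _ u x h => by
    have h1 : (Form.pull (fun p : Y × F => (f p.1, p.2)) (map_prodF hf) w).VC R :=
      hw.pull (map_prodF hf) fun p hp => hp
    rw [pull_val _ _ h, fi_val h1 h, fi_val hw (hf h)]
    refine integral_congr_ae (Eventually.of_forall fun y => ?_)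
    change slice _ _ = slice _ _
    rw [pull_val _ _ (cylF_at h y)]
    rfl

/-! ### degrees -/

theorem part_fi (hw : w.VC R) (j : ℕ) : Form.part j (fi o w) = fi o (Form.part (j + m) w) :=
  ext_val fun E _ _ _ u x h => by
    rw [part_val, fi_val hw h, fi_val (hw.part _) h]
    have h1 := ContinuousLinearMap.integral_comp_comm (prtL (E := E) j) (hw.integrable h o)
    refine h1.symm.trans ?_
    refine integral_congr_ae (Eventually.of_forall fun y => ?_)
    change prt j (slice _ _) = slice _ (prt (j + m) _)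
    rw [slice_apply, slice_apply, prt_pull, prt_cont']

theorem isDeg_fi (hw : w.VC R) {k : ℕ} (hk : IsDeg (k + m) w) : IsDeg k (fi o w) := by
  change Form.part k (fi o w) = fi o w
  rw [part_fi hw, hk.part_eq]

theorem fi_eq_zero_of_deg (hw : w.VC R) {k : ℕ} (hk : IsDeg k w) (hkm : k < m) : fi o w = 0 :=
  ext_val fun E _ _ _ u x h => by
    rw [fi_val hw h, fib, zero_val]
    refine integral_eq_zero_of_ae (Eventually.of_forall fun y => ?_)
    change slice _ _ = 0
    have h1 : ∀ j, prt j (slice (E := E) o (w.val (cylF u) (x, y))) = 0 := by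
      intro j
      rw [slice_apply, prt_pull, prt_cont']
      have h2 : prt k (w.val (cylF u) (x, y)) = w.val (cylF u) (x, y) :=
        congrArg (fun a : Form (D.prod (Dif.lin F)) => a.val (cylF u) (x, y)) hk.part_eq
      rw [prt_of_eq_of_ne (by omega) h2, map_zero, map_zero]
    rw [← sum_prt (Nat.lt_succ_self _) (slice (E := E) o (w.val (cylF u) (x, y)))]
    exact Finset.sum_eq_zero fun j _ => h1 j

/-- the fibre integral keeps the support in a factor of the base -/
theorem fi_VC {F' : Type} [NormedAddCommGroup F'] [NormedSpace ℝ F'] [FiniteDimensional ℝ F']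
    {w : Form ((D.prod (Dif.lin F')).prod (Dif.lin F))} (hw : w.VC R)
    (h : ∀ {E : Type} [NormedAddCommGroup E] [NormedSpace ℝ E] [FiniteDimensional ℝ E]
      {u : E → (X × F') × F} {x : E}, ((D.prod (Dif.lin F')).prod (Dif.lin F)).At u x →
        R' < ‖(u x).1.2‖ → w.val u x = 0) : (fi o w).VC R' := fun {E} _ _ _ {u x} hu hx => by
  rw [fi_val hw hu, fib]
  refine integral_eq_zero_of_ae (Eventually.of_forall fun y => ?_)
  change slice _ _ = 0
  rw [h (cylF_at hu y) hx, map_zero]

end Form

/-! ### fibrewise linear maps -/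

section Rot

variable {E : Type*} [NormedAddCommGroup E] [NormedSpace ℝ E] [FiniteDimensional ℝ E]

theorem hasFDerivAt_fibLin {g : E → F →L[ℝ] F} {x : E} (hg : DifferentiableAt ℝ g x) (y : F) :
    HasFDerivAt (fun p : E × F => (p.1, g p.1 p.2))
      ((ContinuousLinearMap.fst ℝ E F).prod
        (((fderiv ℝ g x).flip y) ∘L ContinuousLinearMap.fst ℝ E F +
          (g x) ∘L ContinuousLinearMap.snd ℝ E F)) (x, y) := by
  have h1 : HasFDerivAt (fun p : E × F => g p.1)
      (fderiv ℝ g x ∘L ContinuousLinearMap.fst ℝ E F) (x, y) :=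
    HasFDerivAt.comp (g := g) (f := Prod.fst) (x, y) hg.hasFDerivAt
      (ContinuousLinearMap.fst ℝ E F).hasFDerivAt
  have h2 : HasFDerivAt (fun p : E × F => p.2) (ContinuousLinearMap.snd ℝ E F) (x, y) :=
    (ContinuousLinearMap.snd ℝ E F).hasFDerivAt
  have h3 := h1.clm_apply h2
  have h4 : HasFDerivAt (fun p : E × F => p.1) (ContinuousLinearMap.fst ℝ E F) (x, y) :=
    (ContinuousLinearMap.fst ℝ E F).hasFDerivAt
  refine (h4.prodMk h3).congr_fderiv ?_
  refine ContinuousLinearMap.ext fun z => ?_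
  simp [add_comm]

/-- **fibre integrals and fibrewise linear isomorphisms** -/
theorem fib_lin (w : E × F → Lam (E × F)) {g : E → F →L[ℝ] F} {x : E}
    (hg : DifferentiableAt ℝ g x) (hdet : LinearMap.det (g x : F →ₗ[ℝ] F) ≠ 0) :
    fib volume o (pb (fun p : E × F => (p.1, g p.1 p.2)) w) x =
      (LinearMap.det (g x : F →ₗ[ℝ] F) * |LinearMap.det (g x : F →ₗ[ℝ] F)|⁻¹) •
        fib volume o w x := by
  set d := LinearMap.det (g x : F →ₗ[ℝ] F) with hd
  have h1 : ∀ y, slice (E := E) o (pb (fun p : E × F => (p.1, g p.1 p.2)) w (x, y)) =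
      d • slice (E := E) o (w (x, g x y)) := by
    intro y
    rw [pb, (hasFDerivAt_fibLin hg y).fderiv]
    have h2 := slice_pull_fib (E := E) o.toBasis ((fderiv ℝ g x).flip y) (g x)
      (L := (ContinuousLinearMap.fst ℝ E F).prod
        (((fderiv ℝ g x).flip y) ∘L ContinuousLinearMap.fst ℝ E F +
          (g x) ∘L ContinuousLinearMap.snd ℝ E F)) (fun a c => by simp) (w (x, g x y))
    rw [OrthonormalBasis.coe_toBasis] at h2
    exact h2
  have h3 : fib volume o (pb (fun p : E × F => (p.1, g p.1 p.2)) w) x =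
      ∫ y, d • slice (E := E) o (w (x, g x y)) :=
    integral_congr_ae (Eventually.of_forall h1)
  let L : F ≃L[ℝ] F := (LinearMap.equivOfDetNeZero _ hdet).toContinuousLinearEquiv
  have hL : ∀ y, L y = g x y := fun y => rfl
  have h4 : ∫ y, slice (E := E) o (w (x, g x y)) = |d|⁻¹ • ∫ y, slice (E := E) o (w (x, y)) := by
    have h5 := Measure.map_linearMap_addHaar_eq_smul_addHaar (volume : Measure F) hdet
    have h6 : MeasurableEmbedding (fun y => g x y) := L.toHomeomorph.measurableEmbedding
    have h7 := h6.integral_map (μ := (volume : Measure F))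
      (fun y => slice (E := E) o (w (x, y)))
    have h8 : Measure.map (fun y => g x y) (volume : Measure F) =
        ENNReal.ofReal |d⁻¹| • volume := h5
    rw [← h7, h8, integral_smul_measure, ENNReal.toReal_ofReal (abs_nonneg _), abs_inv]
  rw [h3, integral_smul, h4, smul_smul]
  rfl

theorem fib_rot (w : E × F → Lam (E × F)) {g : E → F →L[ℝ] F} {x : E}
    (hg : DifferentiableAt ℝ g x) (hdet : LinearMap.det (g x : F →ₗ[ℝ] F) = 1) :
    fib volume o (pb (fun p : E × F => (p.1, g p.1 p.2)) w) x = fib volume o w x := by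
  rw [fib_lin o w hg (by rw [hdet]; exact one_ne_zero), hdet]
  simp

theorem fib_rot_neg (w : E × F → Lam (E × F)) {g : E → F →L[ℝ] F} {x : E}
    (hg : DifferentiableAt ℝ g x) (hdet : LinearMap.det (g x : F →ₗ[ℝ] F) = -1) :
    fib volume o (pb (fun p : E × F => (p.1, g p.1 p.2)) w) x = -fib volume o w x := by
  rw [fib_lin o w hg (by rw [hdet]; norm_num), hdet]
  simp

end Rot

namespace Form

variable {w w' : Form (D.prod (Dif.lin F))} {R R' : ℝ}

variable {o}

theorem map_fibLin {g : X → F →L[ℝ] F} (hg : D.Map (Dif.lin (F →L[ℝ] F)) g) :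
    (D.prod (Dif.lin F)).Map (D.prod (Dif.lin F)) (fun p => (p.1, g p.1 p.2)) :=
  fun {E} _ _ _ {u x} h => by
  refine ⟨h.1, ?_⟩
  have h1 : Sm (fun y => g (u y).1) x := hg h.1
  have h2 : Sm (fun y => (u y).2) x := h.2
  filter_upwards [h1, h2] with y h3 h4
  exact h3.clm_apply h4

/-- fibrewise linear isomorphisms -/
theorem fi_lin (hw : w.VC R) {g : X → F →L[ℝ] F} (hg : D.Map (Dif.lin (F →L[ℝ] F)) g)
    (hw' : (Form.pull (fun p : X × F => (p.1, g p.1 p.2)) (map_fibLin hg) w).VC R') {s : ℝ}
    (hdet : ∀ x, LinearMap.det (g x : F →ₗ[ℝ] F) ≠ 0)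
    (hs : ∀ x, LinearMap.det (g x : F →ₗ[ℝ] F) * |LinearMap.det (g x : F →ₗ[ℝ] F)|⁻¹ = s) :
    fi o (Form.pull (fun p : X × F => (p.1, g p.1 p.2)) (map_fibLin hg) w) = s • fi o w :=
  ext_val fun E _ _ _ u x h => by
    rw [smul_val, fi_val hw' h, fi_val hw h]
    have hgu : Sm (fun y => g (u y)) x := hg h
    have h1 := fib_lin o (w.val (cylF u)) (g := fun y => g (u y)) hgu.differentiableAt (hdet (u x))
    rw [hs] at h1
    rw [← h1]
    refine integral_congr_ae (Eventually.of_forall fun y => ?_)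
    change slice _ _ = slice _ _
    congr 1
    rw [pull_val _ _ (cylF_at h y), pb]
    have h2 : (fun p : X × F => (p.1, g p.1 p.2)) ∘ cylF u =
        cylF u ∘ fun p : E × F => (p.1, g (u p.1) p.2) := rfl
    have h3 : Sm (fun p : E × F => (p.1, g (u p.1) p.2)) (x, y) := by
      have h4 : Sm (fun p : E × F => g (u p.1)) (x, y) :=
        Sm.comp (f := fun y => g (u y)) (g := Prod.fst) (x := ((x, y) : E × F)) hgu
          (Sm.of_contDiff contDiff_fst _)
      filter_upwards [h4] with z hz
      exact contDiffAt_fst.prodMk (hz.clm_apply contDiffAt_snd)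
    rw [h2, w.nat (u := cylF u) (g := fun p : E × F => (p.1, g (u p.1) p.2)) (x := (x, y))
      (cylF_at h _) h3]

/-- rotations of the fibre -/
theorem fi_rot (hw : w.VC R) {g : X → F →L[ℝ] F} (hg : D.Map (Dif.lin (F →L[ℝ] F)) g)
    (hiso : ∀ x y, ‖g x y‖ = ‖y‖) (hdet : ∀ x, LinearMap.det (g x : F →ₗ[ℝ] F) = 1) :
    fi o (Form.pull (fun p : X × F => (p.1, g p.1 p.2)) (map_fibLin hg) w) = fi o w := by
  have h1 : (Form.pull (fun p : X × F => (p.1, g p.1 p.2)) (map_fibLin hg) w).VC R :=
    hw.pull (map_fibLin hg) fun p hp => by rwa [hiso]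
  rw [fi_lin hw hg h1 (s := 1) (fun x => by rw [hdet]; exact one_ne_zero)
    (fun x => by rw [hdet]; simp), one_smul]

theorem map_negF : (D.prod (Dif.lin F)).Map (D.prod (Dif.lin F))
    (fun p : X × F => (p.1, -p.2)) := fun {E} _ _ _ {u x} h => by
  refine ⟨h.1, ?_⟩
  have h2 : Sm (fun y => (u y).2) x := h.2
  filter_upwards [h2] with y h4
  exact h4.neg

theorem fi_neg_pull (hw : w.VC R) :
    fi o (Form.pull (fun p : X × F => (p.1, -p.2)) map_negF w) = (-1 : ℝ) ^ m • fi o w := by
  have hm : finrank ℝ F = m := by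
    rw [finrank_eq_card_basis o.toBasis, Fintype.card_fin]
  have hg : D.Map (Dif.lin (F →L[ℝ] F)) (fun _ : X => -ContinuousLinearMap.id ℝ F) :=
    fun {E} _ _ _ {u x} h => Sm.of_contDiff contDiff_const _
  have hdet : LinearMap.det ((-ContinuousLinearMap.id ℝ F : F →L[ℝ] F) : F →ₗ[ℝ] F) =
      (-1 : ℝ) ^ m := by
    have h1 : ((-ContinuousLinearMap.id ℝ F : F →L[ℝ] F) : F →ₗ[ℝ] F) =
        (-1 : ℝ) • (LinearMap.id : F →ₗ[ℝ] F) := by
      ext y
      simp
    rw [h1, LinearMap.det_smul, LinearMap.det_id, mul_one, hm]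
  have h1 : (Form.pull (fun p : X × F => (p.1, -p.2)) map_negF w).VC R :=
    hw.pull map_negF fun p hp => by rwa [norm_neg]
  have h2 := fi_lin (o := o) hw hg (R' := R) (s := (-1 : ℝ) ^ m) h1
    (fun x => by rw [hdet]; exact pow_ne_zero _ (by norm_num))
    (fun x => by rw [hdet, abs_pow, abs_neg, abs_one, one_pow, inv_one, mul_one])
  exact h2

end Form

end Fi

end

end Vale.Agent.P231.Fm
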