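import Vale.Agent.P231.FE.Psi
import Vale.Agent.P231.Co.Bun

/-!
# P231, stage 2 tools (M6): oriented frames of the planes of an oriented spread
-/

set_option linter.unusedSectionVars false
set_option linter.unusedVariables false

open Module Filter Topology
open scoped ContDiff

namespace Vale.Agent.P231.CoC

noncomputable section

open Vale.Agent.P231.Fm Vale.Agent.P231.FE

variable {T : Type*} [NormedAddCommGroup T] [InnerProductSpace ℝ T] [FiniteDimensional ℝ T]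
  {n : ℕ} {Pi : T → T →L[ℝ] T} {o : T → Lam T}

/-- the model of the planes -/
abbrev Em (n : ℕ) : Type := EuclideanSpace ℝ (Fin (2 * n + 2))

/-- the standard basis -/
def bE (n : ℕ) : OrthonormalBasis (Fin (2 * n + 2)) ℝ (Em n) :=
  EuclideanSpace.basisFun (Fin (2 * n + 2)) ℝ

/-- oriented isometric frames of the planes -/
def FrS (n : ℕ) (Pi : T → T →L[ℝ] T) (o : T → Lam T) : Set (Em n →L[ℝ] T) :=
  {L | (∀ ξ, ‖L ξ‖ = ‖ξ‖) ∧ (∀ a, Pi (L (bE n 0)) (L (bE n a)) = L (bE n a)) ∧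
    o (L (bE n 0)) = wdg fun a => L (bE n a)}

/-- the coordinates in a frame -/
def tr (L : Em n →L[ℝ] T) : T →L[ℝ] Em n :=
  ∑ a, (innerSL ℝ (L (bE n a))).smulRight (bE n a)

theorem tr_apply (L : Em n →L[ℝ] T) (w : T) :
    tr L w = ∑ a, (inner ℝ (L (bE n a)) w : ℝ) • bE n a := by
  rw [tr, sum_apply]
  exact Finset.sum_congr rfl fun a _ => by
    rw [ContinuousLinearMap.smulRight_apply, innerSL_apply_apply]

section Iso

variable {L : Em n →L[ℝ] T} (hL : ∀ ξ, ‖L ξ‖ = ‖ξ‖)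
include hL

theorem iso_inner (x y : Em n) : inner ℝ (L x) (L y) = (inner ℝ x y : ℝ) :=
  LinearIsometry.inner_map_map (⟨(L : Em n →ₗ[ℝ] T), hL⟩ : Em n →ₗᵢ[ℝ] T) x y

theorem iso_orth : Orthonormal ℝ fun a => L (bE n a) :=
  (bE n).orthonormal.comp_linearIsometry (⟨(L : Em n →ₗ[ℝ] T), hL⟩ : Em n →ₗᵢ[ℝ] T)

theorem tr_self (ξ : Em n) : tr L (L ξ) = ξ := by
  rw [tr_apply]
  simp only [iso_inner hL]
  exact (bE n).sum_repr' ξ

theorem iso_inj {ξ ξ' : Em n} (h : L ξ = L ξ') : ξ = ξ' := by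
  rw [← tr_self hL ξ, h, tr_self hL]

end Iso

theorem norm_bE (a : Fin (2 * n + 2)) : ‖bE n a‖ = 1 := (bE n).norm_eq_one a

section Fr

variable (h : OS n Pi o) {L L' : Em n →L[ℝ] T} (hL : L ∈ FrS n Pi o) (hL' : L' ∈ FrS n Pi o)
include h hL

theorem FrS.norm0 : ‖L (bE n 0)‖ = 1 := by rw [hL.1, norm_bE]

theorem FrS.ne0 : L (bE n 0) ≠ 0 := by
  rw [← norm_ne_zero_iff, FrS.norm0 h hL]
  exact one_ne_zero

/-- the frame takes values in the plane -/
theorem FrS.fix (ξ : Em n) : Pi (L (bE n 0)) (L ξ) = L ξ := by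
  have h1 : ξ = ∑ a, (inner ℝ (bE n a) ξ : ℝ) • bE n a := ((bE n).sum_repr' ξ).symm
  rw [h1]
  simp only [map_sum, map_smul, hL.2.1]

theorem FrS.Pi_eq {ξ : Em n} (hξ : ξ ≠ 0) : Pi (L ξ) = Pi (L (bE n 0)) :=
  h.sp.rel _ _ (FrS.ne0 h hL) (by rwa [← norm_ne_zero_iff, hL.1, norm_ne_zero_iff])
    (FrS.fix h hL ξ)

theorem FrS.o_eq {ξ : Em n} (hξ : ξ ≠ 0) : o (L ξ) = wdg fun a => L (bE n a) :=
  (h.or.rel _ _ (FrS.ne0 h hL) (by rwa [← norm_ne_zero_iff, hL.1, norm_ne_zero_iff])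
    (FrS.fix h hL ξ)).trans hL.2.2

/-- the frame is onto the plane -/
theorem FrS.tr_fix {w : T} (hw : Pi (L (bE n 0)) w = w) : L (tr L w) = w := by
  have h1 : w ∈ Submodule.span ℝ (Set.range fun a => L (bE n a)) := by
    rw [span_eq (h.sp.rank _ (FrS.ne0 h hL)) (iso_orth hL.1)
      fun a => (h.mem_range_iff (FrS.ne0 h hL)).2 (hL.2.1 a)]
    exact (h.mem_range_iff (FrS.ne0 h hL)).2 hw
  have h2 := sum_of_mem_span (iso_orth hL.1) h1
  rw [tr_apply, map_sum]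
  simp only [map_smul]
  exact h2

theorem FrS.norm_tr {w : T} (hw : Pi (L (bE n 0)) w = w) : ‖tr L w‖ = ‖w‖ := by
  rw [← hL.1, FrS.tr_fix h hL hw]

include hL'

/-- the transition -/
theorem FrS.trans_apply (hP : Pi (L (bE n 0)) (L' (bE n 0)) = L' (bE n 0)) (ξ : Em n) :
    L (tr L (L' ξ)) = L' ξ := by
  refine FrS.tr_fix h hL ?_
  have h1 : Pi (L' (bE n 0)) = Pi (L (bE n 0)) :=
    h.sp.rel _ _ (FrS.ne0 h hL) (FrS.ne0 h hL') hP
  rw [← h1]
  exact FrS.fix h hL' ξ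

theorem FrS.trans_norm (hP : Pi (L (bE n 0)) (L' (bE n 0)) = L' (bE n 0)) (ξ : Em n) :
    ‖((tr L).comp L') ξ‖ = ‖ξ‖ := by
  rw [← hL.1]
  change ‖L (tr L (L' ξ))‖ = _
  rw [FrS.trans_apply h hL hL' hP, hL'.1]

theorem FrS.trans_det (hP : Pi (L (bE n 0)) (L' (bE n 0)) = L' (bE n 0)) :
    LinearMap.det ((((tr L).comp L' : Em n →L[ℝ] Em n)) : Em n →ₗ[ℝ] Em n) = 1 := by
  set g : Em n →ₗ[ℝ] Em n := ((((tr L).comp L' : Em n →L[ℝ] Em n)) : Em n →ₗ[ℝ] Em n) with hg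
  set A : Matrix (Fin (2 * n + 2)) (Fin (2 * n + 2)) ℝ :=
    (LinearMap.toMatrix (bE n).toBasis (bE n).toBasis g).transpose with hA
  have h1 : (fun a => L' (bE n a)) = fun a => ∑ b, A a b • L (bE n b) := by
    funext a
    have h2 : g (bE n a) = ∑ b, A a b • bE n b := by
      have h3 := (bE n).toBasis.sum_repr (g (bE n a))
      rw [← h3]
      refine Finset.sum_congr rfl fun b _ => ?_
      rw [hA, Matrix.transpose_apply, LinearMap.toMatrix_apply, OrthonormalBasis.coe_toBasis]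
    rw [← FrS.trans_apply h hL hL' hP (bE n a)]
    change L (g (bE n a)) = _
    rw [h2, map_sum]
    simp only [map_smul]
  have h4 : o (L' (bE n 0)) = o (L (bE n 0)) :=
    h.or.rel _ _ (FrS.ne0 h hL) (FrS.ne0 h hL') hP
  rw [hL'.2.2, hL.2.2, h1, wdg_matrix] at h4
  have h5 : (A.det - 1) • wdg (fun a => L (bE n a)) = 0 := by
    rw [sub_smul, one_smul, h4, sub_self]
  have h6 : A.det = 1 :=
    sub_eq_zero.1 ((smul_eq_zero.1 h5).resolve_right (wdg_ne_zero (iso_orth hL.1)))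
  rw [← LinearMap.det_toMatrix (bE n).toBasis, ← Matrix.det_transpose]
  exact h6

end Fr

section Smooth

variable {V : Type*} [NormedAddCommGroup V] [NormedSpace ℝ V] {x : V}

theorem sm_tr {L : V → Em n →L[ℝ] T} (hL : ContDiffAt ℝ ∞ L x) :
    ContDiffAt ℝ ∞ (fun y => tr (L y)) x := by
  unfold tr
  refine ContDiffAt.sum fun a _ => ?_
  have h1 : ContDiffAt ℝ ∞ (fun y => L y (bE n a)) x := hL.clm_apply contDiffAt_const
  have h2 : ContDiffAt ℝ ∞ (fun y => innerSL ℝ (L y (bE n a))) x :=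
    (innerSL ℝ (E := T)).contDiff.contDiffAt.comp x h1
  exact h2.smulRight contDiffAt_const

/-- the frame of a family of vectors -/
def mkL (e : Fin (2 * n + 2) → T) : Em n →L[ℝ] T :=
  ∑ a, (innerSL ℝ (bE n a)).smulRight (e a)

theorem mkL_apply (e : Fin (2 * n + 2) → T) (ξ : Em n) :
    mkL e ξ = ∑ a, (inner ℝ (bE n a) ξ : ℝ) • e a := by
  rw [mkL, sum_apply]
  exact Finset.sum_congr rfl fun a _ => by
    rw [ContinuousLinearMap.smulRight_apply, innerSL_apply_apply]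

theorem mkL_bE (e : Fin (2 * n + 2) → T) (a : Fin (2 * n + 2)) : mkL e (bE n a) = e a := by
  rw [mkL_apply, Finset.sum_eq_single a]
  · rw [real_inner_self_eq_norm_sq, norm_bE, one_pow, one_smul]
  · intro b _ hb
    rw [(bE n).orthonormal.2 hb, zero_smul]
  · simp

theorem norm_mkL {e : Fin (2 * n + 2) → T} (he : Orthonormal ℝ e) (ξ : Em n) :
    ‖mkL e ξ‖ = ‖ξ‖ := by
  have h1 : ‖mkL e ξ‖ ^ 2 = ‖ξ‖ ^ 2 := by
    rw [← real_inner_self_eq_norm_sq, ← real_inner_self_eq_norm_sq, mkL_apply, he.inner_sum]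
    have h2 := (bE n).sum_repr' ξ
    conv_rhs => rw [← h2]
    rw [(bE n).orthonormal.inner_sum]
  exact (sq_eq_sq₀ (norm_nonneg _) (norm_nonneg _)).1 h1

theorem sm_mkL {e : Fin (2 * n + 2) → V → T} (he : ∀ a, ContDiffAt ℝ ∞ (e a) x) :
    ContDiffAt ℝ ∞ (fun y => mkL fun a => e a y) x := by
  unfold mkL
  exact ContDiffAt.sum fun a _ => contDiffAt_const.smulRight (he a)

/-- local oriented frames along a plot -/
theorem exists_frS (h : OS n Pi o) {v : V → T} (hv : Sm v x) (hv1 : ∀ᶠ y in 𝓝 x, ‖v y‖ = 1) :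
    ∃ L : V → Em n →L[ℝ] T, Sm L x ∧ ∀ᶠ y in 𝓝 x, L y ∈ FrS n Pi o ∧ L y (bE n 0) = v y := by
  have h0 : v x ≠ 0 := by
    rw [← norm_ne_zero_iff, hv1.self_of_nhds]
    exact one_ne_zero
  obtain ⟨e, he0, he⟩ := h.exists_frame h0
  have h1 : ∀ᶠ y in 𝓝 x, Adp e Pi (v y) ∧ o (v y) = wdg fun a => e a (v y) :=
    hv.continuousAt.eventually he
  refine ⟨fun y => mkL fun a => e a (v y), ?_, ?_⟩
  · filter_upwards [hv, h1] with y hy1 hy2
    refine sm_mkL fun a => ?_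
    exact (hy2.1.ofr.sm a).self_of_nhds.comp y hy1
  · filter_upwards [hv1, h1] with y hy1 hy2
    have h2 : e 0 (v y) = v y := by
      rw [he0, rad, hy1, inv_one, one_smul]
    have h3 : ∀ a, mkL (fun a => e a (v y)) (bE n a) = e a (v y) := fun a =>
      mkL_bE (fun a => e a (v y)) a
    refine ⟨⟨norm_mkL hy2.1.ofr.on.self_of_nhds, fun a => ?_, ?_⟩, ?_⟩
    · change Pi (mkL (fun a => e a (v y)) (bE n 0)) (mkL (fun a => e a (v y)) (bE n a)) =
        mkL (fun a => e a (v y)) (bE n a)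
      rw [h3, h3, h2]
      exact hy2.1.fix.self_of_nhds a
    · change o (mkL (fun a => e a (v y)) (bE n 0)) = wdg fun a => mkL (fun a => e a (v y)) (bE n a)
      rw [h3, h2, hy2.2]
      congr 1
      funext a
      rw [h3]
    · change mkL (fun a => e a (v y)) (bE n 0) = v y
      rw [h3, h2]

end Smooth

end

end Vale.Agent.P231.CoC
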