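import Vale.Agent.P231.Co.Gen

/-!
# P231, stage 2 tools (M5): the cohomology of the sphere bundle in the form needed by the
quadratic relation
-/

set_option linter.unusedSectionVars false
set_option linter.unusedVariables false

open Set Filter Module
open scoped ContDiff Topology

namespace Vale.Agent.P231.CoC

noncomputable section

open Vale.Agent.P231.Fm

variable {X S Fr Z : Type*} {DX : Dif X} {DS : Dif S} {DF : Dif Fr} {DZ : Dif Z} {m n₀ : ℕ}
  {F' : Type} [NormedAddCommGroup F'] [InnerProductSpace ℝ F'] [FiniteDimensional ℝ F']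
  [MeasurableSpace F'] [BorelSpace F'] {r : ℕ}
  {ϖ : S → X} {q : Fr → X} {ev : Fr × F' → S}

/-- a closed form of degree `0` on the sphere bundle is constant -/
theorem hs_zero {G : Form DX} (hG : Gen DX G m n₀) (h : Co.Bun DX DS DF F' ϖ q ev)
    (o : OrthonormalBasis (Fin r) ℝ F') (hr : 1 < r) {ψ : Form DS} (hψ : h.Ang o ψ 0)
    (hn : 0 < n₀) (w : Form DS) (hwj : Form.IsDeg 0 w) (hw : w.d = 0) :
    ∃ c : ℝ, w = c • (1 : Form DS) := by
  obtain ⟨c, c', Γ, h1, -, h3, -⟩ := hG.bundle h o hr hψ hn hw hwj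
  rw [h3 (by omega), zero_smul, add_zero, Nat.zero_div, pow_zero] at h1
  refine ⟨c, ?_⟩
  have h2 : Form.part 0 w = w := hwj
  rw [← h2]
  conv_lhs => rw [h1]
  rw [Form.part_add, Form.part_zero_d, add_zero, Form.part_smul, Form.part_one]
  simp

/-- the degrees in which closed forms are exact -/
theorem hs_exact {G : Form DX} (hG : Gen DX G m n₀) (h : Co.Bun DX DS DF F' ϖ q ev)
    (o : OrthonormalBasis (Fin r) ℝ F') (hr : 1 < r) {ψ : Form DS} (hψ : h.Ang o ψ 0) {j : ℕ}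
    (hj : j < n₀) (h1 : ¬ m ∣ j) (h2 : j < r - 1 ∨ ¬ m ∣ j - (r - 1)) (w : Form DS)
    (hwj : Form.IsDeg j w) (hw : w.d = 0) : ∃ η : Form DS, w = η.d := by
  obtain ⟨c, c', Γ, h3, h4, h5, h6⟩ := hG.bundle h o hr hψ hj hw hwj
  refine ⟨Γ, ?_⟩
  have h7 : c' = 0 := h2.elim h5 h6
  rw [h3, h4 h1, h7, zero_smul, zero_smul, zero_add, zero_add]

/-- the degree of the fibre -/
theorem hs_mid {G : Form DX} (hG : Gen DX G m n₀) (h : Co.Bun DX DS DF F' ϖ q ev)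
    (o : OrthonormalBasis (Fin r) ℝ F') (hr : 1 < r) {ψ : Form DS} (hψ : h.Ang o ψ 0)
    (hj : r - 1 < n₀) (h1 : ¬ m ∣ r - 1) {b ℓ : Form DS} {k : ℝ} (hb : ψ = k • b + ℓ.d)
    (w : Form DS) (hwj : Form.IsDeg (r - 1) w) (hw : w.d = 0) :
    ∃ (c : ℝ) (η : Form DS), w = c • b + η.d := by
  obtain ⟨c, c', Γ, h3, h4, -, -⟩ := hG.bundle h o hr hψ hj hw hwj
  refine ⟨c' * k, c' • ℓ + Γ, ?_⟩
  rw [h4 h1, zero_smul, zero_add, Nat.sub_self, Nat.zero_div, pow_zero, mul_one, hb, smul_add,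
    smul_smul] at h3
  rw [h3, Form.d_add, Form.d_smul, add_assoc]

/-- the degree of `G` -/
theorem hs_top {fo : X → Z} (hfo : DX.Map DZ fo) {G : Form DZ}
    (hG : Gen DX (Form.pull fo hfo G) m n₀) (h : Co.Bun DX DS DF F' ϖ q ev)
    (o : OrthonormalBasis (Fin r) ℝ F') (hr : 1 < r) {ψ : Form DS} (hψ : h.Ang o ψ 0)
    (hm : 0 < m) (hj : m < n₀) (h1 : m < r - 1 ∨ ¬ m ∣ m - (r - 1)) (w : Form DS)
    (hwj : Form.IsDeg m w) (hw : w.d = 0) (hc : DS.Map DZ (fun b => fo (ϖ b))) :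
    ∃ (c : ℝ) (η : Form DS), w = c • Form.pull (fun b => fo (ϖ b)) hc G + η.d := by
  obtain ⟨c, c', Γ, h3, -, h5, h6⟩ := hG.bundle h o hr hψ hj hw hwj
  refine ⟨c, Γ, ?_⟩
  have h7 : c' = 0 := h1.elim h5 h6
  have h8 : Form.pull ϖ h.hπ (Form.pull fo hfo G) = Form.pull (fun b => fo (ϖ b)) hc G :=
    Form.pull2_one (f := ϖ) (g := fo) (g' := fun b => fo (ϖ b)) _ _ _ (fun _ => rfl) G
  rw [h3, h7, zero_smul, add_zero, Nat.div_self hm, pow_one, h8]

end

end Vale.Agent.P231.CoC
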