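import Vale.Agent.P231.Co.SI

/-!
# P231, stage 2 tools (M4, abstract): the base of a sphere bundle whose total space is a sphere
-/

set_option linter.unusedSectionVars false
set_option linter.unusedVariables false

open MeasureTheory Set Module Filter Topology
open scoped ContDiff

namespace Vale.Agent.P231.Co

open Vale.Agent.P231.Fm Vale.Agent.P231.W Vale.Agent.P231.H584
open Vale.Agent.P231.Fm (Sm Dif Form Lam)

variable {X : Type*} {D : Dif X}

theorem sgi_isDeg {k : ℕ} {a : Form D} (h : Form.IsDeg k a) (m : ℕ) :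
    Form.sg^[m] a = ((-1 : ℝ) ^ k) ^ m • a := by
  induction m with
  | zero => simp
  | succ m ih => rw [Function.iterate_succ_apply', ih, Form.sg_smul, h.sg, smul_smul, ← pow_succ]

theorem isDeg_zero_const (c : ℝ) : Form.IsDeg 0 (c • (1 : Form D)) := Form.IsDeg.one.smul c

variable {B S Fr : Type*} {DB : Dif B} {DS : Dif S} {DF : Dif Fr}
variable {F : Type} [NormedAddCommGroup F] [InnerProductSpace ℝ F] [FiniteDimensional ℝ F]
  [MeasurableSpace F] [BorelSpace F] {m : ℕ} (o : OrthonormalBasis (Fin m) ℝ F)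

namespace Bun

variable {π : S → B} {q : Fr → B} {ev : Fr × F → S} (h : Bun DB DS DF F π q ev)

include h

/-- closed forms of degree zero on the base are constant -/
theorem const_base (o : OrthonormalBasis (Fin m) ℝ F) (hm : 0 < m)
    (hS0 : ∀ w : Form DS, w.d = 0 → Form.IsDeg 0 w → ∃ c : ℝ, w = c • (1 : Form DS))
    {w : Form DB} (hw : w.d = 0) (h0 : Form.IsDeg 0 w) : ∃ c : ℝ, w = c • (1 : Form DB) := by
  obtain ⟨c, hc⟩ := hS0 (Form.pull π h.hπ w) (by rw [← Form.pull_d, hw, pull_zero])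
    (h0.pull π h.hπ)
  refine ⟨c, h.pull_π_inj o hm ?_⟩
  rw [hc, pull_smul, pull_one]

theorem SI_pull_zero (hm : 2 ≤ m) (a : Form DB) : h.SI o (Form.pull π h.hπ a) = 0 := by
  have h1 : Form.pull π h.hπ a = 1 * Form.pull π h.hπ a := (one_mul _).symm
  rw [h1, h.SI_mul_π o, h.SI_eq_zero o Form.IsDeg.one (by omega), zero_mul]

/-- **(M4)**: if the total space has the cohomology of a sphere below degree `J` then the closed
forms on the base are, modulo exact forms, the multiples of the powers of `e` -/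
theorem low (hm : 2 ≤ m) {ψ : Form DS} {e : Form DB} (hψ : h.Ang o ψ e) {J : ℕ}
    (hS0 : ∀ w : Form DS, w.d = 0 → Form.IsDeg 0 w → ∃ c : ℝ, w = c • (1 : Form DS))
    (hS : ∀ j, j + 1 < J → ∀ σ : Form DS, σ.d = 0 → Form.IsDeg (j + 1) σ →
      ∃ κ : Form DS, Form.IsDeg j κ ∧ σ = κ.d) :
    ∀ j, j + 1 < J → ∀ w : Form DB, w.d = 0 → Form.IsDeg (j + 1) w →
      ∃ (c : ℝ) (η : Form DB), Form.IsDeg j η ∧ w = c • e ^ ((j + 1) / m) + η.d ∧
        (¬ m ∣ j + 1 → c = 0) := by
  intro j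
  induction j using Nat.strong_induction_on with
  | _ j ih =>
    intro hj w hw hwj
    have hm0 : 0 < m := by omega
    have hed := hψ.ed h o hm0
    obtain ⟨κ, hκj, hκ⟩ := hS j hj (Form.pull π h.hπ w) (by rw [← Form.pull_d, hw, pull_zero])
      (hwj.pull π h.hπ)
    have hg := h.gysin1 o hψ hκ
    set s : ℝ := ((-1 : ℝ) ^ (j + 1)) ^ (m + 1) with hs
    have hss : s * s = 1 := by
      rw [hs, ← pow_mul, ← pow_add, ← two_mul, pow_mul, neg_one_sq, one_pow]
    have hw1 : w = s • (Form.sg^[m + 1] w) := by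
      rw [sgi_isDeg hwj, ← hs, smul_smul, hss, one_smul]
    set t : ℝ := s * (-1 : ℝ) ^ (m + 1) with ht
    set η₀ : Form DB := h.SI o (κ * ψ) with hη₀
    have hη₀j : Form.IsDeg j η₀ := h.isDeg_SI o (hκj.mul hψ.deg) (by omega)
    have hw2 : w = s • (h.SI o κ.sg * e) + (t • η₀).d := by
      conv_lhs => rw [hw1, hg]
      rw [smul_add, smul_smul, Form.d_smul]
    set v : Form DB := h.SI o κ.sg with hv
    have hκs : Form.IsDeg j κ.sg := by
      rw [hκj.sg]
      exact hκj.smul _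
    have hvd : v.d = 0 := by
      have h1 : h.SI o κ.sg.d = 0 := by
        rw [Form.d_sg, ← hκ, ← Form.pull_sg]
        have h2 : -Form.pull π h.hπ w.sg = Form.pull π h.hπ (-w.sg) := (pull_neg _ _).symm
        rw [h2, h.SI_pull_zero o hm]
      have h3 := h.SI_d o κ.sg
      rw [h1] at h3
      exact (smul_eq_zero.1 h3.symm).resolve_left (pow_ne_zero _ (by norm_num))
    rcases lt_trichotomy (j + 1) m with hjm | hjm | hjm
    · refine ⟨0, t • η₀, hη₀j.smul t, ?_, fun _ => rfl⟩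
      rw [hw2, hv, h.SI_eq_zero o hκs hjm, zero_mul, smul_zero, zero_smul]
    · have hv0 : Form.IsDeg 0 v := h.isDeg_SI o hκs (by omega)
      obtain ⟨c, hc⟩ := h.const_base o hm0 hS0 hvd hv0
      refine ⟨s * c, t • η₀, hη₀j.smul t, ?_, fun hn => absurd (hjm ▸ dvd_refl m) hn⟩
      rw [hw2, hc, hjm, Nat.div_self hm0, pow_one, smul_mul_assoc, one_mul, smul_smul]
    · obtain ⟨i, hi⟩ : ∃ i, j + 1 = i + 1 + m := ⟨j - m, by omega⟩
      have hvi : Form.IsDeg (i + 1) v := h.isDeg_SI o hκs (by omega)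
      obtain ⟨c, η, hηi, hvη, hcn⟩ := ih i (by omega) (by omega) v hvd hvi
      have h4 : (j + 1) / m = (i + 1) / m + 1 := by
        rw [hi, Nat.add_div_right _ hm0]
      have h5 : (η * e).d = η.d * e := by
        rw [Form.d_mul, hed, mul_zero, add_zero]
      refine ⟨s * c, s • (η * e) + t • η₀, ?_, ?_, ?_⟩
      · exact (degc ((hηi.mul hψ.dege).smul s) (by omega)).add (hη₀j.smul t)
      · rw [hw2, hvη, h4, add_mul, smul_mul_assoc, ← pow_succ, smul_add, smul_smul,
          Form.d_add, Form.d_smul, Form.d_smul, h5, add_assoc]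
      · intro hn
        have h6 : ¬ m ∣ i + 1 := fun h7 => hn (by
          rw [hi]
          exact dvd_add h7 (dvd_refl m))
        rw [hcn h6, mul_zero]

/-- restriction of a sphere bundle to a subset of the base -/
theorem on (A : Set B) : Bun (DB.on A) (DS.on (π ⁻¹' A)) (DF.on (q ⁻¹' A)) F π q ev where
  hπ := fun {E} _ _ _ {u x} hu => ⟨h.hπ hu.1, hu.2⟩
  hq := ⟨fun {E} _ _ _ {u x} hu => ⟨h.hq.map hu.1, hu.2⟩, fun {E} _ _ _ {u x} hu => by
    obtain ⟨f, hf, hqf⟩ := h.hq.lift hu.1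
    refine ⟨f, ⟨hf, ?_⟩, hqf⟩
    filter_upwards [hqf, hu.2] with y h1 h2
    change q (f y) ∈ A
    have h3 : q (f y) = u y := h1
    rw [h3]
    exact h2⟩
  hev := fun {E} _ _ _ {u x} hu => by
    have h1 : (SB DF F).At u x := ⟨⟨hu.1.1.1, hu.1.2⟩, hu.2⟩
    refine ⟨h.hev h1, ?_⟩
    filter_upwards [h.comm' h1, hu.1.1.2] with y h2 h3
    change π (ev (u y)) ∈ A
    rw [h2]
    exact h3
  comm := fun {E} _ _ _ {u x} hu => h.comm ⟨⟨hu.1.1.1, hu.1.2⟩, hu.2⟩
  trans := fun {E} _ _ _ {f f' x} hf hf' e => h.trans hf.1 hf'.1 e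
  lift := fun {E} _ _ _ {s f x} hs hf e => h.lift hs.1 hf.1 e
  inj := fun {E} _ _ _ {f x} hf ξ ξ' h1 h2 e => h.inj hf.1 ξ ξ' h1 h2 e

end Bun

end Vale.Agent.P231.Co
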