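import Vale.Agent.P231.Co.RelM
import Vale.Agent.P231.Co.Gys

/-!
# P231, stage 2 tools (M2): `H^j(UT) = H^j(M)` for `j < dim M - 1`, unconditional form
-/

set_option maxSynthPendingDepth 3
set_option linter.unusedSectionVars false
set_option linter.unusedVariables false

open Bundle Manifold Set Filter Module
open scoped ContDiff Manifold Topology

namespace Vale.Agent.P231.CoU

noncomputable section

open Vale.Agent.P234 Vale.Agent.P231 Vale.Agent.P231.Fm Vale.Agent.P231.W Vale.Agent.P231.H775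

variable {E : Type*} [NormedAddCommGroup E] [NormedSpace ℝ E] [FiniteDimensional ℝ E]
  {M : Type*} [MetricSpace M] [ChartedSpace E M] [IsManifold 𝓘(ℝ, E) ∞ M]
  [RiemannianBundle (fun x : M => TangentSpace 𝓘(ℝ, E) x)]
  [IsContMDiffRiemannianBundle 𝓘(ℝ, E) ∞ E (fun x : M => TangentSpace 𝓘(ℝ, E) x)]
  [CompactSpace M] [ConnectedSpace M] [IsRiemannianManifold 𝓘(ℝ, E) M]

variable (E M) in
theorem sphLow : SphLow E M := by
  intro O j hj σ hσ hd
  obtain ⟨a, κ, h1, -, h3, -, -⟩ := Co.sph_low (D := (dM E M).on O)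
    (EuclideanSpace.basisFun (Fin (finrank ℝ E)) ℝ) (Form.degZ_nat.1 hσ) hj hd
  exact ⟨a, κ, h1, h3⟩

/-- **(M2)** closed relative pairs of degree `j < dim M` of the unit tangent bundle are exact -/
theorem relAt (h0 : 0 < finrank ℝ E) {j : ℤ} (hj : j < finrank ℝ E) :
    Form.RelAt j (dM E M) (dUT E M) foot map_foot := relAt_UT (sphLow E M) h0 hj

/-- **(M2)** a closed form of degree `j < dim M - 1` on the unit tangent bundle comes from `M` -/
theorem surj {j : ℕ} (hj : j + 1 < finrank ℝ E) {w : Form (dUT E M)} (hw : w.d = 0)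
    (hwj : Form.IsDeg j w) : ∃ (a : Form (dM E M)) (κ : Form (dUT E M)), a.d = 0 ∧
      Form.IsDeg j a ∧ w = Form.pull foot map_foot a + κ.d ∧ (∀ i, j = i + 1 → Form.IsDeg i κ) ∧
      (j = 0 → κ = 0) := by
  obtain ⟨a, κ, h1, h2, h3, h4⟩ := surj_UT (sphLow E M) hj hw hwj
  refine ⟨a, κ, h1, h2, h4, ?_, ?_⟩
  · rintro i rfl
    refine Form.degZ_nat.1 ?_
    have h5 : ((i + 1 : ℕ) : ℤ) - 1 = (i : ℤ) := by push_cast; ring
    rwa [h5] at h3
  · rintro rfl
    exact h3.eq_zero (by norm_num)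

/-- **(M2)** a closed form of degree `j < dim M` on `M` which becomes exact on the unit tangent
bundle is exact -/
theorem inj {j : ℕ} (hj : j < finrank ℝ E) {a : Form (dM E M)} (ha : a.d = 0)
    (haj : Form.IsDeg j a) {κ : Form (dUT E M)} (hκ : Form.pull foot map_foot a = κ.d) :
    ∃ c : Form (dM E M), a = c.d ∧ (∀ i, j = i + 1 → Form.IsDeg i c) ∧ (j = 0 → c = 0) := by
  obtain ⟨c, h1, h2⟩ := inj_UT (sphLow E M) hj ha haj hκ
  refine ⟨c, h2, ?_, ?_⟩
  · rintro i rfl
    refine Form.degZ_nat.1 ?_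
    have h5 : ((i + 1 : ℕ) : ℤ) - 1 = (i : ℤ) := by push_cast; ring
    rwa [h5] at h1
  · rintro rfl
    exact h1.eq_zero (by norm_num)

end

end Vale.Agent.P231.CoU
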