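import Vale.Agent.P231.Co.M3h

/-!
# P231, stage 2 tools (M3): a closed form on `M` of degree `0 < j < dim M` which is exact on the
cut locus of a point is exact
-/

set_option maxSynthPendingDepth 3
set_option linter.unusedSectionVars false
set_option linter.unusedVariables false

open Bundle Manifold Set Filter Module
open scoped ContDiff Manifold Topology

namespace Vale.Agent.P231.CoC

noncomputable section

open Vale.Agent.P234 Vale.Agent.P231 Vale.Agent.P231.Fm Vale.Agent.P231.W Vale.Agent.P231.H775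
open Vale.Agent.P231.WE

variable {E : Type*} [NormedAddCommGroup E] [NormedSpace ℝ E] [FiniteDimensional ℝ E]
  {M : Type*} [MetricSpace M] [ChartedSpace E M] [IsManifold 𝓘(ℝ, E) ∞ M]
  [RiemannianBundle (fun x : M => TangentSpace 𝓘(ℝ, E) x)]
  [IsContMDiffRiemannianBundle 𝓘(ℝ, E) ∞ E (fun x : M => TangentSpace 𝓘(ℝ, E) x)]
  {e : ∀ x : M, TangentSpace 𝓘(ℝ, E) x → M}

/-! ### the partition function -/

/-- functions of the distance which are constant near `0` and beyond the injectivity radius -/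
theorem map_prf_dist (F : Facts e) {D : ℝ} (hD : 0 < D) (hB : InjGE e D) (p : M) :
    (dM E M).Map (Dif.lin ℝ) (fun x => Form.prf (dist p x / D)) := by
  intro V _ _ _ u x h
  have h1 : ∀ᶠ y in 𝓝 x, ContMDiffAt 𝓘(ℝ, V) 𝓘(ℝ, E) ∞ u y := h
  have hc : ContinuousAt (fun y => dist p (u y) / D) x :=
    (continuousAt_const.dist h1.self_of_nhds.continuousAt).div_const D
  suffices hh : Sm (fun y => Form.prf (dist p (u y) / D)) x from hh
  rcases lt_or_ge (dist p (u x) / D) (1 / 3) with h2 | h2
  · have h3 : ∀ᶠ y in 𝓝 x, dist p (u y) / D < 1 / 3 := hc.eventually (gt_mem_nhds h2)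
    refine Sm.congr (f := fun _ => 0) (Sm.of_contDiff contDiff_const _) ?_
    filter_upwards [h3] with y hy
    exact (Form.prf_zero hy.le).symm
  · rcases lt_or_ge (2 / 3) (dist p (u x) / D) with h4 | h4
    · have h3 : ∀ᶠ y in 𝓝 x, 2 / 3 < dist p (u y) / D := hc.eventually (lt_mem_nhds h4)
      refine Sm.congr (f := fun _ => 1) (Sm.of_contDiff contDiff_const _) ?_
      filter_upwards [h3] with y hy
      exact (Form.prf_one hy.le).symm
    · have h5 : ∀ᶠ y in 𝓝 x, 0 < dist p (u y) / D :=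
        hc.eventually (lt_mem_nhds (lt_of_lt_of_le (by norm_num) h2))
      have h6 : ∀ᶠ y in 𝓝 x, dist p (u y) / D < 1 :=
        hc.eventually (gt_mem_nhds (lt_of_le_of_lt h4 (by norm_num)))
      filter_upwards [h1, h5, h6] with y k1 k2 k3
      have k4 : dist p (u y) < D := by rwa [div_lt_one hD] at k3
      have k5 : u y ≠ p := by
        intro k6
        rw [k6, dist_self, zero_div] at k2
        exact lt_irrefl _ k2
      have k7 : ContDiffAt ℝ ∞ (fun y => dist p (u y)) y :=
        ((contMDiffAt_dist F hB k4 k5).comp y k1).contDiffAt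
      exact Form.contDiff_prf.contDiffAt.comp y (k7.div_const D)

/-- the partition function -/
def pw (F : Facts e) {D : ℝ} (hD : 0 < D) (hB : InjGE e D) (p : M) : Form (dM E M) :=
  Form.fn (fun x => Form.prf (dist p x / D)) (map_prf_dist F hD hB p)

theorem supp_pw (F : Facts e) {D : ℝ} (hD : 0 < D) (hB : InjGE e D) (p : M) :
    (pw F hD hB p).Supp (pc p) := by
  refine ⟨fun {V} _ _ _ {u x} hu => ?_⟩
  have h1 : ∀ᶠ y in 𝓝 x, ContMDiffAt 𝓘(ℝ, V) 𝓘(ℝ, E) ∞ u y := hu
  have hcu : ContinuousAt u x := h1.self_of_nhds.continuousAt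
  by_cases hx : u x = p
  · right
    have hc : ContinuousAt (fun y => dist p (u y) / D) x :=
      (continuousAt_const.dist hcu).div_const D
    have h3 : ∀ᶠ y in 𝓝 x, dist p (u y) / D < 1 / 3 := by
      refine hc.eventually (gt_mem_nhds ?_)
      show dist p (u x) / D < 1 / 3
      rw [hx, dist_self, zero_div]
      norm_num
    filter_upwards [h3, (dM E M).open' hu] with y hy hu'
    rw [pw, Form.fn_val _ _ hu', Form.prf_zero hy.le, map_zero]
  · left
    exact hcu.eventually (isOpen_ne.mem_nhds hx)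

theorem supp_one_sub_pw (F : Facts e) {D : ℝ} (hD : 0 < D) (hB : InjGE e D) (p : M) :
    (1 - pw F hD hB p).Supp (bl p D) := by
  refine ⟨fun {V} _ _ _ {u x} hu => ?_⟩
  have h1 : ∀ᶠ y in 𝓝 x, ContMDiffAt 𝓘(ℝ, V) 𝓘(ℝ, E) ∞ u y := hu
  have hc : ContinuousAt (fun y => dist p (u y)) x :=
    continuousAt_const.dist h1.self_of_nhds.continuousAt
  by_cases hx : dist p (u x) < D
  · left
    exact hc.eventually (gt_mem_nhds hx)
  · right
    have h2 : D ≤ dist p (u x) := not_lt.1 hx
    have h3 : ∀ᶠ y in 𝓝 x, 2 / 3 < dist p (u y) / D := by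
      refine (hc.div_const D).eventually (lt_mem_nhds ?_)
      show 2 / 3 < dist p (u x) / D
      rw [lt_div_iff₀ hD]
      linarith
    filter_upwards [h3, (dM E M).open' hu] with y hy hu'
    rw [Form.sub_val, Form.one_val hu', pw, Form.fn_val _ _ hu', Form.prf_one hy.le, map_one,
      sub_self]

variable [CompactSpace M] [ConnectedSpace M] [IsRiemannianManifold 𝓘(ℝ, E) M]

/-- the primitive on the complement of `p` -/
theorem exact_pc (F : Facts e) {D : ℝ} (hD : 0 < D) (hB : InjGE e D)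
    (hdiam : ∀ p q : M, dist p q ≤ D) {l : ℕ}
    (hl : ∀ x y : M, dist x y = D → finrank ℝ (Pl e D x y) = l + 1) (p : M)
    {w : Form (dM E M)} (hw : w.d = 0) {γ : Form (dC e D p)}
    (hγ : Form.pull id (map_dC F D p) w = γ.d) :
    ∃ κ : Form ((dM E M).on (pc p)), κ.d = Form.res (pc p) w := by
  have hcM : ((dM E M).on (pc p)).Map (dM E M) (cutPt e D p) :=
    Dif.Map.comp (map_dC F D p) (map_cut F hD hB hdiam hl p)
  have h1 := Form.pull_homotopic (D := dM E M) (O := pc p) (D' := dM E M) (H := Rt e D p)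
    (map_Rt F hD hB hdiam hl p) (f := id) (g := cutPt e D p) Dif.map_on hcM
    (fun x hx => Rt_one F hB hx) (fun x _ => Rt_zero F) hw
  refine ⟨Form.pull (cutPt e D p) (map_cut F hD hB hdiam hl p) γ +
    Form.K (Form.pull (Rt e D p) (map_Rt F hD hB hdiam hl p) w), ?_⟩
  have h2 : Form.pull (cutPt e D p) hcM w =
      Form.pull (cutPt e D p) (map_cut F hD hB hdiam hl p)
        (Form.pull id (map_dC F D p) w) :=
    (Form.pull2_one (f := cutPt e D p) (g := id) (g' := cutPt e D p) _ _ _ (fun _ => rfl) w).symm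
  rw [Form.d_add, ← h1, ← Form.pull_d, ← hγ, ← h2]
  have h3 : Form.res (pc p) w = Form.pull id Dif.map_on w := rfl
  rw [h3]
  abel

/-- **(M3)** a closed form on `M` of degree `0 < j < dim M` which is exact on the cut locus of `p`
is exact -/
theorem exact_of_cut (F : Facts e) {D : ℝ} (hD : 0 < D) (hB : InjGE e D)
    (hdiam : ∀ p q : M, dist p q ≤ D) {l : ℕ}
    (hl : ∀ x y : M, dist x y = D → finrank ℝ (Pl e D x y) = l + 1) (p : M) {j : ℕ}
    (h0 : 0 < j) (hj : j < finrank ℝ E) {w : Form (dM E M)} (hw : w.d = 0)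
    (hwj : Form.IsDeg j w) {γ : Form (dC e D p)}
    (hγ : Form.pull id (map_dC F D p) w = γ.d) :
    ∃ Γ : Form (dM E M), w = Γ.d := by
  obtain ⟨i, rfl⟩ := Nat.exists_eq_succ_of_ne_zero h0.ne'
  -- the two primitives
  obtain ⟨κ₀, hκ₀⟩ := (contr_ball F hD hB p).exact (w := Form.res (bl p D) w) (k := i)
    (by rw [Form.res_d, hw, Form.res_zero]) (hwj.pull _ _)
  obtain ⟨κ₁, hκ₁⟩ := exact_pc F hD hB hdiam hl p hw hγ
  have e0 : (Form.part i κ₀).d = Form.res (bl p D) w := by
    rw [← Form.part_succ_d, ← hκ₀]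
    exact (hwj.pull _ _ : Form.IsDeg (i + 1) (Form.res (bl p D) w))
  have e1 : (Form.part i κ₁).d = Form.res (pc p) w := by
    rw [← Form.part_succ_d, hκ₁]
    exact (hwj.pull _ _ : Form.IsDeg (i + 1) (Form.res (pc p) w))
  -- the difference on the punctured ball
  have i0 : bl p D ∩ pc p ⊆ bl p D := inter_subset_left
  have i1 : bl p D ∩ pc p ⊆ pc p := inter_subset_right
  have r0 : Form.pull id (Dif.map_on_mono i0) (Form.res (bl p D) w) =
      Form.res (bl p D ∩ pc p) w :=
    Form.pull2_one (f := id) (g := id) (g' := id) _ _ _ (fun _ => rfl) w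
  have r1 : Form.pull id (Dif.map_on_mono i1) (Form.res (pc p) w) =
      Form.res (bl p D ∩ pc p) w :=
    Form.pull2_one (f := id) (g := id) (g' := id) _ _ _ (fun _ => rfl) w
  obtain ⟨c, ν, hν, -⟩ := punct F hD hB p (j := i) (by omega)
    (σ := Form.pull id (Dif.map_on_mono i1) (Form.part i κ₁) -
      Form.pull id (Dif.map_on_mono i0) (Form.part i κ₀))
    (by rw [Form.d_sub, ← Form.pull_d, ← Form.pull_d, e0, e1, r0, r1, sub_self])
    (by
      have k0 : Form.IsDeg i (Form.pull id (Dif.map_on_mono i0) (Form.part i κ₀)) :=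
        (Form.isDeg_part i κ₀).pull _ _
      have k1 : Form.IsDeg i (Form.pull id (Dif.map_on_mono i1) (Form.part i κ₁)) :=
        (Form.isDeg_part i κ₁).pull _ _
      exact k1.sub k0)
  have hs : (pw F hD hB p).sg = pw F hD hB p := Form.sg_fn _ _
  have h1 := supp_pw F hD hB p
  have h2 := supp_one_sub_pw F hD hB p
  -- the sets in the order of the partition
  have hcomm : pc p ∩ bl p D = bl p D ∩ pc p := inter_comm _ _
  have hm : ((dM E M).on (pc p ∩ bl p D)).Map ((dM E M).on (bl p D ∩ pc p)) id := by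
    rw [hcomm]
    exact Dif.map_id
  refine ⟨Form.mx _ h1 (Form.part i κ₁) +
      Form.mx _ h2 (Form.part i κ₀ + c • (1 : Form ((dM E M).on (bl p D)))) +
      Form.mx _ (Form.supp_d_inter h1 h2) (Form.pull id hm ν), ?_⟩
  refine (Form.d_mv hs h1 h2 _ _ _ e1 ?_ ?_).symm
  · rw [Form.d_add, e0, Form.d_smul, Form.d_one, smul_zero, add_zero]
  · have k1 : Form.pull id hm (Form.pull id (Dif.map_on_mono i1) (Form.part i κ₁)) =
        Form.pull id (Dif.map_on_mono inter_subset_left) (Form.part i κ₁) :=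
      Form.pull2_one (f := id) (g := id) (g' := id) _ _ _ (fun _ => rfl) _
    have k0 : Form.pull id hm (Form.pull id (Dif.map_on_mono i0) (Form.part i κ₀)) =
        Form.pull id (Dif.map_on_mono inter_subset_right) (Form.part i κ₀) :=
      Form.pull2_one (f := id) (g := id) (g' := id) _ _ _ (fun _ => rfl) _
    have hν' : ν.d = Form.pull id (Dif.map_on_mono i1) (Form.part i κ₁) -
      Form.pull id (Dif.map_on_mono i0) (Form.part i κ₀) -
        c • (1 : Form ((dM E M).on (bl p D ∩ pc p))) := by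
      rw [hν]
      abel
    rw [← Form.pull_d, hν', Form.pull_sub', Form.pull_sub', k1, k0, Form.pull_add']
    have m1 := map_smul (Form.pullA id hm) c (1 : Form ((dM E M).on (bl p D ∩ pc p)))
    rw [map_one] at m1
    have m2 := map_smul (Form.pullA id (Dif.map_on_mono (D := dM E M)
      (inter_subset_right : pc p ∩ bl p D ⊆ bl p D))) c (1 : Form ((dM E M).on (bl p D)))
    rw [map_one] at m2
    have m1' : Form.pull id hm (c • (1 : Form ((dM E M).on (bl p D ∩ pc p)))) = c • 1 := m1
    have m2' : Form.pull id (Dif.map_on_mono (D := dM E M)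
      (inter_subset_right : pc p ∩ bl p D ⊆ bl p D)) (c • (1 : Form ((dM E M).on (bl p D)))) =
        c • 1 := m2
    rw [m1', m2']
    abel

/-- **(M3)**, with a primitive on the unit sphere at `p` which is basic for `u ↦ exp (D u)` -/
theorem exact_of_bas (F : Facts e) {D : ℝ} (hD : 0 < D) (hB : InjGE e D)
    (hdiam : ∀ p q : M, dist p q ≤ D) {l : ℕ}
    (hl : ∀ x y : M, dist x y = D → finrank ℝ (Pl e D x y) = l + 1) (p : M) {j : ℕ}
    (h0 : 0 < j) (hj : j < finrank ℝ E) {w : Form (dM E M)} (hw : w.d = 0)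
    (hwj : Form.IsDeg j w) {γ : Form ((dUT E M).on (up p))} (hbas : Form.IsBas (bar e D) γ)
    (hγ : Form.pull (bar e D) (Dif.Map.on (map_bar F D) (up p)) w = γ.d) :
    ∃ Γ : Form (dM E M), w = Γ.d := by
  refine exact_of_cut F hD hB hdiam hl p h0 hj hw hwj (γ := Form.desc (bar e D) γ hbas) ?_
  refine Form.pull_quot_inj (D := (dUT E M).on (up p)) (q := bar e D) ?_
  have hq : ((dUT E M).on (up p)).Map (((dUT E M).on (up p)).quot (bar e D)) (bar e D) :=
    Dif.map_quot
  have k1 : Form.pull (bar e D) hq (Form.desc (bar e D) γ hbas).d =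
      (Form.pull (bar e D) hq (Form.desc (bar e D) γ hbas)).d := Form.pull_d _ _ _
  have k2 : Form.pull (bar e D) hq (Form.desc (bar e D) γ hbas) = γ := Form.pull_desc hbas
  refine Eq.trans ?_ (k1.trans (congrArg Form.d k2)).symm
  rw [← hγ]
  exact Form.pull2_one (f := bar e D) (g := id) (g' := bar e D) _ _ _ (fun _ => rfl) w

end

end Vale.Agent.P231.CoC
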