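import Vale.Agent.P231.Co.Hom
import Vale.Agent.P231.WE.F

/-!
# P231, stage 2 tools (M3), geometry: the ball is contractible, `M ∖ {p}` retracts to the cut
locus of `p`, polar coordinates of the punctured ball
-/

set_option maxSynthPendingDepth 3
set_option linter.unusedSectionVars false
set_option linter.unusedVariables false

open Bundle Manifold Set Filter Module
open scoped ContDiff Manifold Topology

namespace Vale.Agent.P231.CoC

noncomputable section

open Vale.Agent.P234 Vale.Agent.P231 Vale.Agent.P231.Fm Vale.Agent.P231.W Vale.Agent.P231.H775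
open Vale.Agent.P231.WE

variable {E : Type*} [NormedAddCommGroup E] [NormedSpace ℝ E] [FiniteDimensional ℝ E]
  {M : Type*} [MetricSpace M] [ChartedSpace E M] [IsManifold 𝓘(ℝ, E) ∞ M]
  [RiemannianBundle (fun x : M => TangentSpace 𝓘(ℝ, E) x)]
  [IsContMDiffRiemannianBundle 𝓘(ℝ, E) ∞ E (fun x : M => TangentSpace 𝓘(ℝ, E) x)]
  {e : ∀ x : M, TangentSpace 𝓘(ℝ, E) x → M}

/-- the open ball -/
def bl (p : M) (D : ℝ) : Set M := {x | dist p x < D}

/-- the complement of a point -/
def pc (p : M) : Set M := {x | x ≠ p}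

/-- the time profile -/
abbrev tau (t : ℝ) : ℝ := Real.smoothTransition t

theorem contDiff_tau : ContDiff ℝ ∞ tau := Real.smoothTransition.contDiff

theorem tau_zero : tau 0 = 0 := Real.smoothTransition.zero

theorem tau_one : tau 1 = 1 := Real.smoothTransition.one

theorem tau_nonneg (t : ℝ) : 0 ≤ tau t := Real.smoothTransition.nonneg t

theorem tau_le_one (t : ℝ) : tau t ≤ 1 := Real.smoothTransition.le_one t

theorem sm_tau {V : Type*} [NormedAddCommGroup V] [NormedSpace ℝ V] {f : V → ℝ} {x : V}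
    (h : Sm f x) : Sm (fun y => tau (f y)) x := by
  filter_upwards [h] with y hy
  exact contDiff_tau.contDiffAt.comp y hy

/-! ### the interval -/

theorem contr_Ioo {D : ℝ} (hD : 0 < D) : Form.Contr (Dif.lin ℝ) (Ioo 0 D) := by
  refine ⟨fun p : ℝ × ℝ => D / 2 + tau p.2 * (p.1 - D / 2), D / 2, ?_, ?_, ?_, ?_, ?_⟩
  · intro V _ _ _ u x h
    have h1 : Sm (fun y => (u y).1) x := h.1.1
    have h2 : ∀ᶠ y in 𝓝 x, (u y).1 ∈ Ioo 0 D := h.1.2
    have h3 : Sm (fun y => (u y).2) x := h.2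
    refine ⟨?_, ?_⟩
    · have h4 : Sm (fun y => D / 2 + tau (u y).2 * ((u y).1 - D / 2)) x := by
        filter_upwards [h1, sm_tau h3] with y k1 k2
        exact contDiffAt_const.add (k2.mul (k1.sub contDiffAt_const))
      exact h4
    · filter_upwards [h2] with y hy
      have k1 := tau_nonneg (u y).2
      have k2 := tau_le_one (u y).2
      have k3 : 0 < (u y).1 := hy.1
      have k4 : (u y).1 < D := hy.2
      constructor
      · show 0 < D / 2 + tau (u y).2 * ((u y).1 - D / 2)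
        nlinarith
      · show D / 2 + tau (u y).2 * ((u y).1 - D / 2) < D
        nlinarith
  · exact ⟨by linarith, by linarith⟩
  · intro V _ _ _ u x h
    refine ⟨Sm.of_contDiff contDiff_const _, Eventually.of_forall fun y => ?_⟩
    show D / 2 ∈ Ioo 0 D
    exact ⟨by linarith, by linarith⟩
  · intro x hx
    show D / 2 + tau 1 * (x - D / 2) = x
    rw [tau_one]
    ring
  · intro x hx
    show D / 2 + tau 0 * (x - D / 2) = D / 2
    rw [tau_zero]
    ring

/-! ### the ball -/

theorem contr_ball (F : Facts e) {D : ℝ} (hD : 0 < D) (hB : InjGE e D) (p : M) :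
    Form.Contr (dM E M) (bl p D) := by
  refine ⟨fun q : M × ℝ => e p (tau q.2 • logMap e p q.1), p, ?_, ?_, ?_, ?_, ?_⟩
  · intro V _ _ _ u x h
    have h1 : ∀ᶠ y in 𝓝 x, ContMDiffAt 𝓘(ℝ, V) 𝓘(ℝ, E) ∞ (fun s => (u s).1) y := h.1.1
    have h2 : ∀ᶠ y in 𝓝 x, dist p (u y).1 < D := h.1.2
    have h3 : Sm (fun y => (u y).2) x := h.2
    refine ⟨?_, ?_⟩
    · have h4 : Sm (fun y => tau (u y).2 • logMap e p (u y).1) x := by
        filter_upwards [h1, h2, sm_tau h3] with y k1 k2 k3
        have k4 : ContDiffAt ℝ ∞ (fun y => logMap e p (u y).1) y :=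
          (ContMDiffAt.comp (f := fun s => (u s).1) y
            (contMDiffAt_logMap_of_dist F hB k2) k1).contDiffAt
        exact k3.smul k4
      have h5 : ∀ᶠ y in 𝓝 x, ContMDiffAt 𝓘(ℝ, V) 𝓘(ℝ, E) ∞
          (fun y => e p (tau (u y).2 • logMap e p (u y).1)) y := by
        filter_upwards [h4] with y hy
        exact (contMDiff_exp_fiber F.isExp p).contMDiffAt.comp y hy.contMDiffAt
      exact h5
    · filter_upwards [h2] with y hy
      have k1 := tau_nonneg (u y).2
      have k2 := tau_le_one (u y).2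
      have k3 := (exp_logMap F hB hy).2
      have k4 : ‖tau (u y).2 • logMap e p (u y).1‖ < D := by
        rw [norm_smul, Real.norm_of_nonneg k1, k3]
        have : tau (u y).2 * dist p (u y).1 ≤ 1 * dist p (u y).1 :=
          mul_le_mul_of_nonneg_right k2 dist_nonneg
        linarith
      show dist p (e p (tau (u y).2 • logMap e p (u y).1)) < D
      rw [hB p _ k4.le]
      exact k4
  · show dist p p < D
    rwa [dist_self]
  · intro V _ _ _ u x h
    have h5 : ∀ᶠ y in 𝓝 x, ContMDiffAt 𝓘(ℝ, V) 𝓘(ℝ, E) ∞ (fun _ : V => p) y :=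
      Eventually.of_forall fun y => contMDiffAt_const
    refine ⟨h5, Eventually.of_forall fun y => ?_⟩
    show dist p p < D
    rwa [dist_self]
  · intro x hx
    show e p (tau 1 • logMap e p x) = x
    rw [tau_one, one_smul]
    exact (exp_logMap F hB hx).1
  · intro x hx
    show e p (tau 0 • logMap e p x) = p
    rw [tau_zero, zero_smul]
    exact exp_zero_eq F.isExp p

/-! ### polar coordinates of the punctured ball -/

/-- the frame at `p` as a linear isometry -/
def fI (p : M) : Eu E ≃ₗᵢ[ℝ] TangentSpace 𝓘(ℝ, E) p where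
  toLinearEquiv :=
    { toFun := fun a => (fr (E := E) p a : E)
      map_add' := fun a b => (fr (E := E) p).map_add a b
      map_smul' := fun c a => (fr (E := E) p).map_smul c a
      invFun := fun v => (fr (E := E) p).symm v
      left_inv := fun a => (fr (E := E) p).symm_apply_apply a
      right_inv := fun a => (fr (E := E) p).apply_symm_apply a }
  norm_map' := fun a => nm_fr p a

/-- from polar coordinates to the manifold -/
def pol (e : ∀ x : M, TangentSpace 𝓘(ℝ, E) x → M) (p : M) (q : ℝ × Eu E) : M :=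
  e p (q.1 • fI (E := E) p q.2)

/-- the polar coordinates -/
def lop (e : ∀ x : M, TangentSpace 𝓘(ℝ, E) x → M) (p : M) (x : M) : ℝ × Eu E :=
  (dist p x, (fI (E := E) p).symm (dirAt e p x))

theorem dist_pol {D : ℝ} (hB : InjGE e D) {p : M} {s : ℝ} {ξ : Eu E} (hs : s ∈ Ioo 0 D)
    (hξ : ‖ξ‖ = 1) : dist p (pol e p (s, ξ)) = s := by
  have h1 : ‖s • fI (E := E) p ξ‖ = s := by
    rw [norm_smul, LinearIsometryEquiv.norm_map, hξ, mul_one, Real.norm_of_nonneg hs.1.le]
  have h2 := hB p (s • fI (E := E) p ξ) (h1.le.trans hs.2.le)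
  exact h2.trans h1

theorem map_pol (F : Facts e) {D : ℝ} (hB : InjGE e D) (p : M) :
    (Co.SB ((Dif.lin ℝ).on (Ioo 0 D)) (Eu E)).Map ((dM E M).on (bl p D ∩ pc p)) (pol e p) := by
  intro V _ _ _ u x h
  have h1 : Sm (fun y => (u y).1) x := h.1.1.1
  have h2 : ∀ᶠ y in 𝓝 x, (u y).1 ∈ Ioo 0 D := h.1.1.2
  have h3 : Sm (fun y => (u y).2) x := h.1.2
  have h4 : ∀ᶠ y in 𝓝 x, ‖(u y).2‖ = 1 := h.2
  refine ⟨?_, ?_⟩
  · have h5 : ∀ᶠ y in 𝓝 x, ContMDiffAt 𝓘(ℝ, V) 𝓘(ℝ, E) ∞ (fun y => pol e p (u y)) y := by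
      filter_upwards [h1, h3] with y k1 k3
      have k5 : ContDiffAt ℝ ∞ (fun y => (u y).1 • fI (E := E) p (u y).2) y :=
        k1.smul ((fI (E := E) p).contDiff.contDiffAt.comp y k3)
      exact (contMDiff_exp_fiber F.isExp p).contMDiffAt.comp y k5.contMDiffAt
    exact h5
  · filter_upwards [h2, h4] with y k2 k4
    have k5 : dist p (pol e p (u y)) = (u y).1 := dist_pol hB k2 k4
    refine ⟨?_, ?_⟩
    · show dist p (pol e p (u y)) < D
      rw [k5]
      exact k2.2
    · intro k6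
      have k7 : pol e p (u y) = p := k6
      rw [k7, dist_self] at k5
      exact absurd k2.1 (by rw [← k5]; exact lt_irrefl _)

theorem map_lop (F : Facts e) {D : ℝ} (hB : InjGE e D) (p : M) :
    ((dM E M).on (bl p D ∩ pc p)).Map (Co.SB ((Dif.lin ℝ).on (Ioo 0 D)) (Eu E)) (lop e p) := by
  intro V _ _ _ u x h
  have h1 : ∀ᶠ y in 𝓝 x, ContMDiffAt 𝓘(ℝ, V) 𝓘(ℝ, E) ∞ u y := h.1
  have h2 : ∀ᶠ y in 𝓝 x, dist p (u y) < D ∧ u y ≠ p := h.2
  have h3 : Sm (fun y => dist p (u y)) x := by
    filter_upwards [h1, h2] with y k1 k2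
    exact ((contMDiffAt_dist F hB k2.1 k2.2).comp y k1).contDiffAt
  have h4 : Sm (fun y => (fI (E := E) p).symm (dirAt e p (u y))) x := by
    filter_upwards [h1, h2] with y k1 k2
    have k3 : ContDiffAt ℝ ∞ (fun y => dirAt e p (u y)) y :=
      ((contMDiffAt_dirAt F hB k2.1 k2.2).comp y k1).contDiffAt
    exact (fI (E := E) p).symm.contDiff.contDiffAt.comp y k3
  refine ⟨⟨⟨h3, ?_⟩, h4⟩, ?_⟩
  · filter_upwards [h2] with y k2
    exact ⟨dist_pos.2 k2.2.symm, k2.1⟩
  · filter_upwards [h2] with y k2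
    show ‖(fI (E := E) p).symm (dirAt e p (u y))‖ = 1
    rw [LinearIsometryEquiv.norm_map]
    exact norm_dirAt F hB k2.1 k2.2

theorem pol_lop (F : Facts e) {D : ℝ} (hB : InjGE e D) {p x : M} (hx : x ∈ bl p D ∩ pc p) :
    pol e p (lop e p x) = x := by
  have h1 := exp_smul_dirAt F hB hx.1 hx.2
  have h3 : pol e p (lop e p x) =
      e p (dist p x • fI (E := E) p ((fI (E := E) p).symm (dirAt e p x))) := rfl
  rw [h3, LinearIsometryEquiv.apply_symm_apply]
  exact h1

/-- **the cohomology of the punctured ball below the dimension of the sphere** -/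
theorem punct (F : Facts e) {D : ℝ} (hD : 0 < D) (hB : InjGE e D) (p : M) {j : ℕ}
    (hj : j + 1 < finrank ℝ E) {σ : Form ((dM E M).on (bl p D ∩ pc p))} (hσ : σ.d = 0)
    (hσj : Form.IsDeg j σ) : ∃ (c : ℝ) (ν : Form ((dM E M).on (bl p D ∩ pc p))),
      σ = c • (1 : Form ((dM E M).on (bl p D ∩ pc p))) + ν.d ∧ (0 < j → c = 0) := by
  obtain ⟨a, κ, ha, haj, he, -, -⟩ := Co.sph_low (D := (Dif.lin ℝ).on (Ioo 0 D))
    (EuclideanSpace.basisFun (Fin (finrank ℝ E)) ℝ) (hσj.pull (pol e p) (map_pol F hB p)) hj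
    (by rw [← Form.pull_d, hσ, Form.pull_zero'])
  have hpb : σ = Form.pull (lop e p) (map_lop F hB p)
      (Form.pull (pol e p) (map_pol F hB p) σ) := by
    refine Form.ext_val fun V _ _ _ u x hu => ?_
    rw [Form.pull_val _ _ hu, Form.pull_val _ _ (map_lop F hB p hu)]
    refine σ.congr hu ?_
    filter_upwards [hu.2] with y hy
    exact (pol_lop F hB hy).symm
  have hc := contr_Ioo hD
  rcases Nat.eq_zero_or_pos j with h0 | h0
  · subst h0
    obtain ⟨c, hc⟩ := hc.const ha haj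
    refine ⟨c, Form.pull (lop e p) (map_lop F hB p) κ, ?_, fun h => absurd h (lt_irrefl 0)⟩
    rw [hpb, he, hc, Form.pull_add', ← Form.pull_d]
    congr 1
    have h1 : (Co.pS (c • (1 : Form ((Dif.lin ℝ).on (Ioo 0 D)))) :
        Form (Co.SB ((Dif.lin ℝ).on (Ioo 0 D)) (Eu E))) = c • 1 := by
      have h2 := map_smul (Form.pullA Prod.fst
        (Co.map_sbfst (D := (Dif.lin ℝ).on (Ioo 0 D)) (F := Eu E))) c 1
      rw [map_one] at h2
      exact h2
    have h3 := map_smul (Form.pullA (lop e p) (map_lop F hB p)) c 1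
    rw [map_one] at h3
    rw [h1]
    exact h3
  · obtain ⟨i, rfl⟩ := Nat.exists_eq_succ_of_ne_zero h0.ne'
    obtain ⟨b, hb⟩ := hc.exact ha haj
    refine ⟨0, Form.pull (lop e p) (map_lop F hB p) (Co.pS b + κ), ?_, fun _ => rfl⟩
    rw [zero_smul, zero_add, ← Form.pull_d, Form.d_add]
    have h1 : (Co.pS b : Form (Co.SB ((Dif.lin ℝ).on (Ioo 0 D)) (Eu E))).d = Co.pS a := by
      rw [Co.pS, ← Form.pull_d, ← hb]
      rfl
    rw [h1, ← he]
    exact hpb

end

end Vale.Agent.P231.CoC
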