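import Vale.Agent.P231.Co.SI
import Vale.Agent.P231.Co.RelC

/-!
# P231, stage 2 tools (M4), formal part: the base of a sphere bundle whose total space is a
cohomology sphere
-/

set_option linter.unusedSectionVars false
set_option linter.unusedVariables false

open MeasureTheory Set Module Filter Topology
open scoped ContDiff

namespace Vale.Agent.P231.Co

open Vale.Agent.P231.Fm Vale.Agent.P231.W Vale.Agent.P231.H584
open Vale.Agent.P231.Fm (Sm Dif Form Lam)

variable {B S Fr : Type*} {DB : Dif B} {DS : Dif S} {DF : Dif Fr}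
variable {F : Type} [NormedAddCommGroup F] [InnerProductSpace ℝ F] [FiniteDimensional ℝ F]
  {π : S → B} {q : Fr → B} {ev : Fr × F → S}
  [MeasurableSpace F] [BorelSpace F] {m : ℕ}

namespace Bun

theorem one_pull {X Y : Type*} {D : Dif X} {D' : Dif Y} {f : X → Y} (hf : D.Map D' f) :
    Form.pull f hf (1 : Form D') = 1 := map_one (Form.pullA f hf)

theorem smul_one_pull {X Y : Type*} {D : Dif X} {D' : Dif Y} {f : X → Y} (hf : D.Map D' f)
    (c : ℝ) : Form.pull f hf (c • (1 : Form D')) = c • 1 := by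
  rw [pull_smul, one_pull]

/-- forms of degree `0` on the base -/
theorem h0_base (h : Bun DB DS DF F π q ev) (o : OrthonormalBasis (Fin m) ℝ F) (hm : 0 < m)
    (hS : ∀ σ : Form DS, Form.IsDeg 0 σ → σ.d = 0 → ∃ c : ℝ, σ = c • (1 : Form DS))
    {w : Form DB} (hw : w.d = 0) (hwj : Form.IsDeg 0 w) : ∃ c : ℝ, w = c • (1 : Form DB) := by
  obtain ⟨c, hc⟩ := hS (Form.pull π h.hπ w) (hwj.pull _ _) (by
    rw [← Form.pull_d, hw, Form.pull_zero'])
  refine ⟨c, h.pull_π_inj o hm ?_⟩
  rw [hc, smul_one_pull]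

/-- the fibre integral of a form of the base -/
theorem SI_pull (h : Bun DB DS DF F π q ev) (o : OrthonormalBasis (Fin m) ℝ F) (hm : 1 < m)
    (a : Form DB) : h.SI o (Form.pull π h.hπ a) = 0 := by
  have h1 := h.SI_π_mul o a 1
  rw [mul_one, h.SI_eq_zero o Form.IsDeg.one (by omega), mul_zero] at h1
  exact h1

theorem isDeg_sg {X : Type*} {D : Dif X} {k : ℕ} {a : Form D} (h : Form.IsDeg k a) :
    Form.IsDeg k a.sg := by
  show Form.part k a.sg = a.sg
  rw [Form.part_sg, h.part_eq]

/-- `sg` up to sign on homogeneous forms -/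
theorem sgi_eq {X : Type*} {D : Dif X} {k : ℕ} {a : Form D} (h : Form.IsDeg k a) (n : ℕ) :
    ∃ s : ℝ, s ≠ 0 ∧ Form.sg^[n] a = s • a := by
  induction n with
  | zero => exact ⟨1, one_ne_zero, (one_smul ℝ a).symm⟩
  | succ n ih =>
    obtain ⟨s, hs, h1⟩ := ih
    refine ⟨s * (-1) ^ k, mul_ne_zero hs (pow_ne_zero _ (by norm_num)), ?_⟩
    rw [Function.iterate_succ_apply', h1, Form.sg_smul, mul_smul]
    congr 1
    refine Form.ext_val fun E _ _ _ u x hu => ?_
    have h2 : WA.prt k (a.val u x) = a.val u x := by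
      rw [← Form.part_val, h.part_eq]
    rw [Form.sg_val, Form.smul_val]
    conv_lhs => rw [← h2]
    rw [show (Fm.inv (WA.prt k (a.val u x))) = (-1 : ℝ) ^ k • WA.prt k (a.val u x) from
      WA.inv_prt k _, h2]

/-- **(M4)** the cohomology of the base of a sphere bundle with angular form `ψ`, `dψ = -π^* e`,
whose total space is a cohomology sphere of dimension at least `n₀` -/
theorem base_cohom (h : Bun DB DS DF F π q ev) (o : OrthonormalBasis (Fin m) ℝ F) (hm : 1 < m)
    {ψ : Form DS} {e : Form DB} (hψ : h.Ang o ψ e) {n₀ : ℕ}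
    (hS0 : ∀ σ : Form DS, Form.IsDeg 0 σ → σ.d = 0 → ∃ c : ℝ, σ = c • (1 : Form DS))
    (hS : ∀ (j : ℕ) (σ : Form DS), 0 < j → j < n₀ → Form.IsDeg j σ → σ.d = 0 →
      ∃ η : Form DS, σ = η.d) (j : ℕ) :
    ∀ w : Form DB, j < n₀ → w.d = 0 → Form.IsDeg j w →
      ∃ (c : ℝ) (γ : Form DB), w = c • e ^ (j / m) + γ.d ∧ (¬ m ∣ j → c = 0) := by
  have hed : e.d = 0 := hψ.ed h o (by omega)
  induction j using Nat.strong_induction_on with
  | _ j ih =>
    intro w hj hw hwj
    rcases Nat.eq_zero_or_pos j with h0 | h0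
    · subst h0
      obtain ⟨c, hc⟩ := h0_base h o (by omega) hS0 hw hwj
      refine ⟨c, 0, ?_, fun hh => absurd (dvd_zero m) hh⟩
      rw [Nat.zero_div, pow_zero, Form.d_zero, add_zero]
      exact hc
    · obtain ⟨η₀, hη₀⟩ := hS j (Form.pull π h.hπ w) h0 hj (hwj.pull _ _) (by
        rw [← Form.pull_d, hw, Form.pull_zero'])
      obtain ⟨i, rfl⟩ := Nat.exists_eq_succ_of_ne_zero h0.ne'
      -- a homogeneous primitive
      set η := Form.part i η₀ with hη
      have hηd : Form.pull π h.hπ w = η.d := by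
        rw [hη, ← Form.part_succ_d, ← hη₀]
        exact ((hwj.pull π h.hπ : Form.IsDeg (i + 1) (Form.pull π h.hπ w))).symm
      have hηi : Form.IsDeg i η := Form.isDeg_part i η₀
      have g1 := h.gysin1 o hψ hηd
      obtain ⟨s, hs, hsw⟩ := sgi_eq hwj (m + 1)
      rw [hsw] at g1
      have hw1 : w = s⁻¹ • (h.SI o η.sg * e) + (s⁻¹ • (-1 : ℝ) ^ (m + 1) • h.SI o (η * ψ)).d := by
        rw [Form.d_smul, Form.d_smul, ← smul_add, ← g1, smul_smul, inv_mul_cancel₀ hs, one_smul]
      by_cases hlt : i + 1 < m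
      · -- below the fibre dimension
        have h2 : h.SI o η.sg = 0 := h.SI_eq_zero o (isDeg_sg hηi) hlt
        refine ⟨0, s⁻¹ • (-1 : ℝ) ^ (m + 1) • h.SI o (η * ψ), ?_, fun _ => rfl⟩
        rw [zero_smul, zero_add]
        rw [h2, zero_mul, smul_zero, zero_add] at hw1
        exact hw1
      · obtain ⟨k, hk⟩ : ∃ k, i + 1 = k + m := ⟨i + 1 - m, by omega⟩
        have h3 : Form.IsDeg k (h.SI o η.sg) := h.isDeg_SI o (isDeg_sg hηi) hk
        have h4 : (h.SI o η.sg).d = 0 := by
          have h5 := h.SI_d o η.sg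
          rw [Form.d_sg, ← hηd, ← Form.pull_sg] at h5
          have h6 : -(Form.pull π h.hπ w.sg) = Form.pull π h.hπ (-w.sg) :=
            (Form.pull_neg' π h.hπ _).symm
          rw [h6, SI_pull h o hm] at h5
          exact (smul_eq_zero.1 h5.symm).resolve_left (pow_ne_zero _ (by norm_num))
        obtain ⟨c, γ, hc, hc0⟩ := ih k (by omega) (h.SI o η.sg) (by omega) h4 h3
        refine ⟨s⁻¹ * c, s⁻¹ • (γ * e) + s⁻¹ • (-1 : ℝ) ^ (m + 1) • h.SI o (η * ψ), ?_, ?_⟩
        · have h7 : (i + 1) / m = k / m + 1 := by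
            rw [hk, Nat.add_div_right k (by omega)]
          have h8 : (γ * e).d = γ.d * e := by rw [Form.d_mul, hed, mul_zero, add_zero]
          rw [Form.d_add, Form.d_smul s⁻¹ (γ * e), h8, ← add_assoc, mul_smul, ← smul_add,
            Nat.succ_eq_add_one, h7, pow_succ, ← smul_mul_assoc, ← add_mul, ← hc]
          exact hw1
        · intro hh
          have h9 : ¬ m ∣ k := by
            intro h10
            apply hh
            rw [Nat.succ_eq_add_one, hk]
            exact (Nat.dvd_add_right h10).2 dvd_rfl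
          rw [hc0 h9, mul_zero]

end Bun

end Vale.Agent.P231.Co
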