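import Vale.Agent.P231.Co.M3
import Vale.Agent.P231.Co.M4
import Vale.Agent.P231.Co.M2

/-!
# P231, stage 2 tools (M4), (M5): the cohomology of `M`, of the unit tangent bundle and of a sphere
bundle over it, below the dimension of `M`
-/

set_option maxSynthPendingDepth 3
set_option linter.unusedSectionVars false
set_option linter.unusedVariables false

open Bundle Manifold Set Filter Module
open scoped ContDiff Manifold Topology

namespace Vale.Agent.P231.CoC

noncomputable section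

open Vale.Agent.P234 Vale.Agent.P231 Vale.Agent.P231.Fm Vale.Agent.P231.W Vale.Agent.P231.H775
open Vale.Agent.P231.WE

variable {E : Type*} [NormedAddCommGroup E] [NormedSpace ℝ E] [FiniteDimensional ℝ E]
  {M : Type*} [MetricSpace M] [ChartedSpace E M] [IsManifold 𝓘(ℝ, E) ∞ M]
  [RiemannianBundle (fun x : M => TangentSpace 𝓘(ℝ, E) x)]
  [IsContMDiffRiemannianBundle 𝓘(ℝ, E) ∞ E (fun x : M => TangentSpace 𝓘(ℝ, E) x)]
  {e : ∀ x : M, TangentSpace 𝓘(ℝ, E) x → M}
  [CompactSpace M] [ConnectedSpace M] [IsRiemannianManifold 𝓘(ℝ, E) M]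

/-! ### the unit sphere at a point -/

/-- the point at distance `D / 2` -/
def fw (e : ∀ x : M, TangentSpace 𝓘(ℝ, E) x → M) (D : ℝ) (v : UT E M) : M := gm e (v, D / 2)

theorem map_fw (F : Facts e) {D : ℝ} (hD : 0 < D) (hB : InjGE e D) (p : M) :
    ((dUT E M).on (up p)).Map ((dM E M).on (bl p D ∩ pc p)) (fw e D) := by
  intro V _ _ _ u x h
  have h1 : ((dUT E M).prod (Dif.lin ℝ)).At (fun y => (u y, D / 2)) x :=
    ⟨h.1, Sm.of_contDiff contDiff_const _⟩
  refine ⟨map_gm F h1, ?_⟩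
  filter_upwards [h.2] with y hy
  have hy' : foot (u y) = p := hy
  have hd : dist (foot (u y)) (fw e D (u y)) = D / 2 := by
    have h2 := nm_smul (E := E) (foot (u y)) (vec' (u y)) (D / 2)
    rw [nm_vec' (u y), mul_one, abs_of_pos (by linarith : 0 < D / 2)] at h2
    have h3 := hB (foot (u y)) ((D / 2) • vec' (u y) : E) (h2.le.trans (by linarith))
    exact h3.trans h2
  rw [hy'] at hd
  refine ⟨?_, ?_⟩
  · show dist p (fw e D (u y)) < D
    rw [hd]
    linarith
  · intro h4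
    have h5 : fw e D (u y) = p := h4
    rw [h5, dist_self] at hd
    linarith

theorem map_bw (F : Facts e) {D : ℝ} (hB : InjGE e D) (p : M) (v₀ : UT E M) :
    ((dM E M).on (bl p D ∩ pc p)).Map ((dUT E M).on (up p)) (fun x => mkp p v₀ (dirAt e p x)) := by
  intro V _ _ _ u x h
  have h1 : ∀ᶠ y in 𝓝 x, ContMDiffAt 𝓘(ℝ, V) 𝓘(ℝ, E) ∞ u y := h.1
  have h2 : ∀ᶠ y in 𝓝 x, dist p (u y) < D ∧ u y ≠ p := h.2
  refine at_mkp (f := fun y => dirAt e p (u y)) ?_ ?_
  · filter_upwards [h1, h2] with y k1 k2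
    exact ((contMDiffAt_dirAt F hB k2.1 k2.2).comp y k1).contDiffAt
  · filter_upwards [h2] with y k2
    exact norm_dirAt F hB k2.1 k2.2

theorem bw_fw (F : Facts e) {D : ℝ} (hD : 0 < D) (hB : InjGE e D) {p : M} (v₀ : UT E M)
    {v : UT E M} (hv : v ∈ up p) : mkp p v₀ (dirAt e p (fw e D v)) = v := by
  have hv' : foot v = p := hv
  subst hv'
  have h1 : ‖(v.1.snd : TangentSpace 𝓘(ℝ, E) (foot v))‖ = 1 := v.2
  have h2 : dirAt e (foot v) (fw e D v) = (v.1.snd : TangentSpace 𝓘(ℝ, E) (foot v)) :=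
    dirAt_exp F hB (v := (v.1.snd : TangentSpace 𝓘(ℝ, E) (foot v))) h1 (by linarith)
      (by linarith)
  rw [h2]
  exact (mkp_eq h1).trans (mk_eta v)

/-- closed forms on the unit sphere at `p` -/
theorem closed_up (F : Facts e) {D : ℝ} (hD : 0 < D) (hB : InjGE e D) (p : M) {j : ℕ}
    (hj : j + 1 < finrank ℝ E) {σ : Form ((dUT E M).on (up p))} (hσ : σ.d = 0)
    (hσj : Form.IsDeg j σ) : ∃ (c : ℝ) (η : Form ((dUT E M).on (up p))),
      σ = c • (1 : Form ((dUT E M).on (up p))) + η.d ∧ (0 < j → c = 0) := by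
  obtain ⟨ξ₀, hξ⟩ := CoU.exists_unit (E := E) (by omega)
  have v₀ : UT E M := W.mk p (fr (E := E) p ξ₀) (by rw [nm_fr, hξ])
  obtain ⟨c, ν, hν, hc⟩ := punct F hD hB p (j := j) hj
    (σ := Form.pull _ (map_bw F hB p v₀) σ) (by rw [← Form.pull_d, hσ, Form.pull_zero'])
    (hσj.pull _ _)
  refine ⟨c, Form.pull (fw e D) (map_fw F hD hB p) ν, ?_, hc⟩
  have h1 : Form.pull (fw e D) (map_fw F hD hB p) (Form.pull _ (map_bw F hB p v₀) σ) = σ := by
    refine Form.ext_val fun V _ _ _ u x hu => ?_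
    rw [Form.pull_val _ _ hu, Form.pull_val _ _ (map_fw F hD hB p hu)]
    refine (σ.congr hu ?_).symm
    filter_upwards [hu.2] with y hy
    exact (bw_fw F hD hB v₀ hy).symm
  rw [← h1, hν, Form.pull_add', Co.Bun.smul_one_pull, Form.pull_d]

theorem const_up (F : Facts e) {D : ℝ} (hD : 0 < D) (hB : InjGE e D) (p : M)
    (hN : 1 < finrank ℝ E) (σ : Form ((dUT E M).on (up p))) (hσj : Form.IsDeg 0 σ)
    (hσ : σ.d = 0) : ∃ c : ℝ, σ = c • (1 : Form ((dUT E M).on (up p))) := by
  obtain ⟨c, η, h1, -⟩ := closed_up F hD hB p (j := 0) (by omega) hσ hσj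
  refine ⟨c, ?_⟩
  have h2 : Form.part 0 σ = σ := hσj
  rw [← h2]
  conv_lhs => rw [h1]
  rw [Form.part_add, Form.part_zero_d, add_zero, Form.part_smul, Form.part_one]
  simp

theorem exact_up (F : Facts e) {D : ℝ} (hD : 0 < D) (hB : InjGE e D) (p : M) (j : ℕ)
    (σ : Form ((dUT E M).on (up p))) (h0 : 0 < j) (hj : j < finrank ℝ E - 1)
    (hσj : Form.IsDeg j σ) (hσ : σ.d = 0) : ∃ η : Form ((dUT E M).on (up p)), σ = η.d := by
  obtain ⟨c, η, h1, h2⟩ := closed_up F hD hB p (j := j) (by omega) hσ hσj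
  exact ⟨η, by rw [h1, h2 h0, zero_smul, zero_add]⟩

/-! ### the cohomology of `M` -/

/-- the closed forms of degree `j < n₀` are the multiples of `G ^ (j / m)`, up to exact forms -/
def Gen {X : Type*} (D : Dif X) (G : Form D) (m n₀ : ℕ) : Prop :=
  ∀ (j : ℕ) (w : Form D), j < n₀ → w.d = 0 → Form.IsDeg j w →
    ∃ (c : ℝ) (Γ : Form D), w = c • G ^ (j / m) + Γ.d ∧ (¬ m ∣ j → c = 0)

/-- closed functions are constant -/
theorem const_M (F : Facts e) (w : Form (dM E M)) (hw0 : Form.IsDeg 0 w) (hw : w.d = 0) :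
    ∃ c : ℝ, w = c • (1 : Form (dM E M)) := by
  obtain ⟨p⟩ : Nonempty M := inferInstance
  -- pull back by the exponential map
  have hm : ((Dif.lin (Eu E)).on univ).Map (dM E M) (fun ξ => e p (fI (E := E) p ξ)) := by
    intro V _ _ _ u x h
    have h5 : ∀ᶠ y in 𝓝 x, ContMDiffAt 𝓘(ℝ, V) 𝓘(ℝ, E) ∞ (fun y => e p (fI (E := E) p (u y))) y := by
      have h1 : Sm u x := h.1
      filter_upwards [h1] with y k1
      have k5 : ContDiffAt ℝ ∞ (fun y => fI (E := E) p (u y)) y :=
        (fI (E := E) p).contDiff.contDiffAt.comp y k1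
      exact (contMDiff_exp_fiber F.isExp p).contMDiffAt.comp y k5.contMDiffAt
    exact h5
  have hcontr : Form.Contr (Dif.lin (Eu E)) univ := by
    refine ⟨fun q : Eu E × ℝ => tau q.2 • q.1, 0, ?_, mem_univ _, ?_, ?_, ?_⟩
    · intro V _ _ _ u x h
      refine ⟨?_, Eventually.of_forall fun y => mem_univ _⟩
      have h1 : Sm (fun y => (u y).1) x := h.1.1
      have h2 : Sm (fun y => (u y).2) x := h.2
      have h4 : Sm (fun y => tau (u y).2 • (u y).1) x := by
        filter_upwards [h1, sm_tau h2] with y k1 k2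
        exact k2.smul k1
      exact h4
    · intro V _ _ _ u x h
      exact ⟨Sm.of_contDiff contDiff_const _, Eventually.of_forall fun y => mem_univ _⟩
    · intro x _
      show tau 1 • x = x
      rw [tau_one, one_smul]
    · intro x _
      show tau 0 • x = 0
      rw [tau_zero, zero_smul]
  obtain ⟨c, hc⟩ := hcontr.const (w := Form.pull _ hm w)
    (by rw [← Form.pull_d, hw, Form.pull_zero']) (hw0.pull _ _)
  refine ⟨c, Form.ext_val fun V _ _ _ u x hu => ?_⟩
  -- the value at the point `u x`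
  obtain ⟨v, hv, -⟩ := F.hopfRinow p (u x)
  have k1 : ((Dif.lin (Eu E)).on univ).At (fun _ : V => (fI (E := E) p).symm v) x :=
    ⟨Sm.of_contDiff contDiff_const _, Eventually.of_forall fun y => mem_univ _⟩
  have k2 := congrArg (fun f : Form ((Dif.lin (Eu E)).on univ) =>
    f.val (fun _ : V => (fI (E := E) p).symm v) x) hc
  change (Form.pull _ hm w).val (fun _ : V => (fI (E := E) p).symm v) x =
    (c • (1 : Form ((Dif.lin (Eu E)).on univ))).val (fun _ : V => (fI (E := E) p).symm v) x at k2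
  rw [Form.pull_val _ _ k1, Form.smul_val, Form.one_val k1] at k2
  have k3 : ((fun ξ => e p (fI (E := E) p ξ)) ∘ fun _ : V => (fI (E := E) p).symm v) =
      u ∘ fun _ : V => x := by
    funext y
    show e p (fI (E := E) p ((fI (E := E) p).symm v)) = u x
    rw [LinearIsometryEquiv.apply_symm_apply]
    exact hv
  have k4 := w.nat (u := u) (g := fun _ : V => x) (x := x) hu (Sm.of_contDiff contDiff_const _)
  have k5 : fderiv ℝ (fun _ : V => x) x = 0 := by simp
  rw [k3, k4, k5, Co.pull_zero_clm] at k2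
  have k6 : WA.prt 0 (w.val u x) = w.val u x := by rw [← Form.part_val, hw0.part_eq]
  rw [Form.smul_val, Form.one_val hu, ← k2, ← k6, WA.prt_zero, Algebra.algebraMap_eq_smul_one,
    Algebra.algebraMap_eq_smul_one, map_smul, map_one, smul_eq_mul, mul_one]

end

end Vale.Agent.P231.CoC
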