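import Vale.Agent.P231.Co.Gys

/-!
# P231, stage 2 tools (6): naturality under bundle maps with rotations of the fibre

`am h g : (γ, ξ) ↦ (h γ, g γ ξ)`, with `h` smooth and `g` a smooth family of rotations.
-/

set_option linter.unusedSectionVars false
set_option linter.unusedVariables false

open MeasureTheory Set Module Filter Topology
open scoped ContDiff

namespace Vale.Agent.P231.Co

open Vale.Agent.P231.Fm Vale.Agent.P231.W Vale.Agent.P231.H584
open Vale.Agent.P231.Fm (Sm Dif Form Lam)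

variable {X Y G : Type*} {D : Dif X} {D' : Dif Y} {DG : Dif G}
variable {F : Type} [NormedAddCommGroup F] [InnerProductSpace ℝ F] [FiniteDimensional ℝ F]

/-- the bundle map -/
def am (h : G → X) (g : G → F →L[ℝ] F) (p : G × F) : X × F := (h p.1, g p.1 p.2)

theorem eventually_iso {g : G → F →L[ℝ] F} (hg : Rt DG g) {E : Type} [NormedAddCommGroup E]
    [NormedSpace ℝ E] [FiniteDimensional ℝ E] {u : E → G} {x : E} (hu : DG.At u x) :
    ∀ᶠ y in 𝓝 x, ∀ ξ, ‖g (u y) ξ‖ = ‖ξ‖ := by
  filter_upwards [DG.open' hu] with y hy using hg.iso hy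

section Maps

variable {h : G → X} (hh : DG.Map D h) {g : G → F →L[ℝ] F} (hg : Rt DG g)

include hh hg

theorem map_am : (D1 DG F).Map (D1 D F) (am h g) := fun hu =>
  ⟨hh hu.1, sm_clm (hg.map hu.1) hu.2⟩

theorem map_amS : (SB DG F).Map (SB D F) (am h g) := by
  intro E _ _ _ u x hu
  refine ⟨map_am hh hg hu.1, ?_⟩
  filter_upwards [hu.2, eventually_iso hg hu.1.1] with y h1 h2
  have h3 : ‖(u y).2‖ = 1 := h1
  change ‖g (u y).1 (u y).2‖ = 1
  rw [h2, h3]

theorem map_amP : (PB DG F).Map (PB D F) (am h g) := by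
  intro E _ _ _ u x hu
  refine ⟨map_am hh hg hu.1, ?_⟩
  filter_upwards [hu.2, eventually_iso hg hu.1.1] with y h5 h6
  have h7 : (u y).2 ≠ 0 := h5
  intro h8
  have h9 : g (u y).1 (u y).2 = 0 := h8
  have h10 := h6 (u y).2
  rw [h9, norm_zero] at h10
  exact h7 (norm_eq_zero.1 h10.symm)

theorem am_chf : Form.pull (am h g) (map_am hh hg) (chf D F) = chf DG F :=
  Form.ext_val fun E _ _ _ u x hu => by
    have h1 := (eventually_iso hg hu.1).self_of_nhds
    rw [Form.pull_val _ _ hu, chf, chf, Form.fn_val _ _ hu, Form.fn_val _ _ (map_am hh hg hu)]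
    congr 1
    change Real.smoothTransition (2 * ‖g (u x).1 (u x).2‖ ^ 2 - 1) = Real.smoothTransition _
    rw [h1]

theorem am_nrm (σ : Form (SB D F)) : (Form.pull (am h g) (map_amP hh hg)
    (Form.pull nrm map_nrm σ : Form (PB D F)) : Form (PB DG F)) =
      Form.pull nrm map_nrm (Form.pull (am h g) (map_amS hh hg) σ) :=
  Form.ext_val fun E _ _ _ u x hu => by
    rw [Form.pull_val _ _ hu, Form.pull_val _ _ (map_amP hh hg hu), Form.pull_val _ _ hu,
      Form.pull_val _ _ (map_nrm hu)]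
    refine σ.congr (map_nrm (map_amP hh hg hu)) ?_
    filter_upwards [eventually_iso hg hu.1.1] with y h6
    change (h (u y).1, ‖g (u y).1 (u y).2‖⁻¹ • g (u y).1 (u y).2) =
      (h (u y).1, g (u y).1 (‖(u y).2‖⁻¹ • (u y).2))
    rw [h6, map_smul]

/-- naturality of extensions by zero -/
theorem am_mx (θ : Form (D1 D F)) (hθ : θ.Supp {p | p.2 ≠ 0}) (σ : Form (PB D F))
    (θ' : Form (D1 DG F)) (hθ' : θ'.Supp {p | p.2 ≠ 0})
    (e : Form.pull (am h g) (map_am hh hg) θ = θ') :
    Form.pull (am h g) (map_am hh hg) (Form.mx θ hθ σ) =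
      Form.mx θ' hθ' (Form.pull (am h g) (map_amP hh hg) σ : Form (PB DG F)) :=
  Form.ext_val fun E _ _ _ u x hu => by
    have h1 : θ'.val u x = θ.val (am h g ∘ u) x := by rw [← e, Form.pull_val _ _ hu]
    rw [Form.pull_val _ _ hu, Form.mx_val, Form.mx_val, h1]
    rcases hθ'.out hu with h2 | h2
    · rw [Form.pull_val _ _ (D := PB DG F) ⟨hu, h2⟩]
    · have h3 : θ.val (am h g ∘ u) x = 0 := by rw [← h1, h2.self_of_nhds]
      rw [h3, zero_mul, zero_mul]

theorem am_ext (σ : Form (SB D F)) : Form.pull (am h g) (map_am hh hg) (ext σ) =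
    ext (Form.pull (am h g) (map_amS hh hg) σ) := by
  rw [ext, am_mx hh hg _ _ _ _ supp_chf (am_chf hh hg), am_nrm hh hg, ext]

theorem am_dx (σ : Form (SB D F)) : Form.pull (am h g) (map_am hh hg) (dx σ) =
    dx (Form.pull (am h g) (map_amS hh hg) σ) := by
  rw [dx, am_mx hh hg _ _ _ _ supp_chf.d (by rw [Form.pull_d, am_chf hh hg]), am_nrm hh hg, dx]

theorem am_pF (a : Form D) : Form.pull (am h g) (map_am hh hg) (pF a : Form (D1 D F)) =
    pF (Form.pull h hh a) := by
  have hk : (D1 DG F).Map D (fun p => h p.1) := fun hu => hh hu.1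
  rw [pF, pF, pull_pull (k := fun p : G × F => h p.1) (map_am hh hg) Dif.map_fst hk
    (fun p => rfl) a, pull_pull (k := fun p : G × F => h p.1) Dif.map_fst hh hk (fun p => rfl) a]

theorem am_pS (a : Form D) : Form.pull (am h g) (map_amS hh hg) (pS a : Form (SB D F)) =
    pS (Form.pull h hh a) := by
  have hk : (SB DG F).Map D (fun p => h p.1) := fun hu => hh hu.1.1
  rw [pS, pS, pull_pull (k := fun p : G × F => h p.1) (map_amS hh hg) map_sbfst hk
    (fun p => rfl) a, pull_pull (k := fun p : G × F => h p.1) map_sbfst hh hk (fun p => rfl) a]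

end Maps

/-- the bundle map of the sum of two copies -/
def am2 (h : G → X) (g : G → F →L[ℝ] F) (p : (G × F) × F) : (X × F) × F :=
  (am h g p.1, g p.1.1 p.2)

section Int

variable [MeasurableSpace F] [BorelSpace F] {m : ℕ} (o : OrthonormalBasis (Fin m) ℝ F)
variable {h : G → X} (hh : DG.Map D h) {g : G → F →L[ℝ] F} (hg : Rt DG g)

include hh hg

theorem map_am2 : ((D1 DG F).prod (Dif.lin F)).Map ((D1 D F).prod (Dif.lin F)) (am2 h g) :=
  fun hu => ⟨map_am hh hg hu.1, sm_clm (hg.map hu.1.1) hu.2⟩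

/-- the fibre integral is natural -/
theorem am_fi {w : Form (D1 D F)} {R : ℝ} (hw : Vc R w) :
    Form.fi o (Form.pull (am h g) (map_am hh hg) w) = Form.pull h hh (Form.fi o w) := by
  have h1 : Form.pull (am h g) (map_am hh hg) w =
      Form.pull (fun p => (p.1, g p.1 p.2)) hg.map_rot
        (Form.pull (fun p : G × F => (h p.1, p.2)) (map_prodF hh) w) :=
    (pull_pull hg.map_rot (map_prodF hh) (map_am hh hg) (fun p => rfl) w).symm
  have h2 : Vc R (Form.pull (fun p : G × F => (h p.1, p.2)) (map_prodF hh) w) :=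
    hw.pull (map_prodF hh)
  rw [h1, fi_rt o hg (vc_of_van h2)]
  exact Form.fi_nat hh (vc_of_van hw)

theorem am_si (σ : Form (SB D F)) :
    si o (Form.pull (am h g) (map_amS hh hg) σ) = Form.pull h hh (si o σ) := by
  rw [si, ← am_dx hh hg, am_fi o hh hg (vc_dx σ)]
  rfl

/-- the fibre integral over the second copy is natural -/
theorem am2_fi {w : Form ((D1 D F).prod (Dif.lin F))} {R : ℝ} (hw : Vc R w) :
    Form.fi o (Form.pull (am2 h g) (map_am2 hh hg) w) =
      Form.pull (am h g) (map_am hh hg) (Form.fi o w) := by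
  have hg2 : Rt (D1 DG F) (fun p : G × F => g p.1) := hg.comp Dif.map_fst
  exact am_fi o (map_am hh hg) hg2 hw

theorem am2_WW (Ω τ : Form (D1 D F)) : Form.pull (am2 h g) (map_am2 hh hg) (WW Ω τ) =
    WW (Form.pull (am h g) (map_am hh hg) Ω) (Form.pull (am h g) (map_am hh hg) τ) := by
  rw [WW, WW, pull_mul]
  congr 1
  · have hk : ((D1 DG F).prod (Dif.lin F)).Map (D1 D F) (fun p => am h g p.1) :=
      fun hu => map_am hh hg hu.1
    rw [pull_pull (k := fun p : (G × F) × F => am h g p.1) (map_am2 hh hg) Dif.map_fst hk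
      (fun p => rfl) Ω, pull_pull (k := fun p : (G × F) × F => am h g p.1) Dif.map_fst
      (map_am hh hg) hk (fun p => rfl) Ω]
  · have hk : ((D1 DG F).prod (Dif.lin F)).Map (D1 D F) (fun p => am h g (p.1.1, p.2)) :=
      fun hu => map_am hh hg (map_p2 hu)
    rw [pull_pull (k := fun p : (G × F) × F => am h g (p.1.1, p.2)) (map_am2 hh hg) map_p2 hk
      (fun p => rfl) τ, pull_pull (k := fun p : (G × F) × F => am h g (p.1.1, p.2)) map_p2
      (map_am hh hg) hk (fun p => rfl) τ]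

theorem am2_RW (Ω τ : Form (D1 D F)) : Form.pull (am2 h g) (map_am2 hh hg) (RW Ω τ) =
    RW (Form.pull (am h g) (map_am hh hg) Ω) (Form.pull (am h g) (map_am hh hg) τ) := by
  rw [RW, RW, ← am2_WW hh hg, KT, KT, ← K_nat (map_am2 hh hg)]
  congr 1
  have hk : (((D1 DG F).prod (Dif.lin F)).prod (Dif.lin ℝ)).Map
      (((D1 D F).prod (Dif.lin F)).prod (Dif.lin ℝ))
      (fun p => (am2 h g p.1, Real.pi / 2 * p.2)) :=
    fun hu => map_scale (Real.pi / 2) (map_cyl (map_am2 hh hg) hu)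
  have hk2 : (((D1 DG F).prod (Dif.lin F)).prod (Dif.lin ℝ)).Map
      ((D1 D F).prod (Dif.lin F))
      (fun p => rt (am2 h g p.1, Real.pi / 2 * p.2)) := fun hu => map_rt (hk hu)
  have hk3 : (((D1 DG F).prod (Dif.lin F)).prod (Dif.lin ℝ)).Map
      ((D1 DG F).prod (Dif.lin F))
      (fun p => rt (p.1, Real.pi / 2 * p.2)) := fun hu => map_rt (map_scale (Real.pi / 2) hu)
  have e : ∀ p : ((G × F) × F) × ℝ, am2 h g (rt (p.1, Real.pi / 2 * p.2)) =
      rt (am2 h g p.1, Real.pi / 2 * p.2) := by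
    intro p
    simp only [am2, am, rt, map_add, map_smul]
  rw [pull_pull (k := fun p : ((G × F) × F) × ℝ => (am2 h g p.1, Real.pi / 2 * p.2))
    (map_cyl (map_am2 hh hg)) (map_scale (Real.pi / 2)) hk (fun p => rfl),
    pull_pull (k := fun p : ((G × F) × F) × ℝ => rt (am2 h g p.1, Real.pi / 2 * p.2))
      hk map_rt hk2 (fun p => rfl),
    pull_pull (k := fun p : ((G × F) × F) × ℝ => rt (p.1, Real.pi / 2 * p.2))
      (map_scale (Real.pi / 2)) map_rt hk3 (fun p => rfl),
    pull_pull (k := fun p : ((G × F) × F) × ℝ => rt (am2 h g p.1, Real.pi / 2 * p.2))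
      hk3 (map_am2 hh hg) hk2 e]

theorem am_Lm {σ : Form (SB D F)} {τ : Form (D1 D F)} (hτ : Vc 1 τ) :
    Form.pull (am h g) (map_am hh hg) (Lm o σ τ) =
      Lm o (Form.pull (am h g) (map_amS hh hg) σ) (Form.pull (am h g) (map_am hh hg) τ) := by
  rw [Lm, Lm, pull_neg, sgi_pull, ← am2_fi o hh hg (vc_RW zero_le_one (vc_dx σ) hτ),
    am2_RW hh hg, am_dx hh hg]

theorem am_Gx {σ : Form (SB D F)} {τ : Form (D1 D F)} (hτ : Vc 1 τ) :
    Form.pull (am h g) (map_am hh hg) (Gx o σ τ) =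
      Gx o (Form.pull (am h g) (map_amS hh hg) σ) (Form.pull (am h g) (map_am hh hg) τ) := by
  rw [Gx, Gx, pull_sub, am_Lm o hh hg hτ, am_ext hh hg]

theorem am_ba {σ : Form (SB D F)} {τ : Form (D1 D F)} (hτ : Vc 1 τ) :
    Form.pull h hh (ba o σ τ) =
      ba o (Form.pull (am h g) (map_amS hh hg) σ) (Form.pull (am h g) (map_am hh hg) τ) := by
  have hk : DG.Map (D1 D F) (fun γ => (h γ, (0 : F))) := fun hu => map_zs (hh hu)
  rw [ba, ba, ← am_Gx o hh hg hτ, pull_pull (k := fun γ : G => (h γ, (0 : F))) hh map_zs hk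
    (fun γ => rfl), pull_pull (k := fun γ : G => (h γ, (0 : F))) map_zs (map_am hh hg) hk
    (fun γ => by simp [am])]

theorem am_ka {σ : Form (SB D F)} {τ : Form (D1 D F)} (hτ : Vc 1 τ) :
    Form.pull (am h g) (map_amS hh hg) (ka o σ τ) =
      ka o (Form.pull (am h g) (map_amS hh hg) σ) (Form.pull (am h g) (map_am hh hg) τ) := by
  rw [ka, ka, ← K_nat (map_amS hh hg), ← am_Gx o hh hg hτ]
  congr 1
  have hk : ((SB DG F).prod (Dif.lin ℝ)).Map (D1 D F) (fun p => scl (am h g p.1, p.2)) :=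
    fun hu => map_scl (map_cyl (map_amS hh hg) hu)
  rw [pull_pull (k := fun p : (G × F) × ℝ => scl (am h g p.1, p.2)) (map_cyl (map_amS hh hg))
    map_scl hk (fun p => rfl), pull_pull (k := fun p : (G × F) × ℝ => scl (am h g p.1, p.2))
    map_scl (map_am hh hg) hk (fun p => by simp [scl, am])]

end Int

end Vale.Agent.P231.Co
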