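import Vale.Agent.P231.Co.On
import Vale.Agent.P231.WA.Deg

/-!
# P231, stage 2 tools: relative Mayer–Vietoris

For `π : S → B` a closed pair of degree `j` is `(a, κ)` with `a.d = 0` and `π^* a = κ.d`; it is
exact if `a = c.d` and `κ - π^* c = l.d`.
-/

set_option linter.unusedSectionVars false
set_option linter.unusedVariables false

open Set Module Filter Topology
open scoped ContDiff

namespace Vale.Agent.P231.Fm

open Vale.Agent.P231.WA

variable {X Y B S S' : Type*} {D : Dif X} {D' : Dif Y}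

/-- `π` between two restrictions -/
theorem Dif.Map.on_pre {DB : Dif B} {DS : Dif S} {π : S → B} (hπ : DS.Map DB π) (O : Set B) :
    (DS.on (π ⁻¹' O)).Map (DB.on O) π := hπ.on_on fun _ hx => hx

/-! ### the part of integral degree -/

namespace Form

/-- the part of degree `k`, for an integer `k` -/
noncomputable def partZ (k : ℤ) (w : Form D) : Form D := if 0 ≤ k then part k.toNat w else 0

theorem partZ_nat (k : ℕ) (w : Form D) : partZ (k : ℤ) w = part k w := by
  rw [partZ, if_pos (Int.natCast_nonneg k), Int.toNat_natCast]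

theorem partZ_neg_eq {k : ℤ} (hk : k < 0) (w : Form D) : partZ k w = 0 := by
  rw [partZ, if_neg (by omega)]

theorem partZ_add (k : ℤ) (v w : Form D) : partZ k (v + w) = partZ k v + partZ k w := by
  unfold partZ
  split_ifs
  · exact part_add _ _ _
  · rw [add_zero]

theorem partZ_sub (k : ℤ) (v w : Form D) : partZ k (v - w) = partZ k v - partZ k w := by
  unfold partZ
  split_ifs
  · exact part_sub _ _ _
  · rw [sub_zero]

theorem partZ_neg (k : ℤ) (w : Form D) : partZ k (-w) = -partZ k w := by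
  unfold partZ
  split_ifs
  · exact part_neg _ _
  · rw [neg_zero]

theorem partZ_pull (k : ℤ) (f : X → Y) (hf : D.Map D' f) (w : Form D') :
    partZ k (pull f hf w) = pull f hf (partZ k w) := by
  unfold partZ
  split_ifs
  · exact part_pull _ _ _ _
  · exact (map_zero (pullA f hf)).symm

theorem partZ_partZ (k : ℤ) (w : Form D) : partZ k (partZ k w) = partZ k w := by
  unfold partZ
  split_ifs
  · exact part_part_self _ _
  · rfl

theorem partZ_d (k : ℤ) (w : Form D) : partZ (k + 1) w.d = (partZ k w).d := by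
  rcases lt_trichotomy k (-1) with h | h | h
  · have h1 : k + 1 < 0 := by omega
    have h2 : k < 0 := by omega
    rw [partZ_neg_eq h1, partZ_neg_eq h2, d_zero]
  · subst h
    rw [partZ_neg_eq (k := -1) (by norm_num) w, d_zero]
    have := partZ_nat 0 w.d
    rw [part_zero_d] at this
    exact this
  · obtain ⟨n, rfl⟩ := Int.eq_ofNat_of_zero_le (show 0 ≤ k by omega)
    rw [partZ_nat]
    have h1 := partZ_nat (n + 1) w.d
    rw [part_succ_d] at h1
    exact_mod_cast h1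

/-- homogeneous of degree `k`, for an integer `k` -/
def DegZ (k : ℤ) (w : Form D) : Prop := partZ k w = w

theorem degZ_nat {k : ℕ} {w : Form D} : DegZ (k : ℤ) w ↔ IsDeg k w := by
  rw [DegZ, partZ_nat]
  rfl

theorem DegZ.eq_zero {k : ℤ} {w : Form D} (h : DegZ k w) (hk : k < 0) : w = 0 := by
  rw [← h, partZ_neg_eq hk]

theorem DegZ.sub {k : ℤ} {v w : Form D} (hv : DegZ k v) (hw : DegZ k w) : DegZ k (v - w) := by
  rw [DegZ, partZ_sub, hv, hw]

theorem DegZ.add {k : ℤ} {v w : Form D} (hv : DegZ k v) (hw : DegZ k w) : DegZ k (v + w) := by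
  rw [DegZ, partZ_add, hv, hw]

theorem DegZ.neg {k : ℤ} {w : Form D} (hw : DegZ k w) : DegZ k (-w) := by
  rw [DegZ, partZ_neg, hw]

theorem DegZ.pull {k : ℤ} {w : Form D'} (hw : DegZ k w) (f : X → Y) (hf : D.Map D' f) :
    DegZ k (Form.pull f hf w) := by
  rw [DegZ, partZ_pull, hw]

theorem degZ_partZ (k : ℤ) (w : Form D) : DegZ k (partZ k w) := partZ_partZ k w

theorem degZ_zero (k : ℤ) : DegZ k (0 : Form D) := by
  rw [DegZ, partZ]
  split_ifs
  · exact part_zero' _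
  · rfl

theorem pull_add' (f : X → Y) (hf : D.Map D' f) (v w : Form D') :
    pull f hf (v + w) = pull f hf v + pull f hf w := map_add (pullA f hf) v w

theorem pull_sub' (f : X → Y) (hf : D.Map D' f) (v w : Form D') :
    pull f hf (v - w) = pull f hf v - pull f hf w := map_sub (pullA f hf) v w

theorem pull_neg' (f : X → Y) (hf : D.Map D' f) (w : Form D') :
    pull f hf (-w) = -pull f hf w := map_neg (pullA f hf) w

theorem pull_zero' (f : X → Y) (hf : D.Map D' f) :
    pull f hf (0 : Form D') = 0 := map_zero (pullA f hf)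

theorem pull_mul' (f : X → Y) (hf : D.Map D' f) (v w : Form D') :
    pull f hf (v * w) = pull f hf v * pull f hf w := map_mul (pullA f hf) v w

theorem pull2_eq {Z Y' : Type*} {D'' : Dif Z} {D₃ : Dif Y'} {f : X → Y} {g : Y → Z} {f' : X → Y'}
    {g' : Y' → Z} (hf : D.Map D' f) (hg : D'.Map D'' g) (hf' : D.Map D₃ f') (hg' : D₃.Map D'' g')
    (h : ∀ x, g (f x) = g' (f' x)) (a : Form D'') :
    pull f hf (pull g hg a) = pull f' hf' (pull g' hg' a) := ext_val fun E _ _ _ u x hu => by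
  rw [pull_val _ _ hu, pull_val _ _ (hf hu), pull_val _ _ hu, pull_val _ _ (hf' hu)]
  have h1 : g ∘ (f ∘ u) = g' ∘ (f' ∘ u) := funext fun y => h (u y)
  rw [h1]

theorem pull2_one {Z : Type*} {D'' : Dif Z} {f : X → Y} {g : Y → Z} {g' : X → Z}
    (hf : D.Map D' f) (hg : D'.Map D'' g) (hg' : D.Map D'' g')
    (h : ∀ x, g (f x) = g' x) (a : Form D'') :
    pull f hf (pull g hg a) = pull g' hg' a := ext_val fun E _ _ _ u x hu => by
  rw [pull_val _ _ hu, pull_val _ _ (hf hu), pull_val _ _ hu]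
  have h1 : g ∘ (f ∘ u) = g' ∘ u := funext fun y => h (u y)
  rw [h1]

theorem pull2_id {f : X → Y} {g : Y → X} (hf : D.Map D' f) (hg : D'.Map D g)
    (h : ∀ x, g (f x) = x) (a : Form D) :
    pull f hf (pull g hg a) = a := ext_val fun E _ _ _ u x hu => by
  rw [pull_val _ _ hu, pull_val _ _ (hf hu)]
  have h1 : g ∘ (f ∘ u) = u := funext fun y => h (u y)
  rw [h1]

/-! ### the relative statement -/

/-- every closed pair of degree `j` is exact -/
def RelAt (j : ℤ) (DB : Dif B) (DS : Dif S) (π : S → B) (hπ : DS.Map DB π) : Prop :=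
  ∀ (a : Form DB) (κ : Form DS), DegZ j a → DegZ (j - 1) κ → a.d = 0 → pull π hπ a = κ.d →
    ∃ (c : Form DB) (l : Form DS), DegZ (j - 1) c ∧ DegZ (j - 2) l ∧ a = c.d ∧
      κ - pull π hπ c = l.d

/-- it is enough to find a solution of mixed degree -/
theorem relAt_of {j : ℤ} {DB : Dif B} {DS : Dif S} {π : S → B} {hπ : DS.Map DB π}
    (h : ∀ (a : Form DB) (κ : Form DS), DegZ j a → DegZ (j - 1) κ → a.d = 0 →
      pull π hπ a = κ.d → ∃ (c : Form DB) (l : Form DS), a = c.d ∧ κ - pull π hπ c = l.d) :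
    RelAt j DB DS π hπ := by
  intro a κ ha hκ hd hp
  obtain ⟨c, l, h1, h2⟩ := h a κ ha hκ hd hp
  refine ⟨partZ (j - 1) c, partZ (j - 2) l, degZ_partZ _ _, degZ_partZ _ _, ?_, ?_⟩
  · rw [← partZ_d, sub_add_cancel, ← h1]
    exact ha.symm
  · have h3 := congrArg (partZ (j - 1)) h2
    rw [partZ_sub, partZ_pull] at h3
    have h4 : j - 1 = (j - 2) + 1 := by ring
    have h5 : partZ (j - 1) κ = κ := hκ
    rw [h5] at h3
    rw [h3]
    conv_lhs => rw [h4]
    exact partZ_d _ _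

theorem relAt_neg {j : ℤ} (hj : j < 0) {DB : Dif B} {DS : Dif S} {π : S → B}
    {hπ : DS.Map DB π} : RelAt j DB DS π hπ := relAt_of fun a κ ha hκ _ _ =>
  ⟨0, 0, by rw [d_zero, ha.eq_zero hj], by
    rw [d_zero, hκ.eq_zero (by omega), pull_zero', sub_zero]⟩

/-- the closed forms of `S` come from `B` -/
theorem RelAt.surj {j : ℤ} {DB : Dif B} {DS : Dif S} {π : S → B} {hπ : DS.Map DB π}
    (h : RelAt (j + 1) DB DS π hπ) {w : Form DS} (hw : w.d = 0) (hj : DegZ j w) :
    ∃ (a : Form DB) (κ : Form DS), a.d = 0 ∧ DegZ j a ∧ DegZ (j - 1) κ ∧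
      w = pull π hπ a + κ.d := by
  have hj' : DegZ (j + 1 - 1) w := by rwa [add_sub_cancel_right]
  obtain ⟨c, l, h1, h2, h3, h4⟩ := h 0 w (degZ_zero _) hj' d_zero (by rw [pull_zero', hw])
  refine ⟨c, l, h3.symm, by rwa [add_sub_cancel_right] at h1, ?_, ?_⟩
  · have h5 : j + 1 - 2 = j - 1 := by ring
    rwa [h5] at h2
  · rw [← h4]
    abel

/-- a form on `B` which is exact on `S` is exact on `B` -/
theorem RelAt.inj {j : ℤ} {DB : Dif B} {DS : Dif S} {π : S → B} {hπ : DS.Map DB π}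
    (h : RelAt j DB DS π hπ) {a : Form DB} (ha : a.d = 0) (hj : DegZ j a) {κ : Form DS}
    (hκ : pull π hπ a = κ.d) : ∃ c : Form DB, DegZ (j - 1) c ∧ a = c.d := by
  have h1 : pull π hπ a = (partZ (j - 1) κ).d := by
    rw [← partZ_d, sub_add_cancel, ← hκ, partZ_pull, hj]
  obtain ⟨c, l, h2, h3, h4, h5⟩ := h a _ hj (degZ_partZ _ κ) ha h1
  exact ⟨c, h2, h4⟩

/-- transport along a fibrewise map with a section -/
theorem RelAt.of_iso {j : ℤ} {DB : Dif B} {DS : Dif S} {DS' : Dif S'} {π : S → B} {π' : S' → B}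
    {hπ : DS.Map DB π} {hπ' : DS'.Map DB π'} (h : RelAt j DB DS' π' hπ') {Φ : S' → S}
    {Ψ : S → S'} (hΦ : DS'.Map DS Φ) (hΨ : DS.Map DS' Ψ)
    (h1 : ∀ κ : Form DS, pull Ψ hΨ (pull Φ hΦ κ) = κ)
    (h2 : ∀ a : Form DB, pull Φ hΦ (pull π hπ a) = pull π' hπ' a)
    (h3 : ∀ a : Form DB, pull Ψ hΨ (pull π' hπ' a) = pull π hπ a) : RelAt j DB DS π hπ := by
  refine relAt_of fun a κ ha hκ hd hp => ?_
  obtain ⟨c, l, -, -, h4, h5⟩ := h a (pull Φ hΦ κ) ha (hκ.pull _ _) hd (by
    rw [← h2, hp, pull_d])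
  refine ⟨c, pull Ψ hΨ l, h4, ?_⟩
  rw [← pull_d, ← h5, pull_sub', h1, h3]

/-- transport along the identity of the base, for two equivalent diffeologies -/
theorem RelAt.congr {j : ℤ} {DB DB' : Dif B} {DS DS' : Dif S} {π : S → B}
    {hπ : DS.Map DB π} {hπ' : DS'.Map DB' π} (h : RelAt j DB' DS' π hπ')
    (hB : DB.Map DB' id) (hB' : DB'.Map DB id) (hS : DS.Map DS' id) (hS' : DS'.Map DS id) :
    RelAt j DB DS π hπ := by
  refine relAt_of fun a κ ha hκ hd hp => ?_
  have e1 : pull π hπ' (pull id hB' a) = pull id hS' (pull π hπ a) :=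
    pull2_eq (f := π) (g := id) (f' := id) (g' := π) _ _ _ _ (fun _ => rfl) a
  obtain ⟨c, l, -, -, h4, h5⟩ := h (pull id hB' a) (pull id hS' κ) (ha.pull _ _) (hκ.pull _ _)
    (by rw [← pull_d, hd, pull_zero']) (by rw [e1, hp, pull_d])
  refine ⟨pull id hB c, pull id hS l, ?_, ?_⟩
  · rw [← pull_d, ← h4]
    exact (pull2_id hB hB' (fun _ => rfl) a).symm
  · rw [← pull_d, ← h5, pull_sub', pull2_id hS hS' (fun _ => rfl) κ]
    congr 1
    exact pull2_eq (f := π) (g := id) (f' := id) (g' := π) _ _ _ _ (fun _ => rfl) c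

/-- **relative Mayer–Vietoris** -/
theorem RelAt.mv {j : ℤ} {DB : Dif B} {DS : Dif S} {π : S → B} {hπ : DS.Map DB π}
    {O₁ O₂ : Set B} {p : Form DB} (hp : p.sg = p) (h1 : p.Supp O₁) (h2 : (1 - p).Supp O₂)
    (r1 : RelAt j (DB.on O₁) (DS.on (π ⁻¹' O₁)) π (hπ.on_pre O₁))
    (r2 : RelAt j (DB.on O₂) (DS.on (π ⁻¹' O₂)) π (hπ.on_pre O₂))
    (r3 : RelAt (j - 1) (DB.on (O₁ ∩ O₂)) (DS.on (π ⁻¹' (O₁ ∩ O₂))) π (hπ.on_pre _)) :
    RelAt j DB DS π hπ := by
  refine relAt_of fun a κ ha hκ hd hpk => ?_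
  have e : ∀ (O : Set B) (c : Form DB), pull π (hπ.on_pre O) (res O c) =
      res (π ⁻¹' O) (pull π hπ c) := fun O c =>
    pull2_eq (f := π) (g := id) (f' := id) (g' := π) _ _ _ _ (fun _ => rfl) c
  obtain ⟨c1, l1, dc1, dl1, hc1, hl1⟩ := r1 (res O₁ a) (res (π ⁻¹' O₁) κ) (ha.pull _ _)
    (hκ.pull _ _) (by rw [res_d, hd, res_zero]) (by rw [e, hpk, res_d])
  obtain ⟨c2, l2, dc2, dl2, hc2, hl2⟩ := r2 (res O₂ a) (res (π ⁻¹' O₂) κ) (ha.pull _ _)
    (hκ.pull _ _) (by rw [res_d, hd, res_zero]) (by rw [e, hpk, res_d])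
  -- the difference on the intersection
  have i1 : O₁ ∩ O₂ ⊆ O₁ := inter_subset_left
  have i2 : O₁ ∩ O₂ ⊆ O₂ := inter_subset_right
  have j1 : π ⁻¹' (O₁ ∩ O₂) ⊆ π ⁻¹' O₁ := preimage_mono i1
  have j2 : π ⁻¹' (O₁ ∩ O₂) ⊆ π ⁻¹' O₂ := preimage_mono i2
  set cc := pull id (Dif.map_on_mono i1) c1 - (pull id (Dif.map_on_mono i2) c2 :
    Form (DB.on (O₁ ∩ O₂))) with hcc
  set ll := pull id (Dif.map_on_mono j1) l1 - (pull id (Dif.map_on_mono j2) l2 :
    Form (DS.on (π ⁻¹' (O₁ ∩ O₂)))) with hll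
  have ea1 : pull id (Dif.map_on_mono i1) (res O₁ a) = res (O₁ ∩ O₂) a :=
    pull2_one _ _ _ (fun _ => rfl) _
  have ea2 : pull id (Dif.map_on_mono i2) (res O₂ a) = res (O₁ ∩ O₂) a :=
    pull2_one _ _ _ (fun _ => rfl) _
  have ek1 : pull id (Dif.map_on_mono j1) (res (π ⁻¹' O₁) κ) = res (π ⁻¹' (O₁ ∩ O₂)) κ :=
    pull2_one _ _ _ (fun _ => rfl) _
  have ek2 : pull id (Dif.map_on_mono j2) (res (π ⁻¹' O₂) κ) = res (π ⁻¹' (O₁ ∩ O₂)) κ :=
    pull2_one _ _ _ (fun _ => rfl) _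
  have hccd : cc.d = 0 := by
    rw [hcc, d_sub, ← pull_d, ← pull_d, ← hc1, ← hc2, ea1, ea2, sub_self]
  have m1 : pull π (hπ.on_pre (O₁ ∩ O₂)) (pull id (Dif.map_on_mono i1) c1) =
      pull id (Dif.map_on_mono j1) (pull π (hπ.on_pre O₁) c1) :=
    pull2_eq (f := π) (g := id) (f' := id) (g' := π) _ _ _ _ (fun _ => rfl) c1
  have m2 : pull π (hπ.on_pre (O₁ ∩ O₂)) (pull id (Dif.map_on_mono i2) c2) =
      pull id (Dif.map_on_mono j2) (pull π (hπ.on_pre O₂) c2) :=
    pull2_eq (f := π) (g := id) (f' := id) (g' := π) _ _ _ _ (fun _ => rfl) c2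
  have n1 : pull π (hπ.on_pre O₁) c1 = res (π ⁻¹' O₁) κ - l1.d := by rw [← hl1]; abel
  have n2 : pull π (hπ.on_pre O₂) c2 = res (π ⁻¹' O₂) κ - l2.d := by rw [← hl2]; abel
  have hccp : pull π (hπ.on_pre (O₁ ∩ O₂)) cc = (-ll).d := by
    rw [hcc, pull_sub', m1, m2, n1, n2, pull_sub', pull_sub', ek1, ek2, d_neg, hll, d_sub,
      pull_d, pull_d]
    abel
  obtain ⟨ep, μ, -, -, hep, hμ⟩ := r3 cc (-ll) ((dc1.pull _ _).sub (dc2.pull _ _))
    (by
      have h5 : j - 1 - 1 = j - 2 := by ring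
      rw [h5]
      exact ((dl1.pull _ _).sub (dl2.pull _ _)).neg) hccd hccp
  -- the solution
  have hds : p.d.sg = -p.d := sg_d_of_even hp
  set P : Form DS := pull π hπ p with hP
  have hPs : P.sg = P := by rw [hP, ← pull_sg, hp]
  have hP1 : P.Supp (π ⁻¹' O₁) := h1.pull hπ
  have hP2 : (1 - P).Supp (π ⁻¹' O₂) := by
    have h3 := h2.pull hπ
    rw [pull_sub'] at h3
    have h4 : pull π hπ (1 : Form DB) = 1 := map_one (pullA π hπ)
    rwa [h4] at h3
  have hP3 : P.d.Supp (π ⁻¹' (O₁ ∩ O₂)) := supp_d_inter hP1 hP2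
  refine ⟨mx _ h1 c1 + mx _ h2 c2 + mx _ (supp_d_inter h1 h2) ep,
    mx _ hP1 l1 + mx _ hP2 l2 - mx _ hP3 μ, ?_, ?_⟩
  · exact (d_mv (w := a) hp h1 h2 c1 c2 ep hc1.symm hc2.symm (by rw [← hep])).symm
  · refine ext_val fun E _ _ _ u x h => ?_
    have hPd : P.d = pull π hπ p.d := by rw [hP, pull_d]
    -- values of the pulled back products
    have q1 : (pull π hπ (mx _ h1 c1)).val u x =
        P.val u x * c1.val (π ∘ u) x := by
      rw [pull_val _ _ h, mx_val, hP, pull_val _ _ h]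
    have q2 : (pull π hπ (mx _ h2 c2)).val u x =
        (1 - P).val u x * c2.val (π ∘ u) x := by
      rw [pull_val _ _ h, mx_val, hP, sub_val, sub_val, pull_val _ _ h, one_val h,
        one_val (hπ h)]
    have q3 : (pull π hπ (mx _ (supp_d_inter h1 h2) ep)).val u x =
        P.d.val u x * ep.val (π ∘ u) x := by
      rw [pull_val _ _ h, mx_val, hPd, pull_val _ _ h]
    have t1 : (mx _ hP1 l1).d.val u x = P.d.val u x * l1.val u x + P.val u x * l1.d.val u x := by
      rw [mx_d, add_val, mx_val, mx_val, hPs]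
    have t2 : (mx _ hP2 l2).d.val u x =
        -P.d.val u x * l2.val u x + (1 - P).val u x * l2.d.val u x := by
      rw [mx_d, add_val, mx_val, mx_val, sg_sub, sg_one, hPs, d_sub, d_one, zero_sub, neg_val]
    have t3 : (mx _ hP3 μ).d.val u x = -P.d.val u x * μ.d.val u x := by
      rw [mx_d, add_val, mx_val, mx_val, d_d, zero_val, zero_mul, zero_add, sg_d_of_even hPs,
        neg_val]
    have t4 : (mx _ hP1 l1 + mx _ hP2 l2 - mx _ hP3 μ).d.val u x =
        (mx _ hP1 l1).d.val u x + (mx _ hP2 l2).d.val u x - (mx _ hP3 μ).d.val u x := by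
      rw [d_sub, d_add]
      rfl
    have t5 : (κ - pull π hπ (mx _ h1 c1 + mx _ h2 c2 + mx _ (supp_d_inter h1 h2) ep)).val u x =
        κ.val u x - ((pull π hπ (mx _ h1 c1)).val u x + (pull π hπ (mx _ h2 c2)).val u x +
          (pull π hπ (mx _ (supp_d_inter h1 h2) ep)).val u x) := by
      rw [pull_add', pull_add']
      rfl
    rw [t5, t4, q1, q2, q3, t1, t2, t3]
    -- values of the local identities
    have v1 : (DS.on (π ⁻¹' O₁)).At u x → κ.val u x - c1.val (π ∘ u) x = l1.d.val u x := by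
      intro hh
      have h6 := congrArg (fun f : Form (DS.on (π ⁻¹' O₁)) => f.val u x) hl1
      change (res (π ⁻¹' O₁) κ - pull π _ c1).val u x = l1.d.val u x at h6
      rw [sub_val, res_val _ hh, pull_val _ _ hh] at h6
      exact h6
    have v2 : (DS.on (π ⁻¹' O₂)).At u x → κ.val u x - c2.val (π ∘ u) x = l2.d.val u x := by
      intro hh
      have h6 := congrArg (fun f : Form (DS.on (π ⁻¹' O₂)) => f.val u x) hl2
      change (res (π ⁻¹' O₂) κ - pull π _ c2).val u x = l2.d.val u x at h6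
      rw [sub_val, res_val _ hh, pull_val _ _ hh] at h6
      exact h6
    have v3 : (DS.on (π ⁻¹' (O₁ ∩ O₂))).At u x →
        -(l1.val u x - l2.val u x) - ep.val (π ∘ u) x = μ.d.val u x := by
      intro hh
      have h6 := congrArg (fun f : Form (DS.on (π ⁻¹' (O₁ ∩ O₂))) => f.val u x) hμ
      change (-ll - pull π _ ep).val u x = μ.d.val u x at h6
      rw [sub_val, neg_val, hll, sub_val, pull_val _ _ hh, pull_val _ _ hh, pull_val _ _ hh] at h6
      exact h6
    rcases hP1.out h with h4 | h4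
    · have a1 : (DS.on (π ⁻¹' O₁)).At u x := ⟨h, h4⟩
      have w1 := v1 a1
      rcases hP2.out h with h5 | h5
      · have a2 : (DS.on (π ⁻¹' O₂)).At u x := ⟨h, h5⟩
        have a3 : (DS.on (π ⁻¹' (O₁ ∩ O₂))).At u x := ⟨h, h4.and h5⟩
        rw [← v3 a3, ← v2 a2, ← w1, sub_val, one_val h]
        noncomm_ring
      · have h6 : (1 - P).d.val u x = 0 := by
          rw [d_val _ h, extd_congr (v := fun _ => 0) h5, extd_const]
        rw [d_sub, d_one, zero_sub, neg_val, neg_eq_zero] at h6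
        have h8 := h5.self_of_nhds
        have h9 := h8
        rw [sub_val, one_val h, sub_eq_zero] at h9
        rw [h6, h8, ← h9, ← w1]
        noncomm_ring
    · have h6 : P.d.val u x = 0 := by
        rw [d_val _ h, extd_congr (v := fun _ => 0) h4, extd_const]
      rcases hP2.out h with h5 | h5
      · have a2 : (DS.on (π ⁻¹' O₂)).At u x := ⟨h, h5⟩
        rw [h6, h4.self_of_nhds, ← v2 a2, sub_val, one_val h, h4.self_of_nhds]
        noncomm_ring
      · have h8 := h5.self_of_nhds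
        have h9 := h8
        rw [sub_val, h4.self_of_nhds, sub_zero, one_val h] at h9
        have h10 : ∀ z : Lam E, z = 0 := fun z => by rw [← one_mul z, h9, zero_mul]
        rw [h10 (κ.val u x - _)]
        exact (h10 _).symm

end Form

end Vale.Agent.P231.Fm
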