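import Vale.Agent.P231.Co.RelU
import Mathlib.Geometry.Manifold.PartitionOfUnity

/-!
# P231, stage 2 tools (M2): `H^j(UT) = H^j(M)` for `j < dim M - 1`
-/

set_option maxSynthPendingDepth 3
set_option linter.unusedSectionVars false
set_option linter.unusedVariables false

open Bundle Manifold Set Filter Module
open scoped ContDiff Manifold Topology

namespace Vale.Agent.P231.CoU

noncomputable section

open Vale.Agent.P234 Vale.Agent.P231 Vale.Agent.P231.Fm Vale.Agent.P231.W Vale.Agent.P231.H775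

variable {E : Type*} [NormedAddCommGroup E] [NormedSpace ℝ E] [FiniteDimensional ℝ E]
  {M : Type*} [MetricSpace M] [ChartedSpace E M] [IsManifold 𝓘(ℝ, E) ∞ M]
  [RiemannianBundle (fun x : M => TangentSpace 𝓘(ℝ, E) x)]
  [IsContMDiffRiemannianBundle 𝓘(ℝ, E) ∞ E (fun x : M => TangentSpace 𝓘(ℝ, E) x)]
  [CompactSpace M] [ConnectedSpace M] [IsRiemannianManifold 𝓘(ℝ, E) M]

variable (E M) in
/-- finitely many bump functions -/
theorem exists_cover : ∃ (f : M → M → ℝ) (t : Finset M),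
    (∀ x₀, ContMDiff 𝓘(ℝ, E) 𝓘(ℝ, ℝ) ∞ (f x₀)) ∧ (∀ x₀ x, 0 ≤ f x₀ x) ∧
    (∀ x₀, {x | 0 < f x₀ x} ⊆ dom (E := E) x₀) ∧ ∀ x, ∃ i ∈ t, 0 < f i x := by
  have h1 : ∀ x₀ : M, ∃ f : M → ℝ, Function.support f = dom (E := E) x₀ ∧
      ContMDiff 𝓘(ℝ, E) 𝓘(ℝ, ℝ) ∞ f ∧ ∀ x, 0 ≤ f x := fun x₀ =>
    (isOpen_extChartAt_source x₀).exists_contMDiff_support_eq 𝓘(ℝ, E)
  choose f hs hf h0 using h1
  have hpos : ∀ x₀ x, x ∈ dom (E := E) x₀ ↔ 0 < f x₀ x := fun x₀ x => by
    rw [← hs x₀, Function.mem_support]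
    exact ⟨fun h => lt_of_le_of_ne (h0 x₀ x) (Ne.symm h), fun h => h.ne'⟩
  obtain ⟨t, ht⟩ := isCompact_univ.elim_finite_subcover (fun x₀ : M => dom (E := E) x₀)
    (fun x₀ => isOpen_extChartAt_source x₀)
    (fun x _ => mem_iUnion.2 ⟨x, mem_extChartAt_source x⟩)
  refine ⟨f, t, hf, h0, fun x₀ x hx => (hpos x₀ x).2 hx, fun x => ?_⟩
  obtain ⟨i, hi⟩ := mem_iUnion.1 (ht (mem_univ x))
  obtain ⟨hi1, hi2⟩ := mem_iUnion.1 hi
  exact ⟨i, hi1, (hpos i x).1 hi2⟩

/-- the vanishing of the cohomology of the spheres below the top degree, over the subsets of `M` -/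
def SphLow (E : Type*) [NormedAddCommGroup E] [NormedSpace ℝ E] [FiniteDimensional ℝ E]
    (M : Type*) [MetricSpace M] [ChartedSpace E M]
    [RiemannianBundle (fun x : M => TangentSpace 𝓘(ℝ, E) x)] : Prop :=
  ∀ (O : Set M) (j : ℕ), j + 1 < finrank ℝ E →
    Form.Sur (j : ℤ) ((dM E M).on O) (Co.SB ((dM E M).on O) (Eu E)) Prod.fst Co.map_sbfst

/-- **(M2)** closed relative pairs of degree `j < dim M` of the unit tangent bundle are exact -/
theorem relAt_UT (sl : SphLow E M) (h0 : 0 < finrank ℝ E) {j : ℤ} (hj : j < finrank ℝ E) :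
    Form.RelAt j (dM E M) (dUT E M) foot map_foot := by
  obtain ⟨f, t, hf, f0, hdom, hcov⟩ := exists_cover E M
  obtain ⟨ξ₀, hξ⟩ := exists_unit h0
  obtain ⟨x₁⟩ : Nonempty M := inferInstance
  have v₀ : UT E M := W.mk x₁ (fr (E := E) x₁ ξ₀) (by rw [nm_fr, hξ])
  refine Form.relAt_cover (hπ := map_foot) (f := f) (fun i {E'} _ _ _ {u x} hu => ?_) f0 ?_ t
    hcov hj
  · exact Dif.map_mfd_lin (hf i) hu
  · intro i O hO k hk
    refine relAt_loc (v₀ := v₀) (hO.trans (hdom i)) (relAt_SB hξ ?_)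
    rcases lt_or_ge (k - 1) 0 with h1 | h1
    · exact Form.sur_neg h1
    · obtain ⟨n, hn⟩ := Int.eq_ofNat_of_zero_le h1
      have hn' : k - 1 = (n : ℤ) := hn
      rw [hn']
      exact sl O n (by omega)

/-- **(M2)** below the dimension of the fibre every closed form comes from the base -/
theorem surj_UT (sl : SphLow E M) {j : ℕ} (hj : j + 1 < finrank ℝ E) {w : Form (dUT E M)}
    (hw : w.d = 0) (hwj : Form.IsDeg j w) :
    ∃ (a : Form (dM E M)) (κ : Form (dUT E M)), a.d = 0 ∧ Form.IsDeg j a ∧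
      Form.DegZ ((j : ℤ) - 1) κ ∧ w = Form.pull foot map_foot a + κ.d := by
  have h := relAt_UT (M := M) sl (by omega) (j := (j : ℤ) + 1) (by omega)
  obtain ⟨a, κ, h1, h2, h3, h4⟩ := h.surj hw (Form.degZ_nat.2 hwj)
  exact ⟨a, κ, h1, Form.degZ_nat.1 h2, h3, h4⟩

/-- **(M2)** forms on the base which are exact on the unit tangent bundle -/
theorem inj_UT (sl : SphLow E M) {j : ℕ} (hj : j < finrank ℝ E) {a : Form (dM E M)}
    (ha : a.d = 0) (haj : Form.IsDeg j a) {κ : Form (dUT E M)}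
    (hκ : Form.pull foot map_foot a = κ.d) :
    ∃ c : Form (dM E M), Form.DegZ ((j : ℤ) - 1) c ∧ a = c.d := by
  have h := relAt_UT (M := M) sl (by omega) (j := (j : ℤ)) (by omega)
  exact h.inj ha (Form.degZ_nat.2 haj) hκ

end

end Vale.Agent.P231.CoU
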