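import Vale.Agent.P231.Co.Thom
import Vale.Agent.P231.Fm.Degree

/-!
# P231, stage 2 tools (4): sphere bundles, trivialised

`SB D F` is `D × S(F)`, as a diffeology on `X × F`. A form `σ` on it is extended to `D × F` by
`ext σ = χ(|ξ|) n^*σ` (`n` = normalisation), `si σ = ∫_F dχ n^*σ` is the integral over the sphere.
-/

set_option linter.unusedSectionVars false
set_option linter.unusedVariables false

open MeasureTheory Set Module Filter Topology
open scoped ContDiff

namespace Vale.Agent.P231.Co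

open Vale.Agent.P231.Fm Vale.Agent.P231.W Vale.Agent.P231.H584
open Vale.Agent.P231.Fm (Sm Dif Form Lam)

variable {X Y G : Type*} {D : Dif X} {D' : Dif Y} {DG : Dif G}
variable {F : Type} [NormedAddCommGroup F] [InnerProductSpace ℝ F] [FiniteDimensional ℝ F]

/-- the product with the unit sphere -/
abbrev SB (D : Dif X) (F : Type) [NormedAddCommGroup F] [InnerProductSpace ℝ F] : Dif (X × F) :=
  (D1 D F).on {p | ‖p.2‖ = 1}

/-- the product with the complement of the origin -/
abbrev PB (D : Dif X) (F : Type) [NormedAddCommGroup F] [InnerProductSpace ℝ F] : Dif (X × F) :=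
  (D1 D F).on {p | p.2 ≠ 0}

/-- the normalisation -/
noncomputable def nrm (p : X × F) : X × F := (p.1, ‖p.2‖⁻¹ • p.2)

theorem sm_normalize {E : Type*} [NormedAddCommGroup E] [NormedSpace ℝ E] {f : E → F} {x : E}
    (hf : Sm f x) (h0 : f x ≠ 0) : Sm (fun y => ‖f y‖⁻¹ • f y) x := by
  have h1 : ∀ᶠ y in 𝓝 x, f y ≠ 0 := hf.continuousAt.eventually_ne h0
  filter_upwards [hf, h1] with y h2 h3
  exact ((h2.norm ℝ h3).inv (norm_ne_zero_iff.2 h3)).smul h2

theorem map_nrm : (PB D F).Map (SB D F) nrm := by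
  intro E _ _ _ u x h
  have h0 : (u x).2 ≠ 0 := h.2.self_of_nhds
  refine ⟨⟨h.1.1, sm_normalize h.1.2 h0⟩, ?_⟩
  filter_upwards [h.2] with y hy
  have hy' : (u y).2 ≠ 0 := hy
  change ‖‖(u y).2‖⁻¹ • (u y).2‖ = 1
  rw [norm_smul, norm_inv, norm_norm, inv_mul_cancel₀ (norm_ne_zero_iff.2 hy')]

/-- the cut-off function -/
noncomputable def chi (p : X × F) : ℝ := Real.smoothTransition (2 * ‖p.2‖ ^ 2 - 1)

theorem map_nsq : (D1 D F).Map (Dif.lin ℝ) (fun p => ‖p.2‖ ^ 2) := fun {E} _ _ _ {u x} h =>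
  Sm.comp (f := fun y : F => ‖y‖ ^ 2) (Sm.of_contDiff (contDiff_norm_sq ℝ) _) h.2

theorem contDiff_h : ContDiff ℝ ∞ (fun t : ℝ => Real.smoothTransition (2 * t - 1)) :=
  Real.smoothTransition.contDiff.comp ((contDiff_const.mul contDiff_id).sub contDiff_const)

theorem map_chi : (D1 D F).Map (Dif.lin ℝ) (chi : X × F → ℝ) := fun {E} _ _ _ {u x} h =>
  Sm.comp (f := fun t : ℝ => Real.smoothTransition (2 * t - 1)) (Sm.of_contDiff contDiff_h _)
    (map_nsq h)

theorem chi_eq_one {p : X × F} (h : 1 ≤ ‖p.2‖) : chi p = 1 := by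
  refine Real.smoothTransition.one_of_one_le ?_
  nlinarith [norm_nonneg p.2]

theorem chi_eq_zero {p : X × F} (h : 2 * ‖p.2‖ ^ 2 ≤ 1) : chi p = 0 := by
  refine Real.smoothTransition.zero_of_nonpos ?_
  linarith

/-- the cut-off function as a form -/
noncomputable def chf (D : Dif X) (F : Type) [NormedAddCommGroup F] [InnerProductSpace ℝ F]
    [FiniteDimensional ℝ F] : Form (D1 D F) := Form.fn chi map_chi

theorem sg_chf : (chf D F).sg = chf D F := Form.sg_fn _ _

theorem sg_dchf : (chf D F).d.sg = -(chf D F).d := Form.sg_d_of_even sg_chf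

theorem isDeg_chf : Form.IsDeg 0 (chf D F) := Form.isDeg_fn _ _

theorem supp_chf : (chf D F).Supp {p | p.2 ≠ 0} := by
  refine ⟨fun {E} _ _ _ {u x} hu => ?_⟩
  have hc : Sm (fun y => (u y).2) x := hu.2
  by_cases hx : (u x).2 = 0
  · right
    have h1 : ContinuousAt (fun y => 2 * ‖(u y).2‖ ^ 2) x :=
      continuousAt_const.mul (hc.continuousAt.norm.pow 2)
    have h2 : (fun y => 2 * ‖(u y).2‖ ^ 2) x < 1 := by
      simp [hx]
    filter_upwards [h1.eventually (gt_mem_nhds h2), (D1 D F).open' hu] with y hy hu'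
    rw [chf, Form.fn_val _ _ hu', chi_eq_zero (le_of_lt hy), map_zero]
  · left
    exact hc.continuousAt.eventually_ne hx

/-- the extension of a form on the sphere bundle -/
noncomputable def ext (σ : Form (SB D F)) : Form (D1 D F) :=
  Form.mx (chf D F) supp_chf (Form.pull nrm map_nrm σ : Form (PB D F))

/-- `dχ ∧ n^*σ` -/
noncomputable def dx (σ : Form (SB D F)) : Form (D1 D F) :=
  Form.mx (chf D F).d supp_chf.d (Form.pull nrm map_nrm σ : Form (PB D F))

theorem ext_d (σ : Form (SB D F)) : (ext σ).d = dx σ + ext σ.d := by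
  rw [ext, Form.mx_d, dx, ext, ← Form.pull_d]
  congr 1
  exact Form.mx_congr sg_chf rfl

theorem dx_d (σ : Form (SB D F)) : (dx σ).d = -dx σ.d := by
  rw [dx, Form.mx_d, dx, ← Form.pull_d, Form.mx_eq_zero (Form.d_d _), zero_add, ← Form.neg_mx]
  exact Form.mx_congr sg_dchf rfl

theorem dx_add (σ τ : Form (SB D F)) : dx (σ + τ) = dx σ + dx τ := by
  rw [dx, ← Form.pullA_apply _ map_nrm, map_add, Form.mx_add]
  rfl

theorem dx_sub (σ τ : Form (SB D F)) : dx (σ - τ) = dx σ - dx τ := by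
  rw [dx, ← Form.pullA_apply _ map_nrm, map_sub, Form.mx_sub]
  rfl

theorem dx_smul (c : ℝ) (σ : Form (SB D F)) : dx (c • σ) = c • dx σ := by
  rw [dx, ← Form.pullA_apply _ map_nrm, map_smul, Form.mx_smul]
  rfl

theorem dx_zero : dx (0 : Form (SB D F)) = 0 := by
  rw [dx, pull_zero, Form.mx_zero]

/-- the differential of the cut-off function lives in the unit ball -/
theorem vc_dchf : Vc 1 (chf D F).d := by
  refine ⟨fun {E} _ _ _ {u x} hu hx => ?_⟩
  have h1 : (chf D F).val u =ᶠ[𝓝 x] fun _ => 1 := by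
    filter_upwards [(isO_norm (D := D) (F := F) 1).out hu hx, (D1 D F).open' hu] with y hy hu'
    have hy' : 1 < ‖(u y).2‖ := hy
    rw [chf, Form.fn_val _ _ hu', chi_eq_one hy'.le, map_one]
  rw [Form.d_val _ hu, extd_congr h1, extd_const]

theorem vc_dx (σ : Form (SB D F)) : Vc 1 (dx σ) :=
  ⟨fun {E} _ _ _ {u x} hu hx => by rw [dx, Form.mx_val, vc_dchf.out hu hx, zero_mul]⟩

/-- the projection of the sphere bundle -/
theorem map_sbfst : (SB D F).Map D Prod.fst := fun h => h.1.1

/-- pullback from the base to the sphere bundle -/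
noncomputable def pS (a : Form D) : Form (SB D F) := Form.pull Prod.fst map_sbfst a

/-- pullback from the base to the vector bundle -/
noncomputable def pF (a : Form D) : Form (D1 D F) :=
  Form.pull Prod.fst (Dif.map_fst (D' := Dif.lin F)) a

theorem map_pbfst : (PB D F).Map D Prod.fst := fun h => h.1.1

theorem nrm_pS (a : Form D) : (Form.pull nrm map_nrm (pS a : Form (SB D F)) : Form (PB D F)) =
    Form.res {p | p.2 ≠ 0} (pF a) := by
  refine (pull_pull (k := Prod.fst) map_nrm map_sbfst map_pbfst (fun p => rfl) a).trans ?_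
  exact (pull_pull (k := Prod.fst) Dif.map_on Dif.map_fst map_pbfst (fun p => rfl) a).symm

theorem dx_mul_pS (σ : Form (SB D F)) (a : Form D) : dx (σ * pS a) = dx σ * pF a := by
  rw [dx, dx, Form.mx_mul]
  refine Form.mx_congr rfl ?_
  rw [pull_mul, nrm_pS]

theorem dx_pS_mul (a : Form D) (σ : Form (SB D F)) : dx (pS a * σ) = pF a.sg * dx σ := by
  have h1 : (chf D F).d * (pF a : Form (D1 D F)) = pF a.sg * (chf D F).d := by
    rw [Form.mul_of_odd sg_dchf]
    exact congrArg (· * (chf D F).d)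
      (Form.pull_sg Prod.fst (Dif.map_fst (D := D) (D' := Dif.lin F)) a).symm
  have h2 : (Form.pull nrm map_nrm (pS a * σ) : Form (PB D F)) =
      Form.res {p | p.2 ≠ 0} (pF a) * Form.pull nrm map_nrm σ := by
    rw [pull_mul, nrm_pS]
  rw [dx, dx, h2, Form.mul_mx]
  refine Form.ext_val fun E _ _ _ u x h => ?_
  rw [Form.mx_val, Form.mx_val, ← h1, Form.mul_val]
  rcases (supp_chf (D := D) (F := F)).d.out h with h3 | h3
  · rw [Form.mul_val, Form.res_val _ ⟨h, h3⟩, mul_assoc]
  · rw [h3.self_of_nhds, zero_mul, Form.mul_val, h3.self_of_nhds, zero_mul, zero_mul]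

theorem isDeg_pull_nrm {σ : Form (SB D F)} {j : ℕ} (h : Form.IsDeg j σ) :
    Form.IsDeg (j + 1) (dx σ) := by
  refine Form.ext_val fun E _ _ _ u x hu => ?_
  have h1 := (isDeg_chf (D := D) (F := F)).d
  have h2 := h.pull nrm map_nrm
  rw [Form.part_val, dx, Form.mx_val, add_comm j 1]
  refine WA.prt_mul_of_eq ?_ ?_
  · rw [← Form.part_val, show (1 : ℕ) = 0 + 1 from rfl, h1.part_eq]
  · rw [← Form.part_val, h2.part_eq]

theorem isDeg_ext {σ : Form (SB D F)} {j : ℕ} (h : Form.IsDeg j σ) :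
    Form.IsDeg j (ext σ) := by
  refine Form.ext_val fun E _ _ _ u x hu => ?_
  have h1 := isDeg_chf (D := D) (F := F)
  have h2 := h.pull nrm map_nrm
  rw [Form.part_val, ext, Form.mx_val]
  have h3 := WA.prt_mul_of_eq (j := 0) (k := j) (v := (chf D F).val u x)
    (w := (Form.pull nrm map_nrm σ : Form (PB D F)).val u x) ?_ ?_
  · rwa [zero_add] at h3
  · rw [← Form.part_val, h1.part_eq]
  · rw [← Form.part_val, h2.part_eq]

/-- the extension restricted to the sphere of radius `c ≥ 1` -/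
theorem map_rad (c : ℝ) : (SB D F).Map (D1 D F) (fun p => (p.1, c • p.2)) := fun h =>
  ⟨h.1.1, sm_smul (Sm.of_contDiff contDiff_const _) h.1.2⟩

theorem pull_rad_ext (σ : Form (SB D F)) {c : ℝ} (hc : 1 ≤ c) :
    Form.pull (fun p : X × F => (p.1, c • p.2)) (map_rad c) (ext σ) = σ :=
  Form.ext_val fun E _ _ _ u x h => by
    have hn : ∀ᶠ y in 𝓝 x, ‖(u y).2‖ = 1 := h.2
    have hat : (PB D F).At ((fun p : X × F => (p.1, c • p.2)) ∘ u) x := by
      refine ⟨map_rad c h, ?_⟩
      filter_upwards [hn] with y hy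
      have : (u y).2 ≠ 0 := by
        intro h0
        rw [h0, norm_zero] at hy
        exact zero_ne_one hy
      exact smul_ne_zero (by linarith) this
    rw [Form.pull_val _ _ h, ext, Form.mx_val, Form.pull_val _ _ hat, chf,
      Form.fn_val _ _ (map_rad c h)]
    have h1 : chi (((fun p : X × F => (p.1, c • p.2)) ∘ u) x) = 1 := by
      refine chi_eq_one ?_
      change 1 ≤ ‖c • (u x).2‖
      rw [norm_smul, hn.self_of_nhds, mul_one, Real.norm_of_nonneg (by linarith)]
      exact hc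
    rw [h1, map_one, one_mul]
    refine (σ.congr h ?_).symm
    filter_upwards [hn] with y hy
    change u y = ((u y).1, ‖c • (u y).2‖⁻¹ • c • (u y).2)
    rw [norm_smul, hy, mul_one, Real.norm_of_nonneg (by linarith), smul_smul,
      inv_mul_cancel₀ (by linarith), one_smul]

section Int

variable [MeasurableSpace F] [BorelSpace F] {m : ℕ} (o : OrthonormalBasis (Fin m) ℝ F)

/-- integration over the sphere -/
noncomputable def si (σ : Form (SB D F)) : Form D := Form.fi o (dx σ)

theorem si_add (σ τ : Form (SB D F)) : si o (σ + τ) = si o σ + si o τ := by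
  rw [si, dx_add, Form.fi_add (vc_of_van (vc_dx σ)) (vc_of_van (vc_dx τ))]
  rfl

theorem si_sub (σ τ : Form (SB D F)) : si o (σ - τ) = si o σ - si o τ := by
  rw [si, dx_sub, Form.fi_sub (vc_of_van (vc_dx σ)) (vc_of_van (vc_dx τ))]
  rfl

theorem si_smul (c : ℝ) (σ : Form (SB D F)) : si o (c • σ) = c • si o σ := by
  rw [si, dx_smul, Form.fi_smul c (vc_of_van (vc_dx σ))]
  rfl

theorem si_zero : si o (0 : Form (SB D F)) = 0 := by
  rw [si, dx_zero, Form.fi_zero]

/-- Stokes for the sphere -/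
theorem si_d (σ : Form (SB D F)) : si o σ.d = (-1 : ℝ) ^ (m + 1) • (si o σ).d := by
  have h1 : dx σ.d = -(dx σ).d := by rw [dx_d, neg_neg]
  rw [si, h1, Form.fi_neg (Form.VC.d (vc_of_van (vc_dx σ))),
    Form.fi_d (vc_of_van (vc_dx σ)), pow_succ, mul_neg_one, neg_smul]
  rfl

theorem si_mul_pS (σ : Form (SB D F)) (a : Form D) : si o (σ * pS a) = si o σ * a := by
  rw [si, dx_mul_pS, pF, Form.fi_mul_fst (vc_of_van (vc_dx σ))]
  rfl

theorem si_pS_mul (a : Form D) (σ : Form (SB D F)) :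
    si o (pS a * σ) = (Form.sg^[m + 1] a) * si o σ := by
  rw [si, dx_pS_mul, pF, Form.fi_fst_mul (vc_of_van (vc_dx σ)), ← Function.iterate_succ_apply]
  rfl

theorem si_deg {σ : Form (SB D F)} {k : ℕ} (h : Form.IsDeg (k + m) (dx σ)) :
    Form.IsDeg k (si o σ) := Form.isDeg_fi (vc_of_van (vc_dx σ)) h

theorem isDeg_si {σ : Form (SB D F)} {j k : ℕ} (h : Form.IsDeg j σ) (hj : j + 1 = k + m) :
    Form.IsDeg k (si o σ) := si_deg o (hj ▸ isDeg_pull_nrm h)

theorem si_eq_zero {σ : Form (SB D F)} {j : ℕ} (h : Form.IsDeg j σ) (hj : j + 1 < m) :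
    si o σ = 0 := Form.fi_eq_zero_of_deg (vc_of_van (vc_dx σ)) (isDeg_pull_nrm h) hj

/-- base change of the sphere bundle -/
theorem map_SB {f : X → Y} (hf : D.Map D' f) :
    (SB D F).Map (SB D' F) (fun p => (f p.1, p.2)) := fun h => ⟨⟨hf h.1.1, h.1.2⟩, h.2⟩

theorem pull_dx {f : X → Y} (hf : D.Map D' f) (σ : Form (SB D' F)) :
    Form.pull (fun p : X × F => (f p.1, p.2)) (map_prodF hf) (dx σ) =
      dx (Form.pull (fun p : X × F => (f p.1, p.2)) (map_SB hf) σ) :=
  Form.ext_val fun E _ _ _ u x h => by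
    rw [Form.pull_val _ _ h, dx, dx, Form.mx_val, Form.mx_val]
    have h1 : (chf D F).d.val u x =
        (chf D' F).d.val ((fun p : X × F => (f p.1, p.2)) ∘ u) x := by
      rw [Form.d_val _ h, Form.d_val _ (map_prodF hf h)]
      refine extd_congr ?_
      filter_upwards [(D1 D F).open' h] with y hy
      rw [chf, chf, Form.fn_val _ _ hy, Form.fn_val _ _ (map_prodF hf hy)]
      rfl
    rw [h1]
    rcases (supp_chf (D := D) (F := F)).d.out h with h2 | h2
    · have h3 : (PB D F).At u x := ⟨h, h2⟩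
      have h4 : (PB D' F).At ((fun p : X × F => (f p.1, p.2)) ∘ u) x :=
        ⟨map_prodF hf h, h2⟩
      rw [Form.pull_val _ _ h3, Form.pull_val _ _ h4, Form.pull_val _ _ (map_nrm h3)]
      rfl
    · rw [← h1, h2.self_of_nhds, zero_mul, zero_mul]

theorem si_nat {f : X → Y} (hf : D.Map D' f) (σ : Form (SB D' F)) :
    si o (Form.pull (fun p : X × F => (f p.1, p.2)) (map_SB hf) σ) =
      Form.pull f hf (si o σ) := by
  rw [si, ← pull_dx hf]
  exact Form.fi_nat hf (vc_of_van (vc_dx σ))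

/-- rotations act on the sphere bundle -/
theorem Rt.map_SB {g : G → F →L[ℝ] F} (hg : Rt DG g) :
    (SB DG F).Map (SB DG F) (fun p => (p.1, g p.1 p.2)) := by
  intro E _ _ _ u x h
  refine ⟨hg.map_rot h.1, ?_⟩
  filter_upwards [h.2, DG.open' h.1.1] with y h1 h2
  have h3 : ‖(u y).2‖ = 1 := h1
  change ‖g (u y).1 (u y).2‖ = 1
  rw [hg.iso h2, h3]

theorem pull_rot_dx {g : G → F →L[ℝ] F} (hg : Rt DG g) (σ : Form (SB DG F)) :
    Form.pull (fun p : G × F => (p.1, g p.1 p.2)) hg.map_rot (dx σ) =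
      dx (Form.pull (fun p : G × F => (p.1, g p.1 p.2)) hg.map_SB σ) :=
  Form.ext_val fun E _ _ _ u x h => by
    rw [Form.pull_val _ _ h, dx, dx, Form.mx_val, Form.mx_val]
    have hiso : ∀ᶠ y in 𝓝 x, ∀ ξ, ‖g (u y).1 ξ‖ = ‖ξ‖ := by
      filter_upwards [DG.open' h.1] with y hy using hg.iso hy
    have h1 : (chf DG F).d.val u x =
        (chf DG F).d.val ((fun p : G × F => (p.1, g p.1 p.2)) ∘ u) x := by
      rw [Form.d_val _ h, Form.d_val _ (hg.map_rot h)]
      refine extd_congr ?_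
      filter_upwards [(D1 DG F).open' h, hiso] with y hy h2
      rw [chf, Form.fn_val _ _ hy, Form.fn_val _ _ (hg.map_rot hy)]
      congr 1
      change Real.smoothTransition _ = Real.smoothTransition (2 * ‖g (u y).1 (u y).2‖ ^ 2 - 1)
      rw [h2]
    rw [h1]
    rcases (supp_chf (D := DG) (F := F)).d.out h with h2 | h2
    · have h3 : (PB DG F).At u x := ⟨h, h2⟩
      have h4 : (PB DG F).At ((fun p : G × F => (p.1, g p.1 p.2)) ∘ u) x := by
        refine ⟨hg.map_rot h, ?_⟩
        filter_upwards [h2, hiso] with y h5 h6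
        have h7 : (u y).2 ≠ 0 := h5
        intro h8
        have h9 : g (u y).1 (u y).2 = 0 := h8
        have h10 := h6 (u y).2
        rw [h9, norm_zero] at h10
        exact h7 (norm_eq_zero.1 h10.symm)
      rw [Form.pull_val _ _ h3, Form.pull_val _ _ h4, Form.pull_val _ _ (map_nrm h3)]
      congr 1
      refine σ.congr (map_nrm h4) ?_
      filter_upwards [hiso] with y h6
      change ((u y).1, ‖g (u y).1 (u y).2‖⁻¹ • g (u y).1 (u y).2) =
        ((u y).1, g (u y).1 (‖(u y).2‖⁻¹ • (u y).2))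
      rw [h6, map_smul]
    · rw [← h1, h2.self_of_nhds, zero_mul, zero_mul]

theorem si_rot {g : G → F →L[ℝ] F} (hg : Rt DG g) (σ : Form (SB DG F)) :
    si o (Form.pull (fun p : G × F => (p.1, g p.1 p.2)) hg.map_SB σ) = si o σ := by
  rw [si, ← pull_rot_dx hg, fi_rt o hg (vc_of_van (vc_dx σ))]
  rfl

end Int

end Vale.Agent.P231.Co
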