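import Vale.Agent.P231.Co.RelC
import Vale.Agent.P231.Co.Sph
import Vale.Agent.P231.W.Defs
import Vale.Agent.P231.H775.SmV

/-!
# P231, stage 2 tools: the unit tangent bundle is locally trivial; `H^j(UT) = H^j(M)` below the
dimension of the fibre
-/

set_option maxSynthPendingDepth 3
set_option linter.unusedSectionVars false
set_option linter.unusedVariables false

open Bundle Manifold Set Filter Module
open scoped ContDiff Manifold Topology

namespace Vale.Agent.P231.CoU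

noncomputable section

open Vale.Agent.P234 Vale.Agent.P231 Vale.Agent.P231.Fm Vale.Agent.P231.W Vale.Agent.P231.H775

variable {E : Type*} [NormedAddCommGroup E] [NormedSpace ℝ E] [FiniteDimensional ℝ E]
  {M : Type*} [MetricSpace M] [ChartedSpace E M] [IsManifold 𝓘(ℝ, E) ∞ M]
  [RiemannianBundle (fun x : M => TangentSpace 𝓘(ℝ, E) x)]
  [IsContMDiffRiemannianBundle 𝓘(ℝ, E) ∞ E (fun x : M => TangentSpace 𝓘(ℝ, E) x)]

/-- the domain of the chart -/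
def dom (x₀ : M) : Set M := (extChartAt 𝓘(ℝ, E) x₀).source

/-- the coordinates of a raw vector -/
def crR (x₀ x : M) (w : E) : E := crd (E := E) x₀ x w

/-- the raw vector with given coordinates -/
def vcR (x₀ x : M) (a : E) : E := vec (E := E) x₀ x a

theorem crR_smul (x₀ x : M) (c : ℝ) (w : E) : crR x₀ x (c • w) = c • crR x₀ x w :=
  map_smul (crd (E := E) x₀ x) c (w : TangentSpace 𝓘(ℝ, E) x)

theorem vcR_smul (x₀ x : M) (c : ℝ) (w : E) : vcR x₀ x (c • w) = c • vcR x₀ x w :=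
  map_smul (vec (E := E) x₀ x) c w

theorem crR_zero (x₀ x : M) : crR x₀ x (0 : E) = 0 := map_zero (crd (E := E) x₀ x)

theorem vcR_zero (x₀ x : M) : vcR x₀ x (0 : E) = 0 := map_zero (vec (E := E) x₀ x)

theorem crR_vcR {x₀ x : M} (hx : x ∈ dom (E := E) x₀) (a : E) : crR x₀ x (vcR x₀ x a) = a :=
  crd_vec x₀ hx a

theorem vcR_crR {x₀ x : M} (hx : x ∈ dom (E := E) x₀) (w : E) : vcR x₀ x (crR x₀ x w) = w :=
  vec_crd x₀ hx (w : TangentSpace 𝓘(ℝ, E) x)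

theorem nm_zero' (x : M) : nm x (0 : E) = 0 := norm_zero (E := TangentSpace 𝓘(ℝ, E) x)

theorem nm_pos' {x : M} {w : E} (h : w ≠ 0) : 0 < nm x w :=
  norm_pos_iff (E := TangentSpace 𝓘(ℝ, E) x).2 h

theorem nm_smul' (x : M) (v : E) (c : ℝ) : nm x (c • v) = |c| * nm x v := by
  have key : ∀ v : TangentSpace 𝓘(ℝ, E) x, ‖c • v‖ = |c| * ‖v‖ := fun v => by
    rw [norm_smul, Real.norm_eq_abs]
  exact key v

theorem nm_inv_smul {x : M} {w : E} (h : w ≠ 0) : nm x ((nm x w)⁻¹ • w) = 1 := by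
  have h1 := nm_pos' (x := x) h
  rw [nm_smul', abs_of_pos (inv_pos.2 h1), inv_mul_cancel₀ h1.ne']

/-- the coordinates of a unit vector -/
def cr (x₀ : M) (v : UT E M) : Eu E := (fr (E := E) x₀).symm (crR x₀ (foot v) (vec' v))

/-- the vector with given coordinates -/
def vc (x₀ : M) (p : M × Eu E) : E := vcR x₀ p.1 (fr (E := E) x₀ p.2)

/-- from the unit tangent bundle to the product -/
def Psi (x₀ : M) (v : UT E M) : M × Eu E := (foot v, ‖cr x₀ v‖⁻¹ • cr x₀ v)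

open Classical in
/-- from the product to the unit tangent bundle -/
def Phi (x₀ : M) (v₀ : UT E M) (p : M × Eu E) : UT E M :=
  if h : vc x₀ p = 0 then v₀ else W.mk p.1 ((nm p.1 (vc x₀ p))⁻¹ • vc x₀ p) (nm_inv_smul h)

theorem vc_ne_zero {x₀ : M} {p : M × Eu E} (hx : p.1 ∈ dom (E := E) x₀) (hp : ‖p.2‖ = 1) :
    vc x₀ p ≠ 0 := by
  intro h
  have h1 := congrArg (crR x₀ p.1) h
  rw [vc, crR_vcR hx, crR_zero] at h1
  have h2 : p.2 = 0 := (fr (E := E) x₀).map_eq_zero_iff.1 h1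
  rw [h2, norm_zero] at hp
  exact zero_ne_one hp

theorem vec'_ne (v : UT E M) : (vec' v : E) ≠ 0 := by
  intro h
  have h1 := nm_vec' v
  rw [h, nm_zero'] at h1
  exact zero_ne_one h1

theorem cr_ne_zero {x₀ : M} {v : UT E M} (hx : foot v ∈ dom (E := E) x₀) : cr x₀ v ≠ 0 := by
  intro h
  have h1 : crR x₀ (foot v) (vec' v) = 0 := (fr (E := E) x₀).symm.map_eq_zero_iff.1 h
  have h2 := vcR_crR hx (vec' v)
  rw [h1, vcR_zero] at h2
  exact vec'_ne v h2.symm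

theorem foot_Phi {x₀ : M} {v₀ : UT E M} {p : M × Eu E} (hx : p.1 ∈ dom (E := E) x₀)
    (hp : ‖p.2‖ = 1) : foot (Phi x₀ v₀ p) = p.1 := by
  rw [Phi, dif_neg (vc_ne_zero hx hp)]
  rfl

theorem Phi_Psi {x₀ : M} {v₀ v : UT E M} (hx : foot v ∈ dom (E := E) x₀) :
    Phi x₀ v₀ (Psi x₀ v) = v := by
  have h0 := cr_ne_zero hx
  have hn : 0 < ‖cr x₀ v‖⁻¹ := inv_pos.2 (norm_pos_iff.2 h0)
  have h1 : vc x₀ (Psi x₀ v) = ‖cr x₀ v‖⁻¹ • vec' v := by
    have h2 : fr (E := E) x₀ (Psi x₀ v).2 = ‖cr x₀ v‖⁻¹ • crR x₀ (foot v) (vec' v) := by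
      have h3 : (Psi x₀ v).2 = ‖cr x₀ v‖⁻¹ • cr x₀ v := rfl
      rw [h3, map_smul, cr, ContinuousLinearEquiv.apply_symm_apply]
    have h4 : vc x₀ (Psi x₀ v) = vcR x₀ (foot v) (fr (E := E) x₀ (Psi x₀ v).2) := rfl
    rw [h4, h2, vcR_smul, vcR_crR hx]
  have h5 : vc x₀ (Psi x₀ v) ≠ 0 := by
    rw [h1]
    exact smul_ne_zero hn.ne' (vec'_ne v)
  rw [Phi, dif_neg h5]
  refine (mk_congr rfl ?_).trans (mk_eta v)
  have h6 : nm (Psi x₀ v).1 (vc x₀ (Psi x₀ v)) = ‖cr x₀ v‖⁻¹ := by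
    rw [h1, nm_smul', abs_of_pos hn]
    have h7 : nm (Psi x₀ v).1 (vec' v) = 1 := nm_vec' v
    rw [h7, mul_one]
  rw [h6, h1, smul_smul, inv_mul_cancel₀ hn.ne', one_smul]

variable [CompactSpace M] [ConnectedSpace M] [IsRiemannianManifold 𝓘(ℝ, E) M]

theorem map_Psi {x₀ : M} {O : Set M} (hO : O ⊆ dom (E := E) x₀) :
    ((dUT E M).on (foot ⁻¹' O)).Map (Co.SB ((dM E M).on O) (Eu E)) (Psi x₀) := by
  intro E' _ _ _ u x h
  have h1 : (dUT E M).At u x := h.1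
  have h2 : ∀ᶠ y in 𝓝 x, foot (u y) ∈ O := h.2
  have h3 : (dM E M).At (foot ∘ u) x := map_foot h1
  have h4 : ∀ᶠ y in 𝓝 x, ContMDiffAt 𝓘(ℝ, E') 𝓘(ℝ, E).tangent ∞ (fun s => (u s).1) y := h1
  have h5 : Sm (fun s => cr x₀ (u s)) x := by
    filter_upwards [h4, h2] with y hy hy2
    let w : ∀ s : E', TangentSpace 𝓘(ℝ, E) (foot (u s)) := fun s => (u s).1.snd
    have h6 : SmV (fun s => foot (u s)) w y := hy
    have h7 := ((smV_iff (f := fun s => foot (u s)) (u := w) (s := y) x₀ (hO hy2)).1 h6).2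
    exact ((fr (E := E) x₀).symm.contDiff.contDiffAt).comp y h7
  have h8 : cr x₀ (u x) ≠ 0 := cr_ne_zero (hO h2.self_of_nhds)
  refine ⟨⟨⟨h3, h2⟩, Co.sm_normalize h5 h8⟩, ?_⟩
  filter_upwards [h2] with y hy
  change ‖‖cr x₀ (u y)‖⁻¹ • cr x₀ (u y)‖ = 1
  rw [norm_smul, norm_inv, norm_norm, inv_mul_cancel₀ (norm_ne_zero_iff.2 (cr_ne_zero (hO hy)))]

theorem map_Phi {x₀ : M} {v₀ : UT E M} {O : Set M} (hO : O ⊆ dom (E := E) x₀) :
    (Co.SB ((dM E M).on O) (Eu E)).Map ((dUT E M).on (foot ⁻¹' O)) (Phi x₀ v₀) := by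
  intro E' _ _ _ u x h
  have h1 : ∀ᶠ y in 𝓝 x, ContMDiffAt 𝓘(ℝ, E') 𝓘(ℝ, E) ∞ (fun s => (u s).1) y := h.1.1.1
  have h2 : ∀ᶠ y in 𝓝 x, (u y).1 ∈ O := h.1.1.2
  have h3 : Sm (fun s => (u s).2) x := h.1.2
  have h4 : ∀ᶠ y in 𝓝 x, ‖(u y).2‖ = 1 := h.2
  refine ⟨?_, ?_⟩
  · have h5 : ∀ᶠ y in 𝓝 x, ContMDiffAt 𝓘(ℝ, E') 𝓘(ℝ, E).tangent ∞
        (fun s => (Phi x₀ v₀ (u s)).1) y := by
      filter_upwards [h1, h2, h3, eventually_eventually_nhds.2 h2,
        eventually_eventually_nhds.2 h4] with y k1 k2 k3 k4 k5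
      have hξ : ContDiffAt ℝ ∞ (fun s => fr (E := E) x₀ (u s).2) y :=
        ((fr (E := E) x₀).contDiff.contDiffAt).comp y k3
      let w : ∀ s : E', TangentSpace 𝓘(ℝ, E) (u s).1 := fun s =>
        vec (E := E) x₀ (u s).1 (fr (E := E) x₀ (u s).2)
      have s1 : SmV (fun s => (u s).1) w y :=
        smV_vec (f := fun s => (u s).1) (s := y) x₀ (hO k2) k1 hξ
      have hne : vc x₀ (u y) ≠ 0 := vc_ne_zero (hO k2) k5.self_of_nhds
      have hpos : 0 < nm (u y).1 (vc x₀ (u y)) := nm_pos' hne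
      have s2 : ContDiffAt ℝ ∞ (fun s => nm (u s).1 (vc x₀ (u s))) y := by
        have s3 : ContDiffAt ℝ ∞ (fun s => nm (u s).1 (vc x₀ (u s)) ^ 2) y := s1.norm_sq
        have s4 := s3.sqrt (pow_ne_zero 2 hpos.ne')
        refine s4.congr_of_eventuallyEq (Eventually.of_forall fun s => ?_)
        exact (Real.sqrt_sq (norm_nonneg (E := TangentSpace 𝓘(ℝ, E) (u s).1) _)).symm
      have s5 : SmV (fun s => (u s).1) (fun s => (nm (u s).1 (vc x₀ (u s)))⁻¹ • w s) y :=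
        s1.smul (s2.inv hpos.ne')
      refine ContMDiffAt.congr_of_eventuallyEq s5 ?_
      filter_upwards [k4, k5] with s k6 k7
      rw [Phi, dif_neg (vc_ne_zero (hO k6) k7)]
      rfl
    exact h5
  · filter_upwards [h2, h4] with y k1 k2
    have k3 : foot (Phi x₀ v₀ (u y)) = (u y).1 := foot_Phi (hO k1) k2
    change foot (Phi x₀ v₀ (u y)) ∈ O
    rw [k3]
    exact k1

/-- a unit vector of the coordinate space -/
theorem exists_unit (h : 0 < finrank ℝ E) : ∃ ξ : Eu E, ‖ξ‖ = 1 := by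
  have : Nontrivial (Eu E) := by
    refine Module.nontrivial_of_finrank_pos (R := ℝ) ?_
    rw [finrank_euclideanSpace_fin]
    exact h
  exact exists_norm_eq _ zero_le_one

omit [CompactSpace M] [ConnectedSpace M] [IsRiemannianManifold 𝓘(ℝ, E) M] in
theorem map_sec {B : Type*} {DB : Dif B} {ξ₀ : Eu E} (hξ : ‖ξ₀‖ = 1) :
    DB.Map (Co.SB DB (Eu E)) (fun x => (x, ξ₀)) := fun h =>
  ⟨⟨h, Sm.of_contDiff contDiff_const _⟩, Eventually.of_forall fun _ => hξ⟩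

/-- the trivial bundle -/
theorem relAt_SB {B : Type*} {DB : Dif B} {j : ℤ} {ξ₀ : Eu E} (hξ : ‖ξ₀‖ = 1)
    (h : Form.Sur (j - 1) DB (Co.SB DB (Eu E)) Prod.fst Co.map_sbfst) :
    Form.RelAt j DB (Co.SB DB (Eu E)) Prod.fst Co.map_sbfst :=
  Form.RelAt.of_sec h (map_sec hξ) fun a =>
    Form.pull2_id (f := fun x : B => (x, ξ₀)) (g := Prod.fst) (map_sec hξ) Co.map_sbfst
      (fun _ => rfl) a

/-- the unit tangent bundle over a subset of a chart domain -/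
theorem relAt_loc {x₀ : M} {v₀ : UT E M} {O : Set M} (hO : O ⊆ dom (E := E) x₀) {j : ℤ}
    (h : Form.RelAt j ((dM E M).on O) (Co.SB ((dM E M).on O) (Eu E)) Prod.fst Co.map_sbfst) :
    Form.RelAt j ((dM E M).on O) ((dUT E M).on (foot ⁻¹' O)) foot (Dif.Map.on_pre map_foot O) := by
  refine Form.RelAt.of_iso (Φ := Phi x₀ v₀) (Ψ := Psi x₀) h (map_Phi hO) (map_Psi hO) ?_ ?_ ?_
  · intro κ
    refine Form.ext_val fun E' _ _ _ u x hu => ?_
    rw [Form.pull_val _ _ hu, Form.pull_val _ _ (map_Psi hO hu)]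
    refine (κ.congr hu ?_).symm
    filter_upwards [hu.2] with y hy
    exact (Phi_Psi (hO hy)).symm
  · intro a
    refine Form.ext_val fun E' _ _ _ u x hu => ?_
    rw [Form.pull_val _ _ hu, Form.pull_val _ _ (map_Phi hO hu), Form.pull_val _ _ hu]
    refine (a.congr (Co.map_sbfst hu) ?_).symm
    filter_upwards [hu.1.1.2, hu.2] with y h1 h2
    exact (foot_Phi (hO h1) h2).symm
  · intro a
    exact Form.pull2_one (f := Psi x₀) (g := Prod.fst) (g' := foot) _ _ _ (fun _ => rfl) a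

end

end Vale.Agent.P231.CoU
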