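import Vale.Agent.P231.Co.Bun

/-!
# P231, stage 2 tools (9): integration over the fibres of a sphere bundle, Gysin 1 and 2
-/

set_option linter.unusedSectionVars false
set_option linter.unusedVariables false

open MeasureTheory Set Module Filter Topology
open scoped ContDiff

namespace Vale.Agent.P231.Co

open Vale.Agent.P231.Fm Vale.Agent.P231.W Vale.Agent.P231.H584
open Vale.Agent.P231.Fm (Sm Dif Form Lam)

variable {B S Fr : Type*} {DB : Dif B} {DS : Dif S} {DF : Dif Fr}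
variable {F : Type} [NormedAddCommGroup F] [InnerProductSpace ℝ F] [FiniteDimensional ℝ F]

section Inv

variable {π : S → B} {q : Fr → B} {ev : Fr × F → S}

theorem BasF.add {v w : Form DF} (hv : BasF q ev v) (hw : BasF q ev w) : BasF q ev (v + w) :=
  ⟨by rw [pull_add, pull_add, hv.eq, hw.eq]⟩

theorem BasF.d {w : Form DF} (hw : BasF q ev w) : BasF q ev w.d :=
  ⟨by rw [Form.pull_d, Form.pull_d, hw.eq]⟩

theorem InvS.pS {a : Form DF} (ha : BasF q ev a) : InvS q ev (pS a : Form (SB DF F)) :=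
  ⟨by
    have h1 := am_pS (F := F) (map_gs (DF := DF) (q := q) (ev := ev)) rt_gg a
    have h2 := am_pS (F := F) (map_gt (DF := DF) (q := q) (ev := ev)) rt_id a
    rw [ha.eq, ← h2] at h1
    exact h1⟩

theorem InvF.pF {a : Form DF} (ha : BasF q ev a) : InvF q ev (pF a : Form (D1 DF F)) :=
  ⟨by
    have h1 := am_pF (F := F) (map_gs (DF := DF) (q := q) (ev := ev)) rt_gg a
    have h2 := am_pF (F := F) (map_gt (DF := DF) (q := q) (ev := ev)) rt_id a
    rw [ha.eq, ← h2] at h1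
    exact h1⟩

theorem InvF.chf : InvF q ev (chf DF F) :=
  ⟨by
    have h1 := am_chf (F := F) (map_gs (DF := DF) (q := q) (ev := ev)) rt_gg
    have h2 := am_chf (F := F) (map_gt (DF := DF) (q := q) (ev := ev)) rt_id
    rw [← h2] at h1
    exact h1⟩

theorem InvF.dx {σ : Form (SB DF F)} (hσ : InvS q ev σ) : InvF q ev (dx σ) :=
  ⟨by
    have h1 := am_dx (map_gs (DF := DF) (q := q) (ev := ev)) rt_gg σ
    have h2 := am_dx (map_gt (DF := DF) (q := q) (ev := ev)) rt_id σ
    have e := hσ.eq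
    change Form.pull (am _ _) _ σ = Form.pull (am _ _) _ σ at e
    rw [e, ← h2] at h1
    exact h1⟩

theorem InvF.add {v w : Form (D1 DF F)} (hv : InvF q ev v) (hw : InvF q ev w) :
    InvF q ev (v + w) := ⟨by rw [pull_add, pull_add, hv.eq, hw.eq]⟩

theorem InvF.sub {v w : Form (D1 DF F)} (hv : InvF q ev v) (hw : InvF q ev w) :
    InvF q ev (v - w) := ⟨by rw [pull_sub, pull_sub, hv.eq, hw.eq]⟩

theorem InvF.mul {v w : Form (D1 DF F)} (hv : InvF q ev v) (hw : InvF q ev w) :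
    InvF q ev (v * w) := ⟨by rw [pull_mul, pull_mul, hv.eq, hw.eq]⟩

theorem InvF.one : InvF q ev (1 : Form (D1 DF F)) := ⟨by rw [pull_one, pull_one]⟩

theorem InvS.d {w : Form (SB DF F)} (hw : InvS q ev w) : InvS q ev w.d :=
  ⟨by rw [Form.pull_d, Form.pull_d, hw.eq]⟩

variable [MeasurableSpace F] [BorelSpace F] {m : ℕ} (o : OrthonormalBasis (Fin m) ℝ F)

theorem BasF.si {σ : Form (SB DF F)} (hσ : InvS q ev σ) : BasF q ev (si o σ) :=
  ⟨by
    have h1 := am_si o (map_gs (DF := DF) (q := q) (ev := ev)) rt_gg σ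
    have h2 := am_si o (map_gt (DF := DF) (q := q) (ev := ev)) rt_id σ
    have e := hσ.eq
    change Form.pull (am _ _) _ σ = Form.pull (am _ _) _ σ at e
    rw [e, h2] at h1
    exact h1.symm⟩

theorem BasF.ba {σ : Form (SB DF F)} {τ : Form (D1 DF F)} (hσ : InvS q ev σ)
    (hτ : InvF q ev τ) (hv : Vc 1 τ) : BasF q ev (ba o σ τ) :=
  ⟨by
    have h1 := am_ba o (map_gs (DF := DF) (q := q) (ev := ev)) rt_gg (σ := σ) hv
    have h2 := am_ba o (map_gt (DF := DF) (q := q) (ev := ev)) rt_id (σ := σ) hv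
    have e := hσ.eq
    have e' := hτ.eq
    change Form.pull (am _ _) _ σ = Form.pull (am _ _) _ σ at e
    change Form.pull (am _ _) _ τ = Form.pull (am _ _) _ τ at e'
    rw [e, e', ← h2] at h1
    exact h1⟩

theorem InvS.ka {σ : Form (SB DF F)} {τ : Form (D1 DF F)} (hσ : InvS q ev σ)
    (hτ : InvF q ev τ) (hv : Vc 1 τ) : InvS q ev (ka o σ τ) :=
  ⟨by
    have h1 := am_ka o (map_gs (DF := DF) (q := q) (ev := ev)) rt_gg (σ := σ) hv
    have h2 := am_ka o (map_gt (DF := DF) (q := q) (ev := ev)) rt_id (σ := σ) hv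
    have e := hσ.eq
    have e' := hτ.eq
    change Form.pull (am _ _) _ σ = Form.pull (am _ _) _ σ at e
    change Form.pull (am _ _) _ τ = Form.pull (am _ _) _ τ at e'
    rw [e, e', ← h2] at h1
    exact h1⟩

end Inv

theorem pF_mul_dx (a : Form DF) : dx (pS a : Form (SB DF F)) = pF a.sg * (chf DF F).d := by
  have h1 := dx_pS_mul (F := F) a (1 : Form (SB DF F))
  rw [mul_one] at h1
  rw [h1]
  congr 1
  have h2 : (Form.pull nrm map_nrm (1 : Form (SB DF F)) : Form (PB DF F)) =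
      Form.res {p | p.2 ≠ 0} (1 : Form (D1 DF F)) := by
    rw [pull_one]
    exact Form.res_one.symm
  rw [dx, h2, Form.mx_res, mul_one]

/-- the integral over the fibre of a form of degree zero vanishes -/
theorem fi_one_sub_chf [MeasurableSpace F] [BorelSpace F] {m : ℕ}
    (o : OrthonormalBasis (Fin m) ℝ F) (hm : 0 < m) : Form.fi o (1 - chf DF F) = 0 := by
  have hv : (1 - chf DF F).VC 1 := by
    intro E _ _ _ u x hu hx
    rw [Form.sub_val, Form.one_val hu, chf, Form.fn_val _ _ hu, chi_eq_one hx.le, map_one,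
      sub_self]
  exact Form.fi_eq_zero_of_deg hv (Form.IsDeg.one.sub isDeg_chf) hm

theorem vc_one_sub_chf : Vc 1 (1 - chf DF F) := ⟨fun {E} _ _ _ {u x} hu hx => by
  have hx' : 1 < ‖(u x).2‖ := hx
  rw [Form.sub_val, Form.one_val hu, chf, Form.fn_val _ _ hu, chi_eq_one hx'.le, map_one,
    sub_self]⟩

/-- descent of degrees -/
theorem isDeg_of_pull {Y Z : Type*} {D : Dif Y} {D' : Dif Z} {p : Y → Z} (hp : IsQuo D D' p)
    {a : Form D'} {k : ℕ} (ha : Form.IsDeg k (Form.pull p hp.map a)) : Form.IsDeg k a := by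
  refine pull_inj hp ?_
  rw [← Form.part_pull]
  exact ha

namespace Bun

variable {π : S → B} {q : Fr → B} {ev : Fr × F → S} (h : Bun DB DS DF F π q ev)

/-- pulling back from the base to the frames -/
theorem pull_ev_π (a : Form DB) : Form.pull ev h.hev (Form.pull π h.hπ a) =
    pS (Form.pull q h.hq.map a) := Form.ext_val fun E _ _ _ u x hu => by
  rw [Form.pull_val _ _ hu, Form.pull_val _ _ (h.hev hu), pS, Form.pull_val _ _ hu,
    Form.pull_val _ _ (map_sbfst hu)]
  exact a.congr (h.hπ (h.hev hu)) (h.comm' hu)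

/-- the Thom form on `Fr × F` of an angular form -/
noncomputable def th (ψ : Form DS) (e : Form DB) : Form (D1 DF F) :=
  dx (Form.pull ev h.hev ψ) + (1 - chf DF F) * pF (Form.pull q h.hq.map e)

theorem th_inv (ψ : Form DS) (e : Form DB) : InvF q ev (h.th ψ e) :=
  (InvF.dx (h.invS_pull ψ)).add ((InvF.one.sub InvF.chf).mul (InvF.pF (h.basF_pull e)))

variable [MeasurableSpace F] [BorelSpace F] {m : ℕ} (o : OrthonormalBasis (Fin m) ℝ F)

/-- integration along the fibres of a sphere bundle -/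
noncomputable def SI (σ : Form DS) : Form DB :=
  desc h.hq (si o (Form.pull ev h.hev σ)) (h.bsc_of_basF (BasF.si o (h.invS_pull σ)))

theorem pull_SI (σ : Form DS) :
    Form.pull q h.hq.map (h.SI o σ) = si o (Form.pull ev h.hev σ) := pull_desc _ _

theorem SI_add (σ τ : Form DS) : h.SI o (σ + τ) = h.SI o σ + h.SI o τ := by
  refine pull_inj h.hq ?_
  rw [h.pull_SI o, pull_add, pull_add, si_add, h.pull_SI o, h.pull_SI o]

theorem SI_sub (σ τ : Form DS) : h.SI o (σ - τ) = h.SI o σ - h.SI o τ := by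
  refine pull_inj h.hq ?_
  rw [h.pull_SI o, pull_sub, pull_sub, si_sub, h.pull_SI o, h.pull_SI o]

theorem SI_smul (c : ℝ) (σ : Form DS) : h.SI o (c • σ) = c • h.SI o σ := by
  refine pull_inj h.hq ?_
  rw [h.pull_SI o, pull_smul, pull_smul, si_smul, h.pull_SI o]

theorem SI_zero : h.SI o (0 : Form DS) = 0 := by
  refine pull_inj h.hq ?_
  rw [h.pull_SI o, pull_zero, pull_zero, si_zero]

/-- integration along the fibres as a linear map -/
noncomputable def SIL : Form DS →ₗ[ℝ] Form DB where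
  toFun := h.SI o
  map_add' := h.SI_add o
  map_smul' := h.SI_smul o

/-- Stokes -/
theorem SI_d (σ : Form DS) : h.SI o σ.d = (-1 : ℝ) ^ (m + 1) • (h.SI o σ).d := by
  refine pull_inj h.hq ?_
  rw [h.pull_SI o, pull_smul, Form.pull_d, Form.pull_d, si_d, h.pull_SI o]

theorem SI_mul_π (σ : Form DS) (a : Form DB) :
    h.SI o (σ * Form.pull π h.hπ a) = h.SI o σ * a := by
  refine pull_inj h.hq ?_
  rw [h.pull_SI o, pull_mul, pull_mul, h.pull_ev_π, si_mul_pS, h.pull_SI o]

theorem SI_π_mul (a : Form DB) (σ : Form DS) :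
    h.SI o (Form.pull π h.hπ a * σ) = (Form.sg^[m + 1] a) * h.SI o σ := by
  refine pull_inj h.hq ?_
  rw [h.pull_SI o, pull_mul, pull_mul, h.pull_ev_π, si_pS_mul, h.pull_SI o, sgi_pull]

theorem isDeg_SI {σ : Form DS} {j k : ℕ} (hσ : Form.IsDeg j σ) (hj : j + 1 = k + m) :
    Form.IsDeg k (h.SI o σ) := by
  refine isDeg_of_pull h.hq ?_
  rw [h.pull_SI o]
  exact isDeg_si o (hσ.pull ev h.hev) hj

theorem SI_eq_zero {σ : Form DS} {j : ℕ} (hσ : Form.IsDeg j σ) (hj : j + 1 < m) :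
    h.SI o σ = 0 := by
  refine pull_inj h.hq ?_
  rw [h.pull_SI o, pull_zero]
  exact si_eq_zero o (hσ.pull ev h.hev) hj

/-- an angular form: fibre integral one, differential basic -/
structure Ang (ψ : Form DS) (e : Form DB) : Prop where
  d : ψ.d = -Form.pull π h.hπ e
  one : h.SI o ψ = 1
  deg : Form.IsDeg (m - 1) ψ
  dege : Form.IsDeg m e

variable {ψ : Form DS} {e : Form DB}

/-- the base of the zero section is a quotient map on pullbacks -/
theorem pull_π_inj (o : OrthonormalBasis (Fin m) ℝ F) (hm : 0 < m) {a b : Form DB}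
    (e : Form.pull π h.hπ a = Form.pull π h.hπ b) : a = b := by
  refine pull_inj h.hq ?_
  have h1 := congrArg (Form.pull ev h.hev) e
  rw [h.pull_ev_π, h.pull_ev_π] at h1
  have hs : DF.Map (SB DF F) (fun f => (f, o ⟨0, hm⟩)) := fun {E} _ _ _ {u x} hu =>
    ⟨⟨hu, Sm.of_contDiff contDiff_const _⟩, Eventually.of_forall fun y => o.norm_eq_one _⟩
  have h2 := congrArg (Form.pull _ hs) h1
  rw [pS, pS, pull_pull (k := fun f : Fr => f) hs map_sbfst (fun h => h) (fun f => rfl),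
    pull_pull (k := fun f : Fr => f) hs map_sbfst (fun h => h) (fun f => rfl)] at h2
  have h3 : ∀ w : Form DF, Form.pull (fun f : Fr => f) (fun h => h) w = w := fun w =>
    Form.pull_id _ w
  rwa [h3, h3] at h2

theorem Ang.ed (hψ : h.Ang o ψ e) (hm : 0 < m) : e.d = 0 := by
  refine h.pull_π_inj o hm ?_
  have h1 := congrArg Form.d hψ.d
  rw [Form.d_d, Form.d_neg, ← Form.pull_d] at h1
  rw [pull_zero, ← neg_eq_zero]
  exact h1.symm

theorem th_th (hψ : h.Ang o ψ e) (hm : 0 < m) : Th o (h.th ψ e) where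
  d := by
    have he : (pF (Form.pull q h.hq.map e) : Form (D1 DF F)).d = 0 := by
      refine (Form.pull_d Prod.fst (Dif.map_fst (D := DF) (D' := Dif.lin F)) _).symm.trans ?_
      rw [← Form.pull_d, hψ.ed h o hm, pull_zero, pull_zero]
    have h1 : (Form.pull ev h.hev ψ).d = -pS (Form.pull q h.hq.map e) := by
      rw [← Form.pull_d, hψ.d, pull_neg, h.pull_ev_π]
    have h2 : (dx (Form.pull ev h.hev ψ)).d =
        pF (Form.pull q h.hq.map e).sg * (chf DF F).d := by
      rw [dx_d, h1, ← pF_mul_dx]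
      have : dx (-pS (Form.pull q h.hq.map e) : Form (SB DF F)) =
          -dx (pS (Form.pull q h.hq.map e)) := by
        rw [dx, pull_neg, Form.mx_neg, dx]
      rw [this, neg_neg]
    have h3 : (chf DF F).d * (pF (Form.pull q h.hq.map e) : Form (D1 DF F)) =
        pF (Form.pull q h.hq.map e).sg * (chf DF F).d := by
      rw [Form.mul_of_odd sg_dchf]
      exact congrArg (· * (chf DF F).d)
        (Form.pull_sg Prod.fst (Dif.map_fst (D := DF) (D' := Dif.lin F)) _).symm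
    rw [th, Form.d_add, h2, Form.d_mul, he, mul_zero, add_zero, Form.d_sub, Form.d_one, zero_sub,
      neg_mul, h3, add_neg_cancel]
  vc := (vc_dx _).add (vc_one_sub_chf.mul_right _)
  one := by
    have hv2 : Vc 1 ((1 - chf DF F) * pF (Form.pull q h.hq.map e)) :=
      vc_one_sub_chf.mul_right _
    have h1 : Form.fi o ((1 - chf DF F) * pF (Form.pull q h.hq.map e)) = 0 := by
      rw [pF, Form.fi_mul_fst (vc_of_van vc_one_sub_chf), fi_one_sub_chf o hm, zero_mul]
    rw [th, Form.fi_add (vc_of_van (vc_dx _)) (vc_of_van hv2), h1, add_zero]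
    change si o (Form.pull ev h.hev ψ) = 1
    rw [← h.pull_SI o, hψ.one, pull_one]
  deg := by
    have h1 : Form.IsDeg (m - 1 + 1) (dx (Form.pull ev h.hev ψ)) :=
      isDeg_pull_nrm (hψ.deg.pull ev h.hev)
    have h2 : Form.IsDeg (0 + m) ((1 - chf DF F) * pF (Form.pull q h.hq.map e)) :=
      (Form.IsDeg.one.sub isDeg_chf).mul
        ((hψ.dege.pull q h.hq.map).pull Prod.fst (Dif.map_fst (D := DF) (D' := Dif.lin F)))
    exact (degc h1 (by omega)).add (degc h2 (by omega))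

/-- **GYSIN 2** -/
theorem gysin2 (hψ : h.Ang o ψ e) (hm : 0 < m) {σ : Form DS} (hσ : σ.d = 0)
    (h0 : h.SI o σ = 0) {j : ℕ} (hj : Form.IsDeg j σ) :
    ∃ (a : Form DB) (κ : Form DS), a.d = 0 ∧ Form.IsDeg j a ∧ σ = Form.pull π h.hπ a + κ.d ∧
      (∀ i, j = i + 1 → Form.IsDeg i κ) ∧ (j = 0 → κ = 0) := by
  set σ' : Form (SB DF F) := Form.pull ev h.hev σ with hσ'
  set τ : Form (D1 DF F) := h.th ψ e with hτ
  have ht : Th o τ := h.th_th o hψ hm
  have hi : InvF q ev τ := h.th_inv ψ e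
  have hs : InvS q ev σ' := h.invS_pull σ
  have hd : σ'.d = 0 := by rw [hσ', ← Form.pull_d, hσ, pull_zero]
  have h00 : si o σ' = 0 := by rw [hσ', ← h.pull_SI o, h0, pull_zero]
  have hjj : Form.IsDeg j σ' := hj.pull ev h.hev
  have hb : BasF q ev (ba o σ' τ) := BasF.ba o hs hi ht.vc
  have hk : InvS q ev (ka o σ' τ) := InvS.ka o hs hi ht.vc
  have e1 : Form.pull q h.hq.map (desc h.hq _ (h.bsc_of_basF hb)) = ba o σ' τ := pull_desc _ _
  have e2 : Form.pull ev h.hev (desc h.quo_ev _ (h.bsc_of_invS hk)) = ka o σ' τ :=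
    pull_desc h.quo_ev _
  refine ⟨desc h.hq _ (h.bsc_of_basF hb), desc h.quo_ev _ (h.bsc_of_invS hk), ?_, ?_, ?_, ?_, ?_⟩
  · refine pull_inj h.hq ?_
    rw [Form.pull_d, e1, ba_d o hd h00 ht, pull_zero]
  · refine isDeg_of_pull h.hq ?_
    rw [e1]
    exact isDeg_ba o hjj ht
  · refine pull_inj h.quo_ev ?_
    rw [pull_add, Form.pull_d, e2, h.pull_ev_π, e1]
    exact Co.gysin2 o hd h00 ht
  · rintro i rfl
    refine isDeg_of_pull h.quo_ev ?_
    rw [e2]
    exact isDeg_ka o hjj ht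
  · rintro rfl
    refine pull_inj h.quo_ev ?_
    rw [e2, pull_zero]
    exact ka_zero o hjj ht

theorem SI_closed {σ : Form DS} (hσ : σ.d = 0) : (h.SI o σ).d = 0 := by
  have h1 := h.SI_d o σ
  rw [hσ, h.SI_zero o] at h1
  have h2 : ((-1 : ℝ) ^ (m + 1)) ≠ 0 := pow_ne_zero _ (by norm_num)
  exact (smul_eq_zero.1 h1.symm).resolve_left h2

/-- Gysin 2 with a closed angular form: all closed forms -/
theorem gysin2' (hψ : h.Ang o ψ 0) (hm : 0 < m) {σ : Form DS} (hσ : σ.d = 0) {j : ℕ}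
    (hj : Form.IsDeg j σ) :
    ∃ (a : Form DB) (κ : Form DS), a.d = 0 ∧ Form.IsDeg j a ∧
      σ = ψ * Form.pull π h.hπ (h.SI o σ) + Form.pull π h.hπ a + κ.d ∧
      (∀ i, j = i + 1 → Form.IsDeg i κ) ∧ (j = 0 → κ = 0) := by
  have hb := h.SI_closed o hσ
  have hψd : ψ.d = 0 := by rw [hψ.d, pull_zero, neg_zero]
  have h1 : (ψ * Form.pull π h.hπ (h.SI o σ)).d = 0 := by
    rw [Form.d_mul, hψd, ← Form.pull_d, hb, pull_zero, zero_mul, mul_zero, add_zero]
  have h2 : (σ - ψ * Form.pull π h.hπ (h.SI o σ)).d = 0 := by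
    rw [Form.d_sub, hσ, h1, sub_zero]
  have h3 : h.SI o (σ - ψ * Form.pull π h.hπ (h.SI o σ)) = 0 := by
    rw [h.SI_sub o, h.SI_mul_π o, hψ.one, one_mul, sub_self]
  have h4 : Form.IsDeg j (ψ * Form.pull π h.hπ (h.SI o σ)) := by
    by_cases hjm : j + 1 < m
    · rw [h.SI_eq_zero o hj hjm, pull_zero, mul_zero]
      exact Form.IsDeg.zero j
    · obtain ⟨k, hk⟩ : ∃ k, j + 1 = k + m := ⟨j + 1 - m, by omega⟩
      exact degc (hψ.deg.mul ((h.isDeg_SI o hj hk).pull π h.hπ)) (by omega)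
  obtain ⟨a, κ, ha, hda, he, hk⟩ := h.gysin2 o hψ hm h2 h3 (hj.sub h4)
  refine ⟨a, κ, ha, hda, ?_, hk⟩
  rw [add_assoc, ← he]
  abel

/-- **GYSIN 1** -/
theorem gysin1 (hψ : h.Ang o ψ e) {w : Form DB} {η : Form DS} (hη : Form.pull π h.hπ w = η.d) :
    Form.sg^[m + 1] w = h.SI o η.sg * e + (-1 : ℝ) ^ (m + 1) • (h.SI o (η * ψ)).d := by
  have h1 : (η * ψ).d = Form.pull π h.hπ w * ψ - η.sg * Form.pull π h.hπ e := by
    rw [Form.d_mul, ← hη, hψ.d, mul_neg, sub_eq_add_neg]
  have h2 := h.SI_d o (η * ψ)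
  rw [h1, h.SI_sub o, h.SI_π_mul o, h.SI_mul_π o, hψ.one, mul_one] at h2
  rw [← h2]
  abel

end Bun

end Vale.Agent.P231.Co
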