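import Vale.Agent.P231.Co.BunPb

/-!
# P231, stage 2 tools (11): fibre integration and the antipodal map of the fibres
-/

set_option linter.unusedSectionVars false
set_option linter.unusedVariables false

open MeasureTheory Set Module Filter Topology
open scoped ContDiff

namespace Vale.Agent.P231.Co

open Vale.Agent.P231.Fm Vale.Agent.P231.W Vale.Agent.P231.H584
open Vale.Agent.P231.Fm (Sm Dif Form Lam)

variable {X : Type*} {D : Dif X}
variable {B S Fr : Type*} {DB : Dif B} {DS : Dif S} {DF : Dif Fr}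
variable {F : Type} [NormedAddCommGroup F] [InnerProductSpace ℝ F] [FiniteDimensional ℝ F]
variable [MeasurableSpace F] [BorelSpace F] {m : ℕ} (o : OrthonormalBasis (Fin m) ℝ F)

theorem map_negS : (SB D F).Map (SB D F) (fun p : X × F => (p.1, -p.2)) :=
  fun {E} _ _ _ {u x} h => ⟨Form.map_negF h.1, h.2.mono fun y hy => by
    have h3 : ‖(u y).2‖ = 1 := hy
    change ‖-(u y).2‖ = 1
    rw [norm_neg, h3]⟩

theorem pull_neg_dx (σ : Form (SB D F)) :
    Form.pull (fun p : X × F => (p.1, -p.2)) Form.map_negF (dx σ) =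
      dx (Form.pull (fun p : X × F => (p.1, -p.2)) map_negS σ) :=
  Form.ext_val fun E _ _ _ u x h => by
    rw [Form.pull_val _ _ h, dx, dx, Form.mx_val, Form.mx_val]
    have h1 : (chf D F).d.val u x =
        (chf D F).d.val ((fun p : X × F => (p.1, -p.2)) ∘ u) x := by
      rw [Form.d_val _ h, Form.d_val _ (Form.map_negF h)]
      refine extd_congr ?_
      filter_upwards [(D1 D F).open' h] with y hy
      rw [chf, Form.fn_val _ _ hy, Form.fn_val _ _ (Form.map_negF hy)]
      congr 1
      change Real.smoothTransition _ = Real.smoothTransition (2 * ‖-(u y).2‖ ^ 2 - 1)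
      rw [norm_neg]
    rw [h1]
    rcases (supp_chf (D := D) (F := F)).d.out h with h2 | h2
    · have h3 : (PB D F).At u x := ⟨h, h2⟩
      have h4 : (PB D F).At ((fun p : X × F => (p.1, -p.2)) ∘ u) x := by
        refine ⟨Form.map_negF h, ?_⟩
        filter_upwards [h2] with y h5
        have h7 : (u y).2 ≠ 0 := h5
        exact neg_ne_zero.2 h7
      rw [Form.pull_val _ _ h3, Form.pull_val _ _ h4, Form.pull_val _ _ (map_nrm h3)]
      congr 1
      refine σ.congr (map_nrm h4) (Eventually.of_forall fun y => ?_)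
      change ((u y).1, ‖-(u y).2‖⁻¹ • -(u y).2) = ((u y).1, -(‖(u y).2‖⁻¹ • (u y).2))
      rw [norm_neg, smul_neg]
    · rw [← h1, h2.self_of_nhds, zero_mul, zero_mul]

theorem si_neg_pull (σ : Form (SB D F)) :
    si o (Form.pull (fun p : X × F => (p.1, -p.2)) map_negS σ) = (-1 : ℝ) ^ m • si o σ := by
  rw [si, ← pull_neg_dx, Form.fi_neg_pull (vc_of_van (vc_dx σ))]
  rfl

/-- fibre integration and the antipodal map of the fibres -/
theorem Bun.SI_neg {π : S → B} {q : Fr → B} {ev : Fr × F → S} (h : Bun DB DS DF F π q ev)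
    {ν : S → S} (hν : DS.Map DS ν)
    (h1 : ∀ {E : Type} [NormedAddCommGroup E] [NormedSpace ℝ E] [FiniteDimensional ℝ E]
      {u : E → Fr × F} {x : E}, (SB DF F).At u x → ν (ev (u x)) = ev ((u x).1, -(u x).2))
    (w : Form DS) : h.SI o (Form.pull ν hν w) = (-1 : ℝ) ^ m • h.SI o w := by
  refine pull_inj h.hq ?_
  rw [h.pull_SI o, pull_smul, h.pull_SI o, ← si_neg_pull o]
  congr 1
  refine Form.ext_val fun E _ _ _ u x hu => ?_
  rw [Form.pull_val _ _ hu, Form.pull_val _ _ (h.hev hu), Form.pull_val _ _ hu,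
    Form.pull_val _ _ (map_negS hu)]
  refine w.congr (hν (h.hev hu)) ?_
  filter_upwards [(SB DF F).open' hu] with y hy using h1 hy

end Vale.Agent.P231.Co
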