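import Vale.Agent.P231.WA.Deg
import Vale.Agent.P231.WG.Fibre

/-!
# P231, stage 2: algebra of constant forms

Separation by contractions; slices and linear maps of the fibre.
-/

set_option linter.unusedSectionVars false
set_option linter.unusedVariables false

open MeasureTheory Set Module Filter Topology
open scoped ContDiff

namespace Vale.Agent.P231.Co

open Vale.Agent.P231.Fm Vale.Agent.P231.Q Vale.Agent.P231.WA Vale.Agent.P231.WG

noncomputable section

variable {E : Type*} [NormedAddCommGroup E] [NormedSpace ℝ E] [FiniteDimensional ℝ E]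
variable {F : Type*} [NormedAddCommGroup F] [NormedSpace ℝ F] [FiniteDimensional ℝ F]
variable {W : Type*} [NormedAddCommGroup W] [NormedSpace ℝ W] [FiniteDimensional ℝ W]
  [MeasurableSpace W] [BorelSpace W]

/-! ### separation -/

/-- contraction as a function of the vector -/
def iL (w : Lam E) : E →L[ℝ] Lam E :=
  LinearMap.toContinuousLinearMap
    { toFun := fun v => iprod v w
      map_add' := fun u v => iprod_add u v w
      map_smul' := fun c v => iprod_smul c v w }

theorem iL_apply (w : Lam E) (v : E) : iL w v = iprod v w := rfl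

theorem dLin_iL_dx_mul (a : E →L[ℝ] ℝ) (w : Lam E) :
    dLin (iL (dx a * w)) = dx a * w + dx a * dLin (iL w) := by
  have h1 : iL (dx a * w) = (a : E →L[ℝ] ℝ).smulRight w -
      ContinuousLinearMap.mul ℝ (Lam E) (dx a) ∘L iL w := by
    refine ContinuousLinearMap.ext fun v => ?_
    change iprod v (dx a * w) = a v • w - dx a * iprod v w
    rw [iprod_dx_mul]
  rw [h1, map_sub, dLin_smulRight, dLin_mul_left, inv_dx]
  noncomm_ring

/-- the Euler operator -/
theorem prt_euler (k : ℕ) (w : Lam E) : prt k (dLin (iL w)) = (k : ℝ) • prt k w := by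
  induction w using Lam.left_ind generalizing k with
  | h1 r =>
    have h1 : iL (algebraMap ℝ (Lam E) r) = 0 :=
      ContinuousLinearMap.ext fun v => iprod_algebraMap v r
    rw [h1, map_zero, map_zero, prt_algebraMap]
    split_ifs with h
    · rw [h, Nat.cast_zero, zero_smul]
    · rw [smul_zero]
  | h2 a w hw =>
    rw [← dx_eq, dLin_iL_dx_mul, map_add]
    cases k with
    | zero =>
      rw [prt_zero_dx_mul, prt_zero_dx_mul, Nat.cast_zero, zero_smul, add_zero]
    | succ k =>
      rw [prt_succ_dx_mul, prt_succ_dx_mul, hw, mul_smul_comm, Nat.cast_succ, add_smul, one_smul,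
        add_comm]
  | h3 v w hv hw =>
    have h1 : iL (v + w) = iL v + iL w :=
      ContinuousLinearMap.ext fun x => map_add (iprod x) v w
    rw [h1, map_add, map_add, hv, hw, map_add, smul_add]

/-- a form killed by all contractions is a constant -/
theorem eq_aug_of_iprod {w : Lam E} (hw : ∀ v, iprod v w = 0) :
    w = algebraMap ℝ (Lam E) (aug w) := by
  have h0 : iL w = 0 := ContinuousLinearMap.ext hw
  have h1 : ∀ k, k ≠ 0 → prt k w = 0 := by
    intro k hk
    have h2 := prt_euler k w
    rw [h0, map_zero, map_zero] at h2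
    exact (smul_eq_zero.1 h2.symm).resolve_left (Nat.cast_ne_zero.2 hk)
  rw [← prt_zero]
  conv_lhs => rw [← sum_prt (Nat.lt_succ_self _) w]
  rw [Finset.sum_eq_single 0 (fun k _ hk => h1 k hk) (fun h => absurd (Finset.mem_range.2
    (Nat.succ_pos _)) h)]

theorem prt_cont' {k : ℕ} (j : ℕ) (v : Fin k → E) (w : Lam E) :
    prt j (cont v w) = cont v (prt (j + k) w) := by
  induction k generalizing w with
  | zero => rfl
  | succ k ih => rw [cont_succ, cont_succ, ih, prt_iprod, add_assoc]

/-- separation by contractions -/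
theorem eq_zero_of_cont {w : Lam E} (hw : ∀ (k : ℕ) (v : Fin k → E), aug (cont v w) = 0) :
    w = 0 := by
  have key : ∀ (j k : ℕ), k + j = finrank ℝ E + 1 → ∀ v : Fin k → E, cont v w = 0 := by
    intro j
    induction j with
    | zero =>
      intro k hk v
      have h1 : ∀ m, prt m (cont v w) = 0 := fun m => by
        rw [prt_cont', prt_eq_zero (by omega), map_zero]
      rw [← sum_prt (Nat.lt_succ_self _) (cont v w)]
      exact Finset.sum_eq_zero fun m _ => h1 m
    | succ j ih =>
      intro k hk v
      have h1 : ∀ u, iprod u (cont v w) = 0 := by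
        intro u
        have h2 : cont (Fin.cons u v : Fin (k + 1) → E) w = 0 := ih (k + 1) (by omega) _
        rw [cont_succ] at h2
        have h3 : (fun i : Fin k => (Fin.cons u v : Fin (k + 1) → E) i.succ) = v := by
          funext i
          simp
        rw [h3, Fin.cons_zero] at h2
        rw [iprod_cont, h2, smul_zero]
      rw [eq_aug_of_iprod h1, hw k v, map_zero]
  have h := key (finrank ℝ E + 1) 0 (by omega) Fin.elim0
  exact h

theorem ext_cont {v w : Lam E}
    (h : ∀ (k : ℕ) (x : Fin k → E), aug (cont x v) = aug (cont x w)) : v = w := by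
  refine sub_eq_zero.1 (eq_zero_of_cont fun k x => ?_)
  rw [map_sub, map_sub, h, sub_self]

/-! ### forms annihilated by the vertical vectors -/

theorem cont_congr_vert {k : ℕ} {A B : Fin k → E × W} (hAB : ∀ i, (A i).1 = (B i).1)
    {w : Lam (E × W)} (hw : ∀ u : W, iprod ((0, u) : E × W) w = 0) : cont A w = cont B w := by
  induction k generalizing w with
  | zero => rfl
  | succ k ih =>
    rw [cont_succ, cont_succ]
    have h1 : A 0 = B 0 + ((0, (A 0).2 - (B 0).2) : E × W) := by
      ext
      · simp [hAB 0]
      · simp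
    have h2 : iprod (A 0) w = iprod (B 0) w := by
      rw [h1, iprod_add, hw, add_zero]
    rw [h2]
    refine ih (fun i => hAB i.succ) fun u => ?_
    rw [iprod_anticomm, hw, map_zero, neg_zero]

/-- the pullback of a form annihilated by the vertical vectors only depends on the horizontal
part of the linear map -/
theorem pull_congr_vert {A B : F →L[ℝ] E × W} (hAB : ∀ x, (A x).1 = (B x).1)
    {w : Lam (E × W)} (hw : ∀ u : W, iprod ((0, u) : E × W) w = 0) :
    Fm.pull A w = Fm.pull B w := by
  refine ext_cont fun k x => ?_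
  rw [pull_cont, pull_cont, aug_pull, aug_pull]
  rw [cont_congr_vert (fun i => hAB (x i)) hw]

theorem iprod_sum_vert {k : ℕ} (b : Fin k → W) (c : Fin k → ℝ) (w : Lam (E × W)) :
    iprod ((0, ∑ i, c i • b i) : E × W) w = ∑ i, c i • iprod (vert (E := E) b i) w := by
  have h4 : ∀ s : Finset (Fin k), iprod ((0, ∑ i ∈ s, c i • b i) : E × W) w =
      ∑ i ∈ s, c i • iprod (vert (E := E) b i) w := by
    intro s
    induction s using Finset.induction_on with
    | empty =>
      rw [Finset.sum_empty, Finset.sum_empty]
      exact iprod_zero_left w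
    | insert i s hi ih =>
      rw [Finset.sum_insert hi, Finset.sum_insert hi, ← ih]
      have h5 : ((0, c i • b i + ∑ j ∈ s, c j • b j) : E × W) =
          c i • vert (E := E) b i + (0, ∑ j ∈ s, c j • b j) := by simp [vert]
      rw [h5, iprod_add, iprod_smul]
  exact h4 _

/-- contraction with a full vertical basis leaves nothing vertical -/
theorem iprod_vert_cont {k : ℕ} (b : Basis (Fin k) ℝ W) (u : W) (w : Lam (E × W)) :
    iprod ((0, u) : E × W) (cont (vert (E := E) b) w) = 0 := by
  have h1 : u = ∑ j, b.repr u j • b j := (b.sum_repr u).symm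
  rw [h1, iprod_sum_vert]
  refine Finset.sum_eq_zero fun i _ => ?_
  rw [iprod_cont, cont_eq_zero_aux _ _ _ ⟨i, rfl⟩, smul_zero, smul_zero]

/-- the fibre volume changes by the determinant -/
theorem cont_vert_map {k : ℕ} (b : Basis (Fin k) ℝ W) (g : W →L[ℝ] W) (w : Lam (E × W)) :
    cont (fun i => ((0, g (b i)) : E × W)) w =
      LinearMap.det (g : W →ₗ[ℝ] W) • cont (vert (E := E) b) w := by
  refine ext_cont fun l x => ?_
  let f : W [⋀^Fin k]→ₗ[ℝ] Lam (E × W) :=
    (contA (k := k) w).compLinearMap (LinearMap.inr ℝ E W)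
  let φ : W [⋀^Fin k]→ₗ[ℝ] ℝ := (aug.toLinearMap ∘ₗ cont x).compAlternatingMap f
  have h := φ.eq_smul_basis_det b
  have h2 : φ (fun i => g (b i)) = (φ b • b.det) (fun i => g (b i)) := by rw [← h]
  have h3 : b.det (fun i => g (b i)) = LinearMap.det (g : W →ₗ[ℝ] W) := by
    refine (Basis.det_comp_basis b b (g : W →ₗ[ℝ] W)).trans ?_
    rw [Basis.equiv_refl]
    rfl
  rw [AlternatingMap.smul_apply, smul_eq_mul, h3, mul_comm] at h2
  rw [map_smul, map_smul, smul_eq_mul]
  exact h2

/-- **slices and fibrewise linear maps** -/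
theorem slice_pull_fib {k : ℕ} (b : Basis (Fin k) ℝ W) (T : E →L[ℝ] W) (g : W →L[ℝ] W)
    {L : E × W →L[ℝ] E × W} (hL : ∀ a c, L (a, c) = (a, T a + g c)) (w : Lam (E × W)) :
    slice b (Fm.pull L w) = LinearMap.det (g : W →ₗ[ℝ] W) • slice b w := by
  rw [slice_apply, slice_apply, pull_cont, ← pull_comp_apply]
  have h1 : (fun i => L (vert (E := E) b i)) = fun i => ((0, g (b i)) : E × W) := by
    funext i
    rw [vert, hL, map_zero, zero_add]
  rw [h1, cont_vert_map, map_smul]
  congr 1
  refine pull_congr_vert (fun x => ?_) (fun u => iprod_vert_cont b u w)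
  change (L (x, 0)).1 = x
  rw [hL]

/-- naturality of slices in the base -/
theorem slice_pull_prodMap (L : E →L[ℝ] F) {k : ℕ} (v : Fin k → W) (w : Lam (F × W)) :
    slice v (Fm.pull (L.prodMap (ContinuousLinearMap.id ℝ W)) w) = Fm.pull L (slice v w) := by
  rw [slice_apply, slice_apply, pull_cont, ← pull_comp_apply, ← pull_comp_apply]
  have h : (L.prodMap (ContinuousLinearMap.id ℝ W)).comp (ContinuousLinearMap.inl ℝ E W) =
      (ContinuousLinearMap.inl ℝ F W).comp L := by
    refine ContinuousLinearMap.ext fun y => ?_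
    simp
  have h2 : (fun i => (L.prodMap (ContinuousLinearMap.id ℝ W)) (vert v i)) = vert v := by
    funext i
    simp [vert]
  rw [h, h2]

theorem cont_pf_mul {k : ℕ} (v : Fin k → W) (w : Lam (E × W)) (a : Lam E) :
    cont (vert v) (pf a * w) = pf (inv^[k] a) * cont (vert v) w := by
  induction k generalizing w a with
  | zero => rfl
  | succ k ih =>
    rw [cont_succ, cont_succ]
    have h : (fun i : Fin k => vert (E := E) v i.succ) = vert fun i => v i.succ := rfl
    have h1 : iprod (vert (E := E) v 0) (pf a * w) = pf (inv a) * iprod (vert v 0) w := by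
      rw [iprod_mul, vert, iprod_vert_pf, zero_mul, zero_add, pf, pf, pull_inv]
    rw [h1, h, ih, Function.iterate_succ_apply]

theorem slice_pf_mul {k : ℕ} (v : Fin k → W) (w : Lam (E × W)) (a : Lam E) :
    slice v (pf a * w) = inv^[k] a * slice v w := by
  rw [slice_apply, slice_apply, cont_pf_mul, map_mul, pull_inl_pf]

end

end Vale.Agent.P231.Co
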