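import Vale.Agent.P231.Co.On
import Vale.Agent.P231.Co.Fi
import Vale.Agent.P231.H584.Flow

/-!
# P231, stage 2 tools (3): the rotation trick (Thom isomorphism)

`Ω`, `τ` closed forms on `D × F` with compact vertical support. On `D × F × F` the form
`p₁^*Ω ∧ p₂^*τ` is rotated to `p₂^*Ω ∧ p₁^*τ`, and integrated over the second factor.
-/

set_option linter.unusedSectionVars false
set_option linter.unusedVariables false

open MeasureTheory Set Module Filter Topology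
open scoped ContDiff

namespace Vale.Agent.P231.Co

open Vale.Agent.P231.Fm Vale.Agent.P231.W Vale.Agent.P231.H584
open Vale.Agent.P231.Fm (Sm Dif Form Lam)

variable {X Y G : Type*} {D : Dif X} {D' : Dif Y} {DG : Dif G}

/-! ### vanishing on a set -/

/-- `w` vanishes in all plots through points of `A` -/
structure Van (A : Set X) (w : Form D) : Prop where
  out : ∀ {E : Type} [NormedAddCommGroup E] [NormedSpace ℝ E] [FiniteDimensional ℝ E]
    {u : E → X} {x : E}, D.At u x → u x ∈ A → w.val u x = 0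

/-- `A` is open for the diffeology `D` -/
structure IsO (D : Dif X) (A : Set X) : Prop where
  out : ∀ {E : Type} [NormedAddCommGroup E] [NormedSpace ℝ E] [FiniteDimensional ℝ E]
    {u : E → X} {x : E}, D.At u x → u x ∈ A → ∀ᶠ y in 𝓝 x, u y ∈ A

theorem pull_zero {f : X → Y} (hf : D.Map D' f) : Form.pull f hf (0 : Form D') = 0 :=
  map_zero (Form.pullA f hf)

theorem pull_mul {f : X → Y} (hf : D.Map D' f) (a b : Form D') :
    Form.pull f hf (a * b) = Form.pull f hf a * Form.pull f hf b :=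
  map_mul (Form.pullA f hf) a b

theorem pull_add {f : X → Y} (hf : D.Map D' f) (a b : Form D') :
    Form.pull f hf (a + b) = Form.pull f hf a + Form.pull f hf b :=
  map_add (Form.pullA f hf) a b

theorem pull_sub {f : X → Y} (hf : D.Map D' f) (a b : Form D') :
    Form.pull f hf (a - b) = Form.pull f hf a - Form.pull f hf b :=
  map_sub (Form.pullA f hf) a b

theorem pull_neg {f : X → Y} (hf : D.Map D' f) (a : Form D') :
    Form.pull f hf (-a) = -Form.pull f hf a := map_neg (Form.pullA f hf) a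

theorem pull_smul {f : X → Y} (hf : D.Map D' f) (c : ℝ) (a : Form D') :
    Form.pull f hf (c • a) = c • Form.pull f hf a := map_smul (Form.pullA f hf) c a

theorem pull_one {f : X → Y} (hf : D.Map D' f) : Form.pull f hf (1 : Form D') = 1 :=
  map_one (Form.pullA f hf)

section Van

variable {A B : Set X} {w v : Form D}

theorem Van.mono (h : Van B w) (hAB : A ⊆ B) : Van A w := ⟨fun hu hx => h.out hu (hAB hx)⟩

theorem Van.zero : Van A (0 : Form D) := ⟨fun _ _ => rfl⟩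

theorem Van.add (h : Van A w) (h' : Van A v) : Van A (w + v) := ⟨fun hu hx => by
  rw [Form.add_val, h.out hu hx, h'.out hu hx, add_zero]⟩

theorem Van.neg (h : Van A w) : Van A (-w) := ⟨fun hu hx => by
  rw [Form.neg_val, h.out hu hx, neg_zero]⟩

theorem Van.sub (h : Van A w) (h' : Van A v) : Van A (w - v) := ⟨fun hu hx => by
  rw [Form.sub_val, h.out hu hx, h'.out hu hx, sub_zero]⟩

theorem Van.smul (h : Van A w) (c : ℝ) : Van A (c • w) := ⟨fun hu hx => by
  rw [Form.smul_val, h.out hu hx, smul_zero]⟩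

theorem Van.mul_left (h : Van A w) (v : Form D) : Van A (v * w) := ⟨fun hu hx => by
  rw [Form.mul_val, h.out hu hx, mul_zero]⟩

theorem Van.mul_right (h : Van A w) (v : Form D) : Van A (w * v) := ⟨fun hu hx => by
  rw [Form.mul_val, h.out hu hx, zero_mul]⟩

theorem Van.sg (h : Van A w) : Van A w.sg := ⟨fun hu hx => by
  rw [Form.sg_val, h.out hu hx, map_zero]⟩

theorem Van.d (h : Van A w) (hA : IsO D A) : Van A w.d := by
  refine ⟨fun {E} _ _ _ {u x} hu hx => ?_⟩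
  have h1 : w.val u =ᶠ[𝓝 x] fun _ => 0 := by
    filter_upwards [hA.out hu hx, D.open' hu] with y hy hu' using h.out hu' hy
  rw [Form.d_val _ hu, extd_congr h1, extd_const]

theorem Van.pull {f : Y → X} (hf : D'.Map D f) (h : Van A w) :
    Van (f ⁻¹' A) (Form.pull f hf w) := ⟨fun hu hx => by
  rw [Form.pull_val hf _ hu, h.out (hf hu) hx]⟩

theorem Van.part (h : Van A w) (k : ℕ) : Van A (Form.part k w) := ⟨fun hu hx => by
  rw [Form.part_val, h.out hu hx, map_zero]⟩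

theorem Van.KT {w : Form (D.prod (Dif.lin ℝ))} (h : Van (Prod.fst ⁻¹' A) w) (c : ℝ) :
    Van A (KT c w) := by
  refine ⟨fun {E} _ _ _ {u x} hu hx => ?_⟩
  rw [KT_val _ _ hu]
  have h1 : ∀ t : ℝ, co w u x t = 0 := fun t => by
    have h2 : w.val (Form.cyl u) (x, t) = 0 := h.out (Form.cyl_at hu t) hx
    rw [co, h2, map_zero]
  simp only [h1, intervalIntegral.integral_zero]

end Van

section Fibre

variable {F : Type} [NormedAddCommGroup F] [InnerProductSpace ℝ F] [FiniteDimensional ℝ F]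

theorem isO_norm (R : ℝ) : IsO (D.prod (Dif.lin F)) {p | R < ‖p.2‖} := by
  refine ⟨fun {E} _ _ _ {u x} hu hx => ?_⟩
  have h0 : Sm (fun y => (u y).2) x := hu.2
  have h1 : ContinuousAt (fun y => (u y).2) x := h0.continuousAt
  exact h1.norm.eventually (lt_mem_nhds hx)

theorem van_of_vc {w : Form (D.prod (Dif.lin F))} {R : ℝ} (h : w.VC R) :
    Van {p : X × F | R < ‖p.2‖} w := ⟨h⟩

theorem vc_of_van {w : Form (D.prod (Dif.lin F))} {R : ℝ}
    (h : Van {p : X × F | R < ‖p.2‖} w) : w.VC R := h.out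

/-- the base `D × F` -/
abbrev D1 (D : Dif X) (F : Type) [NormedAddCommGroup F] [InnerProductSpace ℝ F] : Dif (X × F) :=
  D.prod (Dif.lin F)

/-- forms with vertical support in the ball of radius `R` -/
abbrev Vc (R : ℝ) (w : Form (D1 D F)) : Prop := Van {p : X × F | R < ‖p.2‖} w

variable [MeasurableSpace F] [BorelSpace F] {m : ℕ} (o : OrthonormalBasis (Fin m) ℝ F)

/-! ### rotations -/

/-- a smooth family of rotations of `F` -/
structure Rt (DG : Dif G) (g : G → F →L[ℝ] F) : Prop where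
  map : DG.Map (Dif.lin (F →L[ℝ] F)) g
  iso : ∀ {E : Type} [NormedAddCommGroup E] [NormedSpace ℝ E] [FiniteDimensional ℝ E]
    {u : E → G} {x : E}, DG.At u x → ∀ ξ, ‖g (u x) ξ‖ = ‖ξ‖
  det : ∀ {E : Type} [NormedAddCommGroup E] [NormedSpace ℝ E] [FiniteDimensional ℝ E]
    {u : E → G} {x : E}, DG.At u x → LinearMap.det ((g (u x) : F →L[ℝ] F) : F →ₗ[ℝ] F) = 1

theorem sm_clm {E V W : Type*} [NormedAddCommGroup E] [NormedSpace ℝ E] [NormedAddCommGroup V]
    [NormedSpace ℝ V] [NormedAddCommGroup W] [NormedSpace ℝ W] {g : E → V →L[ℝ] W} {f : E → V}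
    {x : E} (hg : Sm g x) (hf : Sm f x) : Sm (fun y => g y (f y)) x := by
  filter_upwards [hg, hf] with y h1 h2 using h1.clm_apply h2

theorem sm_add {E V : Type*} [NormedAddCommGroup E] [NormedSpace ℝ E] [NormedAddCommGroup V]
    [NormedSpace ℝ V] {g f : E → V} {x : E} (hg : Sm g x) (hf : Sm f x) :
    Sm (fun y => g y + f y) x := by
  filter_upwards [hg, hf] with y h1 h2 using h1.add h2

theorem sm_smul {E V : Type*} [NormedAddCommGroup E] [NormedSpace ℝ E] [NormedAddCommGroup V]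
    [NormedSpace ℝ V] {g : E → ℝ} {f : E → V} {x : E} (hg : Sm g x) (hf : Sm f x) :
    Sm (fun y => g y • f y) x := by
  filter_upwards [hg, hf] with y h1 h2 using h1.smul h2

theorem sm_neg {E V : Type*} [NormedAddCommGroup E] [NormedSpace ℝ E] [NormedAddCommGroup V]
    [NormedSpace ℝ V] {g : E → V} {x : E} (hg : Sm g x) : Sm (fun y => -g y) x := by
  filter_upwards [hg] with y h1 using h1.neg

theorem Rt.comp {g : G → F →L[ℝ] F} (hg : Rt DG g) {G' : Type*} {DG' : Dif G'} {h : G' → G}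
    (hh : DG'.Map DG h) : Rt DG' (fun p => g (h p)) where
  map := fun hu => hg.map (hh hu)
  iso := fun hu => hg.iso (hh hu)
  det := fun hu => hg.det (hh hu)

theorem Rt.map_rot {g : G → F →L[ℝ] F} (hg : Rt DG g) :
    (DG.prod (Dif.lin F)).Map (DG.prod (Dif.lin F)) (fun p => (p.1, g p.1 p.2)) :=
  fun hu => ⟨hu.1, sm_clm (hg.map hu.1) hu.2⟩

/-- the fibre integral is invariant under rotations of the fibre -/
theorem fi_rt {g : G → F →L[ℝ] F} (hg : Rt DG g) {w : Form (DG.prod (Dif.lin F))} {R : ℝ}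
    (hw : w.VC R) : Form.fi o (Form.pull (fun p => (p.1, g p.1 p.2)) hg.map_rot w) =
      Form.fi o w := Form.ext_val fun E _ _ _ u x h => by
  have hv : (Form.pull (fun p => (p.1, g p.1 p.2)) hg.map_rot w).VC R := by
    intro E _ _ _ u x hu hx
    rw [Form.pull_val hg.map_rot _ hu]
    refine hw (hg.map_rot hu) ?_
    change R < ‖g (u x).1 (u x).2‖
    rwa [hg.iso hu.1]
  rw [Form.fi_val hv h, Form.fi_val hw h]
  have hs : Sm (g ∘ u) x := hg.map h
  refine Eq.trans ?_ (fib_rot o (w.val (cylF u)) hs.differentiableAt (hg.det h))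
  refine integral_congr_ae (ae_of_all _ fun ξ => ?_)
  have h1 : (fun p : G × F => (p.1, g p.1 p.2)) ∘ cylF u =
      cylF u ∘ fun p : E × F => (p.1, (g ∘ u) p.1 p.2) := rfl
  have h2 : Sm (fun p : E × F => (p.1, (g ∘ u) p.1 p.2)) (x, ξ) := by
    refine Sm.prodMk (Sm.of_contDiff contDiff_fst _) (sm_clm ?_ (Sm.of_contDiff contDiff_snd _))
    exact Sm.comp (f := g ∘ u) (g := Prod.fst) (x := ((x, ξ) : E × F)) hs
      (Sm.of_contDiff contDiff_fst _)
  change slice o _ = slice o _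
  rw [Form.pull_val hg.map_rot _ (cylF_at h ξ), h1, w.nat (u := cylF u)
    (g := fun p : E × F => (p.1, (g ∘ u) p.1 p.2)) (x := (x, ξ)) (cylF_at h _) h2]
  rfl

/-! ### the rotation trick -/

theorem map_p2 : ((D1 D F).prod (Dif.lin F)).Map (D1 D F) (fun p => (p.1.1, p.2)) :=
  fun h => ⟨h.1.1, h.2⟩

/-- the rotation of `F ⊕ F` by the angle `t` -/
noncomputable def rt (p : ((X × F) × F) × ℝ) : (X × F) × F :=
  ((p.1.1.1, Real.cos p.2 • p.1.1.2 + Real.sin p.2 • p.1.2),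
    Real.cos p.2 • p.1.2 + (-Real.sin p.2) • p.1.1.2)

theorem map_rt : (((D1 D F).prod (Dif.lin F)).prod (Dif.lin ℝ)).Map
    ((D1 D F).prod (Dif.lin F)) rt := by
  intro E _ _ _ u x h
  have h1 : Sm (fun y => (u y).1.1.2) x := h.1.1.2
  have h2 : Sm (fun y => (u y).1.2) x := h.1.2
  have h3 : Sm (fun y => (u y).2) x := h.2
  have hc : Sm (fun y => Real.cos (u y).2) x :=
    Sm.comp (f := Real.cos) (Sm.of_contDiff Real.contDiff_cos _) h3
  have hs : Sm (fun y => Real.sin (u y).2) x :=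
    Sm.comp (f := Real.sin) (Sm.of_contDiff Real.contDiff_sin _) h3
  exact ⟨⟨h.1.1.1, sm_add (sm_smul hc h1) (sm_smul hs h2)⟩,
    sm_add (sm_smul hc h2) (sm_smul (sm_neg hs) h1)⟩

/-- `p₁^*Ω ∧ p₂^*τ` -/
noncomputable def WW (Ω τ : Form (D1 D F)) : Form ((D1 D F).prod (Dif.lin F)) :=
  Form.pull (Prod.fst : (X × F) × F → X × F) (Dif.map_fst (D' := Dif.lin F)) Ω *
    Form.pull (fun p : (X × F) × F => (p.1.1, p.2)) map_p2 τ

/-- the primitive on `D × F × F` -/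
noncomputable def RW (Ω τ : Form (D1 D F)) : Form ((D1 D F).prod (Dif.lin F)) :=
  KT (Real.pi / 2) (Form.pull rt map_rt (WW Ω τ))

variable {Ω τ : Form (D1 D F)} {R : ℝ}

theorem norm_rot (a b : F) (t : ℝ) : ‖Real.cos t • a + Real.sin t • b‖ ^ 2 +
    ‖Real.cos t • b + (-Real.sin t) • a‖ ^ 2 = ‖a‖ ^ 2 + ‖b‖ ^ 2 := by
  have h1 := @norm_add_sq_real F _ _ (Real.cos t • a) (Real.sin t • b)
  have h2 := @norm_add_sq_real F _ _ (Real.cos t • b) ((-Real.sin t) • a)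
  rw [h1, h2]
  simp only [norm_smul, real_inner_smul_left, real_inner_smul_right, Real.norm_eq_abs, mul_pow,
    sq_abs, abs_neg]
  rw [real_inner_comm b a]
  have h3 := Real.sin_sq_add_cos_sq t
  linear_combination (‖a‖ ^ 2 + ‖b‖ ^ 2) * h3

theorem van_WW (hΩ : Vc R Ω) (hτ : Vc R τ) :
    Van {p : (X × F) × F | R < ‖p.1.2‖ ∨ R < ‖p.2‖} (WW Ω τ) := by
  refine ⟨fun {E} _ _ _ {u x} hu hx => ?_⟩
  rcases hx with hx | hx
  · exact ((hΩ.pull (Dif.map_fst (D' := Dif.lin F))).mul_right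
      (Form.pull (fun p : (X × F) × F => (p.1.1, p.2)) map_p2 τ)).out hu hx
  · exact ((hτ.pull map_p2).mul_left
      (Form.pull (Prod.fst : (X × F) × F → X × F) (Dif.map_fst (D' := Dif.lin F)) Ω)).out hu hx

theorem van_rt (hR : 0 ≤ R) (hΩ : Vc R Ω) (hτ : Vc R τ) :
    Van {p : ((X × F) × F) × ℝ | 2 * R ^ 2 < ‖p.1.1.2‖ ^ 2 + ‖p.1.2‖ ^ 2}
      (Form.pull rt map_rt (WW Ω τ)) := by
  refine ((van_WW hΩ hτ).pull map_rt).mono ?_
  intro p hp
  by_contra hc
  simp only [mem_preimage, mem_ofPred_eq, not_or, not_lt] at hc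
  have h1 := norm_rot p.1.1.2 p.1.2 p.2
  have h2 : ‖(rt p).1.2‖ ^ 2 ≤ R ^ 2 := pow_le_pow_left₀ (norm_nonneg _) hc.1 2
  have h3 : ‖(rt p).2‖ ^ 2 ≤ R ^ 2 := pow_le_pow_left₀ (norm_nonneg _) hc.2 2
  have h4 : ‖(rt p).1.2‖ ^ 2 + ‖(rt p).2‖ ^ 2 = ‖p.1.1.2‖ ^ 2 + ‖p.1.2‖ ^ 2 := h1
  have h5 : 2 * R ^ 2 < ‖p.1.1.2‖ ^ 2 + ‖p.1.2‖ ^ 2 := hp
  linarith

theorem van_RW (hR : 0 ≤ R) (hΩ : Vc R Ω) (hτ : Vc R τ) :
    Van {p : (X × F) × F | 2 * R ^ 2 < ‖p.1.2‖ ^ 2 + ‖p.2‖ ^ 2} (RW Ω τ) :=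
  Van.KT (A := {p : (X × F) × F | 2 * R ^ 2 < ‖p.1.2‖ ^ 2 + ‖p.2‖ ^ 2})
    ((van_rt hR hΩ hτ).mono fun p hp => by
      have h1 : 2 * R ^ 2 < ‖p.1.1.2‖ ^ 2 + ‖p.1.2‖ ^ 2 := hp
      exact h1) _

theorem sq_lt_of {R a b : ℝ} (hR : 0 ≤ R) (h : 2 * R < a) : 2 * R ^ 2 < a ^ 2 + b ^ 2 := by
  nlinarith [sq_nonneg b, sq_nonneg (a - 2 * R)]

theorem vc_RW (hR : 0 ≤ R) (hΩ : Vc R Ω) (hτ : Vc R τ) : Vc (2 * R) (RW Ω τ) := by
  refine (van_RW hR hΩ hτ).mono fun p hp => ?_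
  have h1 : 2 * R < ‖p.2‖ := hp
  have h2 := sq_lt_of (b := ‖p.1.2‖) hR h1
  change 2 * R ^ 2 < ‖p.1.2‖ ^ 2 + ‖p.2‖ ^ 2
  linarith

/-- the fibre integral keeps the support in the first factor -/
theorem vc_fi_RW (hR : 0 ≤ R) (hΩ : Vc R Ω) (hτ : Vc R τ) :
    Vc (2 * R) (Form.fi o (RW Ω τ)) := by
  refine ⟨fun {E} _ _ _ {u x} hu hx => ?_⟩
  rw [Form.fi_val (vc_of_van (vc_RW hR hΩ hτ)) hu, fib]
  have h1 : ∀ ξ : F, (RW Ω τ).val (cylF u) (x, ξ) = 0 := fun ξ =>
    (van_RW hR hΩ hτ).out (u := cylF u) (x := (x, ξ)) (cylF_at hu ξ) (sq_lt_of hR hx)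
  simp only [h1, map_zero, integral_zero]

theorem at_zero_rt : at_ 0 (Form.pull rt map_rt (WW Ω τ)) = WW Ω τ := by
  rw [at_, pull_pull (k := fun p : (X × F) × F => p) (Form.map_slice 0) map_rt (fun h => h)
    (fun p => by simp [rt]) (WW Ω τ)]
  exact Form.pull_id _ _

theorem at_half_rt : at_ (Real.pi / 2) (Form.pull rt map_rt (WW Ω τ)) =
    Form.pull (fun p : (X × F) × F => (p.1.1, p.2)) map_p2 Ω *
      Form.pull (Prod.fst : (X × F) × F → X × F) (Dif.map_fst (D' := Dif.lin F))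
        (Form.pull (fun p : X × F => (p.1, -p.2)) Form.map_negF τ) := by
  have hk : ((D1 D F).prod (Dif.lin F)).Map ((D1 D F).prod (Dif.lin F))
      (fun p => ((p.1.1, p.2), -p.1.2)) := fun h =>
    ⟨⟨h.1.1, h.2⟩, sm_neg h.1.2⟩
  have hk2 : ((D1 D F).prod (Dif.lin F)).Map (D1 D F) (fun p => (p.1.1, -p.1.2)) := fun h =>
    ⟨h.1.1, sm_neg h.1.2⟩
  rw [at_, pull_pull (k := fun p : (X × F) × F => ((p.1.1, p.2), -p.1.2))
    (Form.map_slice (Real.pi / 2)) map_rt hk (fun p => by simp [rt]) (WW Ω τ), WW,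
    ← Form.pullA_apply _ hk, map_mul, Form.pullA_apply, Form.pullA_apply]
  rw [pull_pull (k := fun p : (X × F) × F => (p.1.1, p.2)) hk Dif.map_fst map_p2 (fun p => rfl) Ω,
    pull_pull (k := fun p : (X × F) × F => (p.1.1, -p.1.2)) hk map_p2 hk2 (fun p => rfl) τ,
    pull_pull (k := fun p : (X × F) × F => (p.1.1, -p.1.2)) Dif.map_fst Form.map_negF hk2
      (fun p => rfl) τ]

theorem d_WW (dΩ : Ω.d = 0) (dτ : τ.d = 0) : (WW Ω τ).d = 0 := by
  have h1 : (Form.pull (Prod.fst : (X × F) × F → X × F) (Dif.map_fst (D' := Dif.lin F)) Ω).d =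
      0 := by
    rw [← Form.pull_d, dΩ]
    exact pull_zero _
  have h2 : (Form.pull (fun p : (X × F) × F => (p.1.1, p.2)) map_p2 τ).d = 0 := by
    rw [← Form.pull_d, dτ]
    exact pull_zero _
  rw [WW, Form.d_mul, h1, h2, zero_mul, mul_zero, add_zero]

/-- **the rotation trick** -/
theorem rotation (hR : 0 ≤ R) (hΩ : Vc R Ω) (hτ : Vc R τ) (dΩ : Ω.d = 0) (dτ : τ.d = 0) :
    Form.pull (Prod.fst : X × F → X) (Dif.map_fst (D' := Dif.lin F)) (Form.fi o Ω) *
        Form.pull (fun p : X × F => (p.1, -p.2)) Form.map_negF τ -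
      (Form.sg^[m] Ω) * Form.pull (Prod.fst : X × F → X) (Dif.map_fst (D' := Dif.lin F))
        (Form.fi o τ) = (-1 : ℝ) ^ m • (Form.fi o (RW Ω τ)).d := by
  have hK := KT_homotopy (Real.pi / 2) (Form.pull rt map_rt (WW Ω τ))
  rw [at_zero_rt, at_half_rt, ← Form.pull_d, d_WW dΩ dτ, pull_zero, KT_zero, zero_add] at hK
  have hv : Vc R (Form.pull (fun p : (X × F) × F => (p.1.1, p.2)) map_p2 Ω) := hΩ.pull map_p2
  have hv1 : Vc R (WW Ω τ) := (van_WW hΩ hτ).mono fun p hp => Or.inr hp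
  have hv2 := hv.mul_right (Form.pull (Prod.fst : (X × F) × F → X × F)
    (Dif.map_fst (D' := Dif.lin F)) (Form.pull (fun p : X × F => (p.1, -p.2)) Form.map_negF τ))
  have hw : Vc R (Form.pull (fun p : (X × F) × F => (p.1.1, p.2)) map_p2 τ) := hτ.pull map_p2
  have e := congrArg (Form.fi o) hK
  change Form.fi o _ = Form.fi o (RW Ω τ).d at e
  rw [Form.fi_sub (vc_of_van hv2) (vc_of_van hv1), Form.fi_d (vc_of_van (vc_RW hR hΩ hτ)),
    Form.fi_mul_fst (vc_of_van hv), WW, Form.fi_fst_mul (vc_of_van hw)] at e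
  have e1 : Form.fi o (Form.pull (fun p : (X × F) × F => (p.1.1, p.2)) map_p2 Ω) =
      Form.pull (Prod.fst : X × F → X) (Dif.map_fst (D' := Dif.lin F)) (Form.fi o Ω) :=
    Form.fi_nat Dif.map_fst (vc_of_van hΩ)
  have e2 : Form.fi o (Form.pull (fun p : (X × F) × F => (p.1.1, p.2)) map_p2 τ) =
      Form.pull (Prod.fst : X × F → X) (Dif.map_fst (D' := Dif.lin F)) (Form.fi o τ) :=
    Form.fi_nat Dif.map_fst (vc_of_van hτ)
  rw [e1, e2] at e
  exact e

end Fibre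

end Vale.Agent.P231.Co
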