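import Vale.Agent.P231.Co.Gen
import Vale.Agent.P231.Co.BunC
import Vale.Agent.P231.S2I.DegC

/-!
# P231, stage 2 tools (M8): closed forms of top degree on `M`
-/

set_option maxSynthPendingDepth 3
set_option linter.unusedSectionVars false
set_option linter.unusedVariables false

open Bundle Manifold Set Filter Module
open scoped ContDiff Manifold Topology

namespace Vale.Agent.P231.CoTop

noncomputable section

open Vale.Agent.P234 Vale.Agent.P231 Vale.Agent.P231.Fm Vale.Agent.P231.W Vale.Agent.P231.H775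
open Vale.Agent.P231.WE Vale.Agent.P231.CoC

/-- a covector of top degree vanishes on spheres -/
theorem pull_sphere_zero {V T : Type*} [NormedAddCommGroup V] [NormedSpace ℝ V]
    [FiniteDimensional ℝ V] [NormedAddCommGroup T] [InnerProductSpace ℝ T]
    [FiniteDimensional ℝ T] {g : V → T} {x : V} (hg : DifferentiableAt ℝ g x)
    (hn : ∀ᶠ y in 𝓝 x, ‖g y‖ = ‖g x‖) (h0 : g x ≠ 0) {W : Lam T}
    (hW : W ∈ WF.hom T (finrank ℝ T)) : Fm.pull (fderiv ℝ g x) W = 0 := by
  have h1 : (innerSL ℝ (g x)).comp (fderiv ℝ g x) = 0 := by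
    have k1 := hg.hasFDerivAt.norm_sq
    have k2 : (fun y => ‖g y‖ ^ 2) =ᶠ[𝓝 x] fun _ => ‖g x‖ ^ 2 := by
      filter_upwards [hn] with y hy
      rw [hy]
    have k3 := (k1.congr_of_eventuallyEq k2.symm).unique (hasFDerivAt_const (‖g x‖ ^ 2) x)
    rw [← Nat.cast_smul_eq_nsmul ℝ] at k3
    exact (smul_eq_zero.1 k3).resolve_left (by norm_num)
  have h2 : Fm.dx (innerSL ℝ (g x)) * W = 0 := by
    refine WF.eq_zero_of_mem_hom (k := 1 + finrank ℝ T) (by omega) ?_
    exact WF.mul_mem_hom (WF.dx_mem_hom _) hW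
  have h3 := congrArg (Fm.iprod (g x)) h2
  rw [iprod_dx_mul, map_zero, innerSL_apply_apply, real_inner_self_eq_norm_sq] at h3
  have h4 := congrArg (Fm.pull (fderiv ℝ g x)) h3
  rw [map_sub, map_smul, map_mul, pull_dx, h1, map_zero, zero_mul, sub_zero, map_zero] at h4
  exact (smul_eq_zero.1 h4).resolve_left (pow_ne_zero _ (norm_ne_zero_iff.2 h0))

variable {E : Type*} [NormedAddCommGroup E] [NormedSpace ℝ E] [FiniteDimensional ℝ E]
  {M : Type*} [MetricSpace M] [ChartedSpace E M] [IsManifold 𝓘(ℝ, E) ∞ M]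
  [RiemannianBundle (fun x : M => TangentSpace 𝓘(ℝ, E) x)]
  [IsContMDiffRiemannianBundle 𝓘(ℝ, E) ∞ E (fun x : M => TangentSpace 𝓘(ℝ, E) x)]
  {e : ∀ x : M, TangentSpace 𝓘(ℝ, E) x → M}

variable [CompactSpace M] [ConnectedSpace M] [IsRiemannianManifold 𝓘(ℝ, E) M]

/-- forms of top degree vanish on the cut locus -/
theorem cut_top (F : Facts e) {D : ℝ} (hD : 0 < D) (p : M) {w : Form (dM E M)}
    (hw : Form.IsDeg (finrank ℝ E) w) : Form.pull id (map_dC F D p) w = 0 := by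
  have hq : ((dUT E M).on (up p)).Map (dC e D p) (bar e D) := Dif.map_quot
  have key : Form.pull (bar e D) hq (Form.pull id (map_dC F D p) w) = 0 := by
    refine Form.ext_val fun V _ _ _ u x hu => ?_
    rw [Form.pull_val _ _ hu, Form.pull_val _ _ (hq hu), Form.zero_val]
    have h1 : (dM E M).At (bar e D ∘ u) x := CoC.map_bar F D hu.1
    have h2 : ∀ᶠ y in 𝓝 x, foot (u y) = p := hu.2
    let P : Eu E → M := fun ξ => e p (fI (E := E) p ξ)
    let g : V → Eu E := fun y => (fI (E := E) p).symm (D • vp p (u y))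
    have hg : Sm g x := by
      filter_upwards [sm_vecp hu] with y hy
      exact (fI (E := E) p).symm.contDiff.contDiffAt.comp y (hy.const_smul D)
    have hP : ∀ ξ, (dM E M).At P ξ := by
      intro ξ
      have h5 : ∀ᶠ y in 𝓝 ξ, ContMDiffAt 𝓘(ℝ, Eu E) 𝓘(ℝ, E) ∞ P y := by
        filter_upwards with y
        have k5 : ContDiffAt ℝ ∞ (fun y => fI (E := E) p y) y := (fI (E := E) p).contDiff.contDiffAt
        exact (contMDiff_exp_fiber F.isExp p).contMDiffAt.comp y k5.contMDiffAt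
      exact h5
    have h3 : bar e D ∘ u =ᶠ[𝓝 x] P ∘ g := by
      filter_upwards [h2] with y hy
      show bar e D (u y) = e p (fI (E := E) p ((fI (E := E) p).symm (D • vp p (u y))))
      rw [LinearIsometryEquiv.apply_symm_apply]
      exact bar_vp hy
    have hn : ∀ y, foot (u y) = p → ‖g y‖ = D := by
      intro y hy
      show ‖(fI (E := E) p).symm (D • vp p (u y))‖ = D
      rw [LinearIsometryEquiv.norm_map, norm_smul, norm_vp hy, mul_one,
        Real.norm_of_nonneg hD.le]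
    have h4 : w.val (bar e D ∘ u) x = w.val (P ∘ g) x := w.congr h1 h3
    rw [Function.id_comp, h4, w.nat (hP _) hg]
    refine pull_sphere_zero hg.differentiableAt ?_ ?_ ?_
    · filter_upwards [h2] with y hy
      rw [hn y hy, hn x h2.self_of_nhds]
    · rw [← norm_ne_zero_iff, hn x h2.self_of_nhds]
      exact hD.ne'
    · have h6 := DegC.toWF hw (hP (g x))
      rwa [finrank_euclideanSpace, Fintype.card_fin]
  refine Form.pull_quot_inj (D := (dUT E M).on (up p)) (q := bar e D) (key.trans ?_)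
  exact (Form.pull_zero' _ _).symm

/-- closed forms on the punctured ball with vanishing integral over the spheres -/
theorem punct_zero (F : Facts e) {D : ℝ} (hD : 0 < D) (hB : InjGE e D) (p : M) {j : ℕ}
    {σ : Form ((dM E M).on (bl p D ∩ pc p))} (hσ : σ.d = 0) (hσj : Form.IsDeg (j + 1) σ)
    (h0 : Co.si (EuclideanSpace.basisFun (Fin (finrank ℝ E)) ℝ)
      (Form.pull (pol e p) (map_pol F hB p) σ) = 0) :
    ∃ ν : Form ((dM E M).on (bl p D ∩ pc p)), σ = ν.d := by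
  set o := EuclideanSpace.basisFun (Fin (finrank ℝ E)) ℝ with ho
  obtain ⟨τ, hτ⟩ := Co.exists_th (F := Eu E) o ((Dif.lin ℝ).on (Ioo 0 D))
  have hd : (Form.pull (pol e p) (map_pol F hB p) σ).d = 0 := by
    rw [← Form.pull_d, hσ, Form.pull_zero']
  have h1 := Co.gysin2 o hd h0 hτ
  have h2 := Co.ba_d o hd h0 hτ
  have h3 := Co.isDeg_ba o (hσj.pull (pol e p) (map_pol F hB p)) hτ
  obtain ⟨b, hb⟩ := (contr_Ioo hD).exact h2 h3
  have hpb : σ = Form.pull (lop e p) (map_lop F hB p)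
      (Form.pull (pol e p) (map_pol F hB p) σ) := by
    refine Form.ext_val fun V _ _ _ u x hu => ?_
    rw [Form.pull_val _ _ hu, Form.pull_val _ _ (map_lop F hB p hu)]
    refine σ.congr hu ?_
    filter_upwards [hu.2] with y hy
    exact (pol_lop F hB hy).symm
  refine ⟨Form.pull (lop e p) (map_lop F hB p)
    (Co.pS b + Co.ka o (Form.pull (pol e p) (map_pol F hB p) σ) τ), ?_⟩
  have h4 : (Co.pS b : Form (Co.SB ((Dif.lin ℝ).on (Ioo 0 D)) (Eu E))).d =
      Co.pS (Co.ba o (Form.pull (pol e p) (map_pol F hB p) σ) τ) := by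
    rw [Co.pS, ← Form.pull_d, ← hb]
    rfl
  rw [← Form.pull_d, Form.d_add, h4, ← h1]
  exact hpb

/-- closed forms of top degree on the spheres around `p` -/
theorem punct_top (F : Facts e) {D : ℝ} (hD : 0 < D) (hB : InjGE e D) (p : M) {j : ℕ}
    (hN : finrank ℝ E = j + 2) {σ σ₀ : Form ((dM E M).on (bl p D ∩ pc p))} (hσ : σ.d = 0)
    (hσj : Form.IsDeg (j + 1) σ) (hσ₀ : σ₀.d = 0) (hσ₀j : Form.IsDeg (j + 1) σ₀) :
    (∃ ν : Form ((dM E M).on (bl p D ∩ pc p)), σ₀ = ν.d) ∨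
      ∃ (c : ℝ) (ν : Form ((dM E M).on (bl p D ∩ pc p))), σ = c • σ₀ + ν.d := by
  set o := EuclideanSpace.basisFun (Fin (finrank ℝ E)) ℝ with ho
  have key : ∀ σ : Form ((dM E M).on (bl p D ∩ pc p)), σ.d = 0 → Form.IsDeg (j + 1) σ →
      ∃ c : ℝ, Co.si o (Form.pull (pol e p) (map_pol F hB p) σ) =
        c • (1 : Form ((Dif.lin ℝ).on (Ioo 0 D))) := by
    intro σ hσ hσj
    refine (contr_Ioo hD).const ?_ ?_
    · have h5 := Co.si_d o (Form.pull (pol e p) (map_pol F hB p) σ)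
      rw [← Form.pull_d, hσ, Form.pull_zero', Co.si_zero] at h5
      exact (smul_eq_zero.1 h5.symm).resolve_left (pow_ne_zero _ (by norm_num))
    · exact Co.isDeg_si o (hσj.pull (pol e p) (map_pol F hB p)) (by omega)
  obtain ⟨b, hb⟩ := key σ₀ hσ₀ hσ₀j
  obtain ⟨a, ha⟩ := key σ hσ hσj
  rcases eq_or_ne b 0 with h0 | h0
  · left
    rw [h0, zero_smul] at hb
    exact punct_zero F hD hB p hσ₀ hσ₀j hb
  · right
    obtain ⟨ν, hν⟩ := punct_zero F hD hB p (j := j) (σ := σ - (a / b) • σ₀)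
      (by rw [Form.d_sub, Form.d_smul, hσ, hσ₀, smul_zero, sub_zero]) (hσj.sub (hσ₀j.smul _))
      (by
        rw [Form.pull_sub', Co.pull_smul, Co.si_sub, Co.si_smul, ha, hb, smul_smul,
          div_mul_cancel₀ _ h0, sub_self])
    exact ⟨a / b, ν, by rw [← hν]; abel⟩

/-- gluing of primitives -/
theorem glue (F : Facts e) {D : ℝ} (hD : 0 < D) (hB : InjGE e D) (p : M) {w : Form (dM E M)}
    {κ₀ : Form ((dM E M).on (bl p D))} {κ₁ : Form ((dM E M).on (pc p))}
    (e0 : κ₀.d = Form.res (bl p D) w) (e1 : κ₁.d = Form.res (pc p) w)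
    {ν : Form ((dM E M).on (bl p D ∩ pc p))}
    (hν : Form.pull id (Dif.map_on_mono inter_subset_right) κ₁ -
      Form.pull id (Dif.map_on_mono inter_subset_left) κ₀ = ν.d) :
    ∃ Γ : Form (dM E M), w = Γ.d := by
  have hs : (pw F hD hB p).sg = pw F hD hB p := Form.sg_fn _ _
  have h1 := supp_pw F hD hB p
  have h2 := supp_one_sub_pw F hD hB p
  have hcomm : pc p ∩ bl p D = bl p D ∩ pc p := inter_comm _ _
  have hm : ((dM E M).on (pc p ∩ bl p D)).Map ((dM E M).on (bl p D ∩ pc p)) id := by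
    rw [hcomm]
    exact Dif.map_id
  refine ⟨Form.mx _ h1 κ₁ + Form.mx _ h2 κ₀ +
      Form.mx _ (Form.supp_d_inter h1 h2) (Form.pull id hm ν), ?_⟩
  refine (Form.d_mv hs h1 h2 _ _ _ e1 e0 ?_).symm
  have k1 : Form.pull id hm (Form.pull id (Dif.map_on_mono inter_subset_right) κ₁) =
      Form.pull id (Dif.map_on_mono inter_subset_left) κ₁ :=
    Form.pull2_one (f := id) (g := id) (g' := id) _ _ _ (fun _ => rfl) _
  have k0 : Form.pull id hm (Form.pull id (Dif.map_on_mono inter_subset_left) κ₀) =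
      Form.pull id (Dif.map_on_mono inter_subset_right) κ₀ :=
    Form.pull2_one (f := id) (g := id) (g' := id) _ _ _ (fun _ => rfl) _
  rw [← Form.pull_d, ← hν, Form.pull_sub', k1, k0]

/-- the two primitives of a closed form of top degree -/
theorem prims_top (F : Facts e) {D : ℝ} (hD : 0 < D) (hB : InjGE e D)
    (hdiam : ∀ p q : M, dist p q ≤ D) {l : ℕ}
    (hl : ∀ x y : M, dist x y = D → finrank ℝ (Pl e D x y) = l + 1) (p : M) {j : ℕ}
    (hN : finrank ℝ E = j + 1) {w : Form (dM E M)} (hw : w.d = 0) (hwj : Form.IsDeg (j + 1) w) :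
    ∃ (κ₀ : Form ((dM E M).on (bl p D))) (κ₁ : Form ((dM E M).on (pc p))),
      κ₀.d = Form.res (bl p D) w ∧ κ₁.d = Form.res (pc p) w ∧ Form.IsDeg j κ₀ ∧
      Form.IsDeg j κ₁ := by
  obtain ⟨κ₀, hκ₀⟩ := (contr_ball F hD hB p).exact (w := Form.res (bl p D) w) (k := j)
    (by rw [Form.res_d, hw, Form.res_zero]) (hwj.pull _ _)
  obtain ⟨κ₁, hκ₁⟩ := exact_pc F hD hB hdiam hl p hw (γ := 0) (by
    rw [cut_top F hD p (by rw [hN]; exact hwj), Form.d_zero])
  refine ⟨Form.part j κ₀, Form.part j κ₁, ?_, ?_, Form.isDeg_part j κ₀, Form.isDeg_part j κ₁⟩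
  · rw [← Form.part_succ_d, ← hκ₀]
    exact (hwj.pull _ _ : Form.IsDeg (j + 1) (Form.res (bl p D) w))
  · rw [← Form.part_succ_d, hκ₁]
    exact (hwj.pull _ _ : Form.IsDeg (j + 1) (Form.res (pc p) w))

/-- **closed forms of top degree on `M`**: two of them are proportional up to exact forms -/
theorem top_M (F : Facts e) {D : ℝ} (hD : 0 < D) (hB : InjGE e D)
    (hdiam : ∀ p q : M, dist p q ≤ D) {l : ℕ}
    (hl : ∀ x y : M, dist x y = D → finrank ℝ (Pl e D x y) = l + 1)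
    (hN : 2 ≤ finrank ℝ E) {w w₀ : Form (dM E M)} (hw : w.d = 0)
    (hwj : Form.IsDeg (finrank ℝ E) w) (hw₀ : w₀.d = 0) (hw₀j : Form.IsDeg (finrank ℝ E) w₀)
    (hne : ∀ Γ : Form (dM E M), w₀ ≠ Γ.d) :
    ∃ (c : ℝ) (Γ : Form (dM E M)), w = c • w₀ + Γ.d := by
  obtain ⟨p⟩ : Nonempty M := inferInstance
  obtain ⟨j, hj⟩ : ∃ j, finrank ℝ E = j + 2 := ⟨finrank ℝ E - 2, by omega⟩
  rw [hj] at hwj hw₀j
  obtain ⟨κ₀, κ₁, e0, e1, d0, d1⟩ := prims_top F hD hB hdiam hl p (j := j + 1) hj hw hwj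
  obtain ⟨μ₀, μ₁, f0, f1, g0, g1⟩ := prims_top F hD hB hdiam hl p (j := j + 1) hj hw₀ hw₀j
  have i0 : bl p D ∩ pc p ⊆ bl p D := inter_subset_left
  have i1 : bl p D ∩ pc p ⊆ pc p := inter_subset_right
  have r0 : ∀ w : Form (dM E M), Form.pull id (Dif.map_on_mono i0) (Form.res (bl p D) w) =
      Form.res (bl p D ∩ pc p) w := fun w =>
    Form.pull2_one (f := id) (g := id) (g' := id) _ _ _ (fun _ => rfl) w
  have r1 : ∀ w : Form (dM E M), Form.pull id (Dif.map_on_mono i1) (Form.res (pc p) w) =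
      Form.res (bl p D ∩ pc p) w := fun w =>
    Form.pull2_one (f := id) (g := id) (g' := id) _ _ _ (fun _ => rfl) w
  have hd : ∀ {w : Form (dM E M)} {κ₀ : Form ((dM E M).on (bl p D))}
      {κ₁ : Form ((dM E M).on (pc p))}, κ₀.d = Form.res (bl p D) w → κ₁.d = Form.res (pc p) w →
      (Form.pull id (Dif.map_on_mono i1) κ₁ - Form.pull id (Dif.map_on_mono i0) κ₀).d = 0 := by
    intro w κ₀ κ₁ e0 e1
    rw [Form.d_sub, ← Form.pull_d, ← Form.pull_d, e0, e1, r0, r1, sub_self]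
  have hk : ∀ {κ₀ : Form ((dM E M).on (bl p D))} {κ₁ : Form ((dM E M).on (pc p))},
      Form.IsDeg (j + 1) κ₀ → Form.IsDeg (j + 1) κ₁ → Form.IsDeg (j + 1)
        (Form.pull id (Dif.map_on_mono i1) κ₁ - Form.pull id (Dif.map_on_mono i0) κ₀) := by
    intro κ₀ κ₁ h0 h1
    have k0 : Form.IsDeg (j + 1) (Form.pull id (Dif.map_on_mono i0) κ₀) := h0.pull _ _
    have k1 : Form.IsDeg (j + 1) (Form.pull id (Dif.map_on_mono i1) κ₁) := h1.pull _ _
    exact k1.sub k0
  rcases punct_top F hD hB p hj (hd e0 e1) (hk d0 d1) (hd f0 f1) (hk g0 g1) with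
    ⟨ν, hν⟩ | ⟨c, ν, hν⟩
  · obtain ⟨Γ, hΓ⟩ := glue F hD hB p f0 f1 hν
    exact absurd hΓ (hne Γ)
  · obtain ⟨Γ, hΓ⟩ := glue F hD hB p (w := w - c • w₀) (κ₀ := κ₀ - c • μ₀) (κ₁ := κ₁ - c • μ₁)
      (ν := ν) (by
        rw [Form.d_sub, Form.d_smul, e0, f0, Form.res, Form.res, Form.res, Form.pull_sub',
          Co.pull_smul]) (by
        rw [Form.d_sub, Form.d_smul, e1, f1, Form.res, Form.res, Form.res, Form.pull_sub',
          Co.pull_smul]) (by
        rw [Form.pull_sub', Form.pull_sub', Co.pull_smul, Co.pull_smul]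
        have h1 : Form.pull id (Dif.map_on_mono i1) κ₁ - Form.pull id (Dif.map_on_mono i0) κ₀ -
            c • (Form.pull id (Dif.map_on_mono i1) μ₁ -
              Form.pull id (Dif.map_on_mono i0) μ₀) = ν.d := by
          rw [hν]
          abel
        rw [← h1, smul_sub]
        abel)
    refine ⟨c, Γ, ?_⟩
    rw [← hΓ]
    abel

end

end Vale.Agent.P231.CoTop
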